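import Crest.Agent.R287.Star
import Crest.Agent.R287.AsmDefs

/-!
Row 287: linked components, mixed case.

* `Short K K'` : a vertex of `K'` lies over `K` and is shorter than `w_K + w_{K'}`;
* `short_of_linked` : linked rings satisfy `Short` in one direction;
* `not_linked_of_phase` : two wrapping rings with the same text in some phase are not linked;
* `over_both` : a window over two wrapping rings: same phase or `Short`;
* `mixed` : the components far below a ring `V`, pairwise not short: either none of them or all of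
  them have the text of `V`;
* word forms: `overW_iff`, `linked_of_ring`.
-/

set_option autoImplicit false

namespace Crest.Agent.R287

namespace Mix

open Crest.Agent.R287.Star

theorem wrap_lt {K : Ring} (hK : K.Wrap) (s : ℤ) : s + K.w < K.F (s - 1) := by
  have h1 := K.lev_le s
  have h2 : (K.w : ℤ) < K.lev := hK
  omega

/-- equality of two phases of one periodic text on a period -/
theorem phase_of_agree {K : Ring} {c c' a b : ℤ} (hab : a + K.w ≤ b)
    (h : ∀ x, a ≤ x → x < b → K.κ (x + c) = K.κ (x + c')) (x : ℤ) : K.κ (x + c) = K.κ (x + c') := by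
  have key := Ring.κ_eq_of_window (R := K) (i := a + c) (i' := a + c') (fun n h0 h1 => by
    have := h (a + n) (by omega) (by omega)
    rw [show a + c + n = a + n + c by ring, show a + c' + n = a + n + c' by ring]
    exact this) (x - a)
  rw [show a + c + (x - a) = x + c by ring, show a + c' + (x - a) = x + c' by ring] at key
  exact key

/-- agreement of two texts, one of them in two phases -/
theorem phase_of_over {V K : Ring} (hK : K.Wrap) {a b c c' : ℤ} (ho : Over V K a b c)
    (ht : ∀ x, V.κ x = K.κ (x + c')) (x : ℤ) : V.κ x = K.κ (x + c) := by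
  have h1 := wrap_lt hK (a + c)
  have h2 := ho.2.2
  rw [show a + c - 1 = a - 1 + c by ring] at h1
  rw [ht x]
  apply phase_of_agree (a := a) (b := b) (by omega)
  intro y hy1 hy2
  rw [← ht y, ho.2.1 y hy1 hy2]

/-- some visited window of `K'` lies over `K` and is short -/
def Short (K K' : Ring) : Prop :=
  ∃ a b c, Over K' K a b c ∧ b - a < K.w + K'.w

/-- linked rings are `Short` in one of the directions -/
theorem short_of_linked {K K' : Ring} (h : K.Linked K') : Short K K' ∨ Short K' K := by
  obtain ⟨s, t, n, h1, h2, h3, h4⟩ := h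
  rw [win_eq_iff _ _ (by ring)] at h1
  have h2' : K.F (s - 1) ≤ s + n := h2
  have h3' : K'.F (t - 1) ≤ t + n := h3
  have hFs := K.Fgt (s - 1)
  have hFt := K'.Fgt (t - 1)
  have hms := K.mono (show s - 1 ≤ s by omega)
  have hmt := K'.mono (show t - 1 ≤ t by omega)
  have hshort : ∀ m : ℤ, 0 ≤ m → m ≤ n → m < K.w + K'.w ∨ False := by
    intro m hm hmn
    by_contra hcon
    push Not at hcon
    apply h4
    have := fineWilf (f := fun x => K.κ (s + x)) (g := fun x => K'.κ (t + x)) K.wpos K'.wpos
      (fun x => by rw [← K.κper (s + x)]; congr 1; ring)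
      (fun x => by rw [← K'.κper (t + x)]; congr 1; ring) (a := 0) (b := m)
      (by have := hcon.1; omega)
      (fun x hx hx' => h1 x hx (by omega))
    exact this
  rcases le_total (K.F (s - 1) - s) (K'.F (t - 1) - t) with hle | hle
  · left
    refine ⟨t, K'.F (t - 1), s - t, ⟨⟨le_refl _, hmt⟩, ?_, ?_⟩, ?_⟩
    · intro x hx hx'
      have := h1 (x - t) (by omega) (by omega)
      rw [show s + (x - t) = x + (s - t) by ring, show t + (x - t) = x by ring] at this
      exact this.symm
    · rw [show t - 1 + (s - t) = s - 1 by ring]; omega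
    · rcases hshort (K'.F (t - 1) - t) (by omega) (by omega) with h | h
      · exact h
      · exact h.elim
  · right
    refine ⟨s, K.F (s - 1), t - s, ⟨⟨le_refl _, hms⟩, ?_, ?_⟩, ?_⟩
    · intro x hx hx'
      have := h1 (x - s) (by omega) (by omega)
      rw [show t + (x - s) = x + (t - s) by ring, show s + (x - s) = x by ring] at this
      exact this
    · rw [show s - 1 + (t - s) = t - 1 by ring]; omega
    · rcases hshort (K.F (s - 1) - s) (by omega) (by omega) with h | h
      · omega
      · exact h.elim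



/-- **a window over two rings**: the texts are in phase, or the rings are linked -/
theorem over_both_linked {V K K' : Ring} {a b c c' : ℤ}
    (h : Over V K a b c) (h' : Over V K' a b c') :
    (∀ x, K.κ (x + c) = K'.κ (x + c')) ∨ K.Linked K' := by
  by_cases hph : ∀ x, K.κ (x + c) = K'.κ (x + c')
  · exact Or.inl hph
  right
  have h2 := h.2.2
  have h2' := h'.2.2
  refine ⟨a + c, a + c', b - a, ?_, ?_, ?_, ?_⟩
  · rw [win_eq_iff _ _ (by ring)]
    intro n hn hn'
    rw [show a + c + n = (a + n) + c by ring, show a + c' + n = (a + n) + c' by ring,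
      ← h.2.1 (a + n) (by omega) (by omega), ← h'.2.1 (a + n) (by omega) (by omega)]
  · show K.F (a + c - 1) ≤ _
    rw [show a + c - 1 = a - 1 + c by ring]; omega
  · show K'.F (a + c' - 1) ≤ _
    rw [show a + c' - 1 = a - 1 + c' by ring]; omega
  · intro hr
    apply hph
    intro x
    have := hr (x - a)
    rw [show a + c + (x - a) = x + c by ring, show a + c' + (x - a) = x + c' by ring] at this
    exact this

/-- same text and over at one vertex, no common vertex: over at every vertex -/
theorem over_all {V K : Ring} {a₀ b₀ c : ℤ} (h₀ : Over V K a₀ b₀ c)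
    (ht : ∀ x, V.κ x = K.κ (x + c))
    (hno : ∀ a b, V.Vis a b → ¬ K.Vis (a + c) (b + c)) :
    ∀ a b, V.Vis a b → Over V K a b c ∧ K.F (a + c) - c < b := by
  -- first the columns to the right
  have key : ∀ a b, V.Vis a b → K.F (a - 1 + c) - c ≤ b → K.F (a + c) - c < b := by
    intro a b hv hb
    by_contra hcon
    push Not at hcon
    apply hno a b hv
    refine ⟨?_, by omega⟩
    rw [show a + c - 1 = a - 1 + c by ring]; omega
  have right : ∀ n : ℕ, ∀ b, V.Vis (a₀ + n) b → b₀ ≤ b → K.F (a₀ + n - 1 + c) - c ≤ b := by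
    intro n
    induction n with
    | zero =>
      intro b hv hb
      have := h₀.2.2
      simp only [Nat.cast_zero, add_zero] at *
      omega
    | succ n ih =>
      intro b hv hb
      have h1 : V.Vis (a₀ + n) (V.F (a₀ + n)) := ⟨V.mono (by omega), le_refl _⟩
      have h2 : b₀ ≤ V.F (a₀ + n) := by
        have := V.mono (show a₀ ≤ a₀ + n by omega)
        have := h₀.1.2
        omega
      have h3 := key _ _ h1 (ih _ h1 h2)
      have h4 := hv.1
      rw [show a₀ + ((n + 1 : ℕ) : ℤ) - 1 = a₀ + n by push_cast; ring] at h4 ⊢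
      omega
  intro a b hv
  have hV : (0 : ℤ) < V.w := by exact_mod_cast V.wpos
  have hK : (0 : ℤ) < K.w := by exact_mod_cast K.wpos
  -- shift by a common period far to the right
  obtain ⟨m, hm⟩ : ∃ m : ℕ, a₀ < a + m * V.w * K.w ∧ b₀ ≤ b + m * V.w * K.w := by
    refine ⟨(a₀ - a).toNat + 1 + (b₀ - b).toNat, ?_, ?_⟩
    · have : (1 : ℤ) ≤ V.w * K.w := by nlinarith
      have h5 : (a₀ - a) < (((a₀ - a).toNat + 1 + (b₀ - b).toNat : ℕ) : ℤ) := by omega
      have h6 : (0 : ℤ) ≤ (((a₀ - a).toNat + 1 + (b₀ - b).toNat : ℕ) : ℤ) := by positivity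
      nlinarith
    · have : (1 : ℤ) ≤ V.w * K.w := by nlinarith
      have h5 : (b₀ - b) ≤ (((a₀ - a).toNat + 1 + (b₀ - b).toNat : ℕ) : ℤ) := by omega
      have h6 : (0 : ℤ) ≤ (((a₀ - a).toNat + 1 + (b₀ - b).toNat : ℕ) : ℤ) := by positivity
      nlinarith
  obtain ⟨n, hn⟩ : ∃ n : ℕ, a + m * V.w * K.w = a₀ + n := ⟨(a + m * V.w * K.w - a₀).toNat, by omega⟩
  have hv' : V.Vis (a₀ + n) (b + m * V.w * K.w) := by
    rw [← hn]
    have := (V.Vis_per (m * K.w) a b).2 hv
    rw [show a + m * V.w * K.w = a + m * K.w * V.w by ring,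
      show b + m * V.w * K.w = b + m * K.w * V.w by ring]
    exact this
  have h1 := right n _ hv' hm.2
  have h2 := key _ _ hv' h1
  rw [← hn, show a + m * V.w * K.w - 1 + c = (a - 1 + c) + (m * V.w) * K.w by ring, K.Fper'] at h1
  rw [← hn, show a + m * V.w * K.w + c = (a + c) + (m * V.w) * K.w by ring, K.Fper'] at h2
  refine ⟨⟨hv, fun x _ _ => ht x, by linarith⟩, by linarith⟩

/-- **mixed case**: rings far below `V`, pairwise not linked: if one of them has the text of `V` then
all of them have it, and `V` is over all of them at every vertex. -/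
theorem mixed_linked {ι : Type*} (V : Ring) (K : ι → Ring) (hwrap : ∀ i, (K i).Wrap)
    (hover : ∀ i, ∃ a b c, Over V (K i) a b c)
    (hno : ∀ i a b c, Over V (K i) a b c → ¬ (K i).Vis (a + c) (b + c))
    (hns : ∀ i j, i ≠ j → ¬ (K i).Linked (K j)) :
    (∀ i c, ¬ ∀ x, V.κ x = (K i).κ (x + c)) ∨
    (∀ i, ∃ c, (∀ x, V.κ x = (K i).κ (x + c)) ∧
      ∀ a b, V.Vis a b → Over V (K i) a b c ∧ (K i).F (a + c) - c < b) := by
  by_cases hex : ∃ i c, ∀ x, V.κ x = (K i).κ (x + c)
  swap
  · left
    intro i c h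
    exact hex ⟨i, c, h⟩
  right
  -- same text implies over everywhere
  have hall : ∀ i a₀ b₀ c c', Over V (K i) a₀ b₀ c → (∀ x, V.κ x = (K i).κ (x + c')) →
      (∀ x, V.κ x = (K i).κ (x + c)) ∧
      ∀ a b, V.Vis a b → Over V (K i) a b c ∧ (K i).F (a + c) - c < b := by
    intro i a₀ b₀ c c' ho ht
    have ht' := phase_of_over (hwrap i) ho ht
    refine ⟨ht', over_all ho ht' ?_⟩
    intro a b hv hk
    apply hno i a b c _ hk
    refine ⟨hv, fun x _ _ => ht' x, ?_⟩
    have := hk.1
    rw [show a + c - 1 = a - 1 + c by ring] at this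
    omega
  obtain ⟨i₀, c₀', h₀⟩ := hex
  obtain ⟨a₀, b₀, c₀, ho₀⟩ := hover i₀
  obtain ⟨ht₀, hall₀⟩ := hall i₀ a₀ b₀ c₀ c₀' ho₀ h₀
  intro i
  obtain ⟨a, b, c, ho⟩ := hover i
  by_cases hi : i = i₀
  · subst hi
    obtain ⟨h1, h2⟩ := hall i a₀ b₀ c₀ c₀' ho₀ h₀
    exact ⟨c₀, h1, h2⟩
  have h1 := (hall₀ a b ho.1).1
  rcases over_both_linked ho h1 with h | h
  · have ht : ∀ x, V.κ x = (K i).κ (x + c) := by
      intro x; rw [ht₀ x, h x]
    exact ⟨c, hall i a b c c ho ht⟩
  · exact (hns _ _ hi h).elim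

/-- the same with `Short` instead of linked -/
theorem mixed {ι : Type*} (V : Ring) (K : ι → Ring) (hwrap : ∀ i, (K i).Wrap)
    (hover : ∀ i, ∃ a b c, Over V (K i) a b c)
    (hno : ∀ i a b c, Over V (K i) a b c → ¬ (K i).Vis (a + c) (b + c))
    (hns : ∀ i j, i ≠ j → ¬ Short (K i) (K j)) :
    (∀ i c, ¬ ∀ x, V.κ x = (K i).κ (x + c)) ∨
    (∀ i, ∃ c, (∀ x, V.κ x = (K i).κ (x + c)) ∧
      ∀ a b, V.Vis a b → Over V (K i) a b c ∧ (K i).F (a + c) - c < b) := by
  refine mixed_linked V K hwrap hover hno ?_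
  intro i j hij h
  rcases short_of_linked h with h | h
  · exact hns _ _ hij h
  · exact hns _ _ hij.symm h

/-! ### word forms -/

open Asm

variable {K : WC} {R : Ring}

theorem hasPer_win (R : Ring) {s e : ℤ} (h : s + R.w ≤ e) : hasPer R.w (win R.κ s e) = true := by
  unfold hasPer
  rw [List.isPrefixOf_iff_prefix, win_append R.κ (i := s) (j := s + R.w) (k := e) (by omega) h]
  have hd : (win R.κ s (s + R.w) ++ win R.κ (s + R.w) e).drop R.w = win R.κ (s + R.w) e := by
    rw [List.drop_append, List.drop_eq_nil_of_le (by simp), length_win]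
    simp
  rw [hd, ← win_append R.κ (by omega) h]
  have := R.win_per s (e - R.w)
  rw [show e - (R.w : ℤ) + R.w = e by ring] at this
  rw [this, win_append R.κ (i := s) (j := e - R.w) (k := e) (by omega) (by omega)]
  exact List.prefix_append _ _

/-- a `w`-periodic word with a prefix longer than `w` in the text of `R` is a window of that text -/
theorem win_of_per {R : Ring} {v y : List ℕ} {i j : ℤ} (hy : y = win R.κ i j)
    (hl : (R.w : ℤ) ≤ j - i) (hp : y <+: v) (hv : hasPer R.w v = true) :
    win R.κ i (i + v.length) = v := by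
  unfold hasPer at hv
  rw [List.isPrefixOf_iff_prefix] at hv
  have hgt : ∀ n : ℕ, n + R.w < v.length → v[n + R.w]? = v[n]? := by
    intro n hn
    obtain ⟨r, hr⟩ := hv
    have h1 : (v.drop R.w)[n]? = v[n]? := by
      have h2 : (v.drop R.w ++ r)[n]? = v[n]? := by rw [hr]
      rw [List.getElem?_append_left (by simp; omega)] at h2
      exact h2
    rw [List.getElem?_drop] at h1
    rw [add_comm]; exact h1
  rw [win_eq_iff_list]
  intro n
  induction n using Nat.strong_induction_on with
  | _ n ih =>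
    intro hn
    by_cases hc : n < R.w
    · obtain ⟨r, hr⟩ := hp
      rw [← hr, List.getElem?_append_left (by rw [hy, length_win]; omega), hy,
        win_getElem? R.κ (by omega)]
    · have h1 := ih (n - R.w) (by have := R.wpos; omega) (by omega)
      have h2 := hgt (n - R.w) (by omega)
      rw [show n - R.w + R.w = n by omega] at h2
      rw [h2, ← h1]
      congr 1
      rw [← R.κper (i + ((n - R.w : ℕ) : ℤ))]
      congr 1
      omega

/-- over a wrapping component, in words -/
theorem overW_iff (hw : K.wt = R.w) (hK : R.Wrap)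
    (ht : ∀ v, v ∈ K.tour ↔ ∃ i j, R.Vis i j ∧ v = win R.κ i j) (v : List ℕ) :
    overW v K = true ↔ ∃ s, win R.κ s (s + v.length) = v ∧ R.F (s - 1) ≤ s + v.length := by
  unfold overW
  rw [Bool.and_eq_true, List.any_eq_true, hw]
  constructor
  · rintro ⟨hp, y, hy, hyv⟩
    rw [List.isPrefixOf_iff_prefix] at hyv
    obtain ⟨i, j, hv, rfl⟩ := (ht y).1 hy
    have h1 := wrap_lt hK i
    have h2 := hv.1
    refine ⟨i, win_of_per rfl (by omega) hyv hp, ?_⟩
    have := hyv.length_le
    rw [length_win] at this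
    omega
  · rintro ⟨s, h1, h2⟩
    have h3 := wrap_lt hK s
    constructor
    · rw [← h1]
      exact hasPer_win R (by omega)
    · refine ⟨win R.κ s (R.F (s - 1)), (ht _).2 ⟨s, _, ⟨le_refl _, R.mono (by omega)⟩, rfl⟩, ?_⟩
      rw [List.isPrefixOf_iff_prefix, ← h1,
        win_append R.κ (i := s) (j := R.F (s - 1)) (k := s + v.length) (by omega) h2]
      exact List.prefix_append _ _

/-- over a component at a visited window, in both forms -/
theorem over_of_overW {V : Ring} (hw : K.wt = R.w) (hK : R.Wrap)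
    (ht : ∀ v, v ∈ K.tour ↔ ∃ i j, R.Vis i j ∧ v = win R.κ i j) {a b : ℤ} (hv : V.Vis a b)
    (h : overW (win V.κ a b) K = true) : ∃ c, Over V R a b c := by
  obtain ⟨s, h1, h2⟩ := (overW_iff hw hK ht _).1 h
  have hab : a ≤ b := by
    have := V.Fgt (a - 1)
    have := hv.1
    omega
  have hl : ((win V.κ a b).length : ℤ) = b - a := by rw [length_win]; omega
  rw [hl] at h1 h2
  rw [win_eq_iff _ _ (by ring)] at h1
  refine ⟨s - a, hv, ?_, ?_⟩
  · intro x hx hx'
    have := h1 (x - a) (by omega) (by omega)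
    rw [show s + (x - a) = x + (s - a) by ring, show a + (x - a) = x by ring] at this
    exact this.symm
  · rw [show a - 1 + (s - a) = s - 1 by ring]; omega

theorem overW_of_over {V : Ring} (hw : K.wt = R.w) (hK : R.Wrap)
    (ht : ∀ v, v ∈ K.tour ↔ ∃ i j, R.Vis i j ∧ v = win R.κ i j) {a b c : ℤ}
    (h : Over V R a b c) : overW (win V.κ a b) K = true := by
  have hab : a ≤ b := by
    have := V.Fgt (a - 1)
    have := h.1.1
    omega
  have hl : ((win V.κ a b).length : ℤ) = b - a := by rw [length_win]; omega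
  rw [overW_iff hw hK ht]
  refine ⟨a + c, ?_, ?_⟩
  · rw [hl, win_eq_iff _ _ (by ring)]
    intro n hn hn'
    rw [h.2.1 (a + n) (by omega) (by omega)]
    congr 1; ring
  · rw [hl, show a + c - 1 = a - 1 + c by ring]
    have := h.2.2
    omega

/-- `overS` (some short vertex of `A` is over `K`) in ring form -/
theorem overS_iff {A K : WC} {RA RK : Ring} (hwA : A.wt = RA.w) (hwK : K.wt = RK.w) (hK : RK.Wrap)
    (htA : ∀ v, v ∈ A.tour ↔ ∃ i j, RA.Vis i j ∧ v = win RA.κ i j)
    (htK : ∀ v, v ∈ K.tour ↔ ∃ i j, RK.Vis i j ∧ v = win RK.κ i j) :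
    overS A K = true ↔ Short RK RA := by
  unfold overS
  rw [List.any_eq_true]
  constructor
  · rintro ⟨v, hv, h⟩
    rw [Bool.and_eq_true, decide_eq_true_iff] at h
    obtain ⟨a, b, hvis, rfl⟩ := (htA v).1 hv
    obtain ⟨c, hc⟩ := over_of_overW hwK hK htK hvis h.1
    refine ⟨a, b, c, hc, ?_⟩
    have := h.2
    rw [length_win, hwA, hwK] at this
    omega
  · rintro ⟨a, b, c, hc, hlt⟩
    refine ⟨win RA.κ a b, (htA _).2 ⟨a, b, hc.1, rfl⟩, ?_⟩
    rw [Bool.and_eq_true, decide_eq_true_iff]
    refine ⟨overW_of_over hwK hK htK hc, ?_⟩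
    rw [length_win, hwA, hwK]
    have := RA.Fgt (a - 1)
    have := hc.1.1
    omega

/-- linked rings give linked components -/
theorem linked_of_ring {A K : WC} {RA RK : Ring} (hwA : A.wt = RA.w) (hwK : K.wt = RK.w)
    (hlA : (A.lv : ℤ) = RA.lev) (hlK : (K.lv : ℤ) = RK.lev) (hA : RA.Wrap) (hK : RK.Wrap)
    (htA : ∀ v, v ∈ A.tour ↔ ∃ i j, RA.Vis i j ∧ v = win RA.κ i j)
    (htK : ∀ v, v ∈ K.tour ↔ ∃ i j, RK.Vis i j ∧ v = win RK.κ i j)
    (hnum : K.num ≠ A.num) (h : RK.Linked RA) : linked K A = true := by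
  unfold linked WC.wrap
  simp only [Bool.and_eq_true, decide_eq_true_iff, Bool.or_eq_true]
  have h1 : (RA.w : ℤ) < RA.lev := hA
  have h2 : (RK.w : ℤ) < RK.lev := hK
  refine ⟨⟨by omega, by omega⟩, hnum, ?_⟩
  rcases short_of_linked h with h | h
  · left; exact (overS_iff hwA hwK hK htA htK).2 h
  · right; exact (overS_iff hwK hwA hA htK htA).2 h

end Mix

end Crest.Agent.R287
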