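import Crest.Agent.R287.Core
import Crest.Agent.R287.SpecCand
import Crest.Agent.R287.AsmDefs

-- ▼ part R287/NodesCost
section

/-!
# Row 287: the closed list `nodes P` of a ring has cost at most `P.length`
-/

set_option autoImplicit false

namespace Crest.Agent.R287

/-- consecutive columns -/
def PStep (p q : Word) : Prop := p ≠ [] ∧ p.tail <+: q

/-- the columns of a chain, the previous top being `p` -/
def nodesFrom : Word → PL → List Word
  | _, [] => []
  | p, q :: P => column p q ++ nodesFrom q P

theorem nodesFrom_eq (p : Word) (P : PL) :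
    nodesFrom p P = ((p :: P).zip P).flatMap fun pq => column pq.1 pq.2 := by
  induction P generalizing p with
  | nil => simp [nodesFrom]
  | cons q P ih => simp [nodesFrom, ih]

theorem nodes_eq (P : PL) : nodes P = nodesFrom (lastW P) P := by
  rw [nodesFrom_eq]; rfl

theorem column_cons {p q : Word} (h : PStep p q) :
    column p q = p.tail :: (List.range (q.length - (p.length - 1))).map
      (fun k => q.take (p.length - 1 + 1 + k)) := by
  obtain ⟨h1, h2⟩ := h
  have hl := h2.length_le
  rw [List.length_tail] at hl
  unfold column
  rw [show q.length + 1 - (p.length - 1) = (q.length - (p.length - 1)) + 1 by omega,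
    List.range_succ_eq_map, List.map_cons, List.map_map]
  congr 1
  · rw [Nat.add_zero, ← List.length_tail]
    exact (List.prefix_iff_eq_take.1 h2).symm
  · apply List.map_congr_left
    intro k _
    simp only [Function.comp]
    congr 1
    omega



theorem cost_takes_up (q : Word) (m k : ℕ) (L : List Word) (a : Word) (ha : a = q.take k)
    (hk : k + m ≤ q.length) :
    cost (a :: (List.range m).map (fun j => q.take (k + 1 + j)) ++ L) ≤
      m + cost (q.take (k + m) :: L) := by
  induction m generalizing k a with
  | zero => simp [ha]
  | succ m ih =>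
    rw [List.range_succ_eq_map, List.map_cons, List.map_map]
    have h1 : (fun j => q.take (k + 1 + j)) ∘ Nat.succ = (fun j => q.take (k + 1 + 1 + j)) := by
      funext j; simp only [Function.comp]; congr 1; omega
    rw [h1, List.cons_append, List.cons_append, cost_cons_cons, ← List.cons_append]
    have h2 := ih (k + 1) (q.take (k + 1 + 0)) (by simp) (by omega)
    have h3 : dist a (q.take (k + 1 + 0)) ≤ 1 := by
      refine (dist_of_prefix ?_).trans ?_
      · rw [ha]; exact List.take_prefix_take_left (by omega)
      · rw [ha, List.length_take, List.length_take]; omega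
    rw [show k + (m + 1) = k + 1 + m by omega]
    omega

theorem cost_column {p q : Word} (h : PStep p q) (L : List Word) :
    cost (column p q ++ L) ≤ (q.length - (p.length - 1)) + cost (q :: L) := by
  have hl := h.2.length_le
  rw [List.length_tail] at hl
  rw [column_cons h]
  have e := List.prefix_iff_eq_take.1 h.2
  rw [List.length_tail] at e
  have := cost_takes_up q (q.length - (p.length - 1)) (p.length - 1) L p.tail e (by omega)
  rwa [show p.length - 1 + (q.length - (p.length - 1)) = q.length by omega, List.take_length]
    at this

theorem cost_nodesFrom (p : Word) (P : PL) (hc : List.IsChain PStep (p :: P)) (hP : P ≠ []) :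
    cost (nodesFrom p P ++ [(lastW P).tail]) + p.length ≤ (lastW P).length + P.length := by
  induction P generalizing p with
  | nil => exact absurd rfl hP
  | cons q P ih =>
    rw [List.isChain_cons_cons] at hc
    have hp := List.length_pos_of_ne_nil hc.1.1
    have hl := hc.1.2.length_le
    rw [List.length_tail] at hl
    cases P with
    | nil =>
      simp only [nodesFrom, List.append_nil]
      have h1 := cost_column hc.1 [(lastW [q]).tail]
      have h2 : lastW [q] = q := rfl
      rw [h2] at h1 ⊢
      simp only [cost_cons_cons, cost_single, dist_tail] at h1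
      simp only [List.length_cons, List.length_nil]
      omega
    | cons r P =>
      have h1 := ih q hc.2 (by simp)
      simp only [nodesFrom, List.append_assoc] at h1 ⊢
      have hqr : PStep q r := by
        have := hc.2
        rw [List.isChain_cons_cons] at this
        exact this.1
      have h2 := cost_column hc.1 (column q r ++ (nodesFrom r P ++ [(lastW (q :: r :: P)).tail]))
      have h3 : lastW (q :: r :: P) = lastW (r :: P) := rfl
      rw [h3] at h2 ⊢
      have h4 : cost (q :: (column q r ++ (nodesFrom r P ++ [(lastW (r :: P)).tail]))) =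
          cost (column q r ++ (nodesFrom r P ++ [(lastW (r :: P)).tail])) := by
        rw [column_cons hqr, List.cons_append, cost_cons_cons, dist_tail]; simp
      rw [h4] at h2
      simp only [List.length_cons] at h1 ⊢
      omega

/-- **cost of the tour** -/
theorem ccost_nodes_le {P : PL} (hP : P ≠ []) (hc : List.IsChain PStep (lastW P :: P)) :
    ccost (nodes P) ≤ P.length := by
  rw [nodes_eq]
  have h1 := cost_nodesFrom _ _ hc hP
  cases P with
  | nil => exact absurd rfl hP
  | cons q P =>
    rw [List.isChain_cons_cons] at hc
    have h2 : ∃ L, nodesFrom (lastW (q :: P)) (q :: P) = (lastW (q :: P)).tail :: L := by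
      simp only [nodesFrom]
      rw [column_cons hc.1]
      exact ⟨_, rfl⟩
    obtain ⟨L, hL⟩ := h2
    rw [hL] at h1 ⊢
    simp only [ccost]
    omega



end Crest.Agent.R287
private theorem rz_69141a939f : type_of% @_root_.Crest.Agent.R287.nodesFrom.eq_def := @_root_.Crest.Agent.R287.nodesFrom.eq_def -- L15
private theorem rz_7b9d389d28 : type_of% @_root_.Crest.Agent.R287.nodesFrom.eq_1 := @_root_.Crest.Agent.R287.nodesFrom.eq_1 -- L15
end

-- ▼ part R287/PWC

/-!
Row 287: conversion of a P-list into the component data `WC` of the assembly.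
-/

set_option autoImplicit false

namespace Crest.Agent.R287

open Asm

/-- component data of a P-list -/
def wcOf (P : PL) (num : ℕ) : WC := (nodes P, P.length, levN P, num)

@[simp] theorem wcOf_tour (P : PL) (n : ℕ) : (wcOf P n).tour = nodes P := rfl
@[simp] theorem wcOf_wt (P : PL) (n : ℕ) : (wcOf P n).wt = P.length := rfl
@[simp] theorem wcOf_lv (P : PL) (n : ℕ) : (wcOf P n).lv = levN P := rfl
@[simp] theorem wcOf_num (P : PL) (n : ℕ) : (wcOf P n).num = n := rfl

/-- the components of a list of P-lists, numbered in order -/
def wcsOf (Ps : List PL) : List WC := Ps.zipIdx.map (fun q => wcOf q.1 q.2)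


theorem wcsOf_num (Ps : List PL) : (wcsOf Ps).map WC.num = List.range Ps.length := by
  unfold wcsOf
  rw [List.map_map]
  have : (WC.num ∘ fun q : PL × ℕ => wcOf q.1 q.2) = Prod.snd := by
    funext q; rfl
  rw [this, List.zipIdx_map_snd]
  simp [List.range_eq_range']

theorem wcsOf_nodup (Ps : List PL) : ((wcsOf Ps).map WC.num).Nodup := by
  rw [wcsOf_num]; exact List.nodup_range

theorem mem_wcsOf {Ps : List PL} {K : WC} : K ∈ wcsOf Ps ↔ ∃ (n : ℕ) (hn : n < Ps.length),
    K = wcOf Ps[n] n := by
  unfold wcsOf
  rw [List.mem_map]
  constructor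
  · rintro ⟨⟨P, n⟩, hq, rfl⟩
    rw [List.mem_zipIdx_iff_getElem?] at hq
    obtain ⟨hn, hP⟩ := List.getElem?_eq_some_iff.mp hq
    exact ⟨n, hn, by rw [hP]⟩
  · rintro ⟨n, hn, rfl⟩
    refine ⟨(Ps[n], n), ?_, rfl⟩
    rw [List.mem_zipIdx_iff_getElem?]
    exact List.getElem?_eq_getElem hn

theorem wcsOf_wtSum (Ps : List PL) : wtSum (wcsOf Ps) = (Ps.map List.length).sum := by
  unfold wtSum wcsOf
  rw [List.map_map]
  have : (WC.wt ∘ fun q : PL × ℕ => wcOf q.1 q.2) = List.length ∘ Prod.fst := by
    funext q; rfl
  rw [this, ← List.map_map, List.zipIdx_map_fst]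

section

variable {P : PL} (h : IsPRing P)

include h in
theorem chain_lastW : List.IsChain PStep (lastW P :: P) := by
  rw [List.isChain_iff_getElem]
  intro n hn
  have hl : 0 < P.length := List.length_pos_iff.mpr h.1
  have hn' : n < P.length := by simpa using hn
  have h2 : (lastW P :: P)[n + 1] = pz P n := by
    rw [pz_nat hn', List.getD_eq_getElem?_getD, List.getElem?_eq_getElem hn']; simp
  have h1 : (lastW P :: P)[n] = pz P ((n : ℤ) - 1) := by
    cases n with
    | zero =>
      have e : (((0 : ℕ) : ℤ) - 1) % (P.length : ℤ) = ((P.length - 1 : ℕ) : ℤ) := by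
        have : (((0 : ℕ) : ℤ) - 1) = ((P.length - 1 : ℕ) : ℤ) - P.length := by omega
        rw [this, Int.sub_emod_right, Int.emod_eq_of_lt (by omega) (by omega)]
      unfold pz
      rw [e, Int.toNat_natCast, List.getElem_cons_zero]
      unfold lastW
      rw [List.getD_eq_getElem?_getD, ← List.getLast?_eq_getElem?, List.getLastD_eq_getLast?]
    | succ m =>
      have e : (((m + 1 : ℕ) : ℤ) - 1) = (m : ℤ) := by push_cast; ring
      rw [e, pz_nat (by omega), List.getD_eq_getElem?_getD, List.getElem?_eq_getElem (by omega)]
      simp
  rw [h1, h2]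
  exact ⟨h.2.1 _ (pz_mem h.1 _), pz_step' h n⟩

include h in
theorem ccost_nodes : ccost (nodes P) ≤ P.length := ccost_nodes_le h.1 (chain_lastW h)


include h in
theorem levN_le_of_mem_nodes {v : Word} (hv : v ∈ nodes P) : levN P ≤ v.length := by
  obtain ⟨i, _, hvis⟩ := (mem_nodes_iff h v).mp hv
  have h1 := (toRing P h).lev_le i
  have h2 := hvis.1
  rw [lev_toRing h] at h1
  omega

include h in
theorem hasPer_of_mem_nodes {v : Word} (hv : v ∈ nodes P) : hasPer P.length v = true := by
  obtain ⟨i, hw, _⟩ := (mem_nodes_iff h v).mp hv
  unfold hasPer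
  rw [List.isPrefixOf_iff_prefix]
  by_cases hle : P.length ≤ v.length
  · have e1 : v.drop P.length = win (toRing P h).κ (i + P.length) (i + v.length) := by
      conv_lhs => rw [← hw, win_append (toRing P h).κ (i := i) (j := i + P.length) (by omega)
        (by omega)]
      rw [List.drop_append_of_le_length (by simp), List.drop_of_length_le (by simp)]
      simp
    have e2 : win (toRing P h).κ (i + P.length) (i + v.length) =
        win (toRing P h).κ i (i + v.length - P.length) := by
      have := (toRing P h).win_per i (i + v.length - P.length)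
      rw [toRing_w] at this
      rw [← this]
      congr 1
      ring
    rw [e1, e2]
    conv_rhs => rw [← hw, win_append (toRing P h).κ (i := i) (j := i + v.length - P.length)
      (by omega) (by omega)]
    exact List.prefix_append _ _
  · rw [List.drop_of_length_le (by omega)]
    exact List.nil_prefix

include h in
theorem wrap_lt_of_mem_nodes (hw : wrapB P = true) {v : Word} (hv : v ∈ nodes P) :
    P.length < v.length := by
  have h1 := levN_le_of_mem_nodes h hv
  unfold wrapB at hw
  rw [decide_eq_true_iff] at hw
  omega

/-- visited words as ring windows, form with two endpoints -/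
theorem mem_nodes_win (v : Word) : v ∈ nodes P ↔
    ∃ i j : ℤ, (toRing P h).Vis i j ∧ v = win (toRing P h).κ i j := by
  rw [mem_nodes_iff h]
  constructor
  · rintro ⟨i, h1, h2⟩
    exact ⟨i, _, h2, h1.symm⟩
  · rintro ⟨i, j, h1, rfl⟩
    have hij : i ≤ j := by
      have := (toRing P h).Fgt (i - 1)
      have := h1.1
      omega
    have e : i + ((win (toRing P h).κ i j).length : ℤ) = j := by rw [length_win]; omega
    exact ⟨i, by rw [e], by rw [e]; exact h1⟩

end

end Crest.Agent.R287
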