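import Crest.Agent.R287.SpecCand
import Crest.Agent.R287.Cost
import Crest.Agent.R287.PWC

-- ▼ part R287/SpecLink
section

/-!
Row 287: the executable test `linkedB` of `Core.lean` decides `Ring.Linked`.
-/

set_option autoImplicit false

namespace Crest.Agent.R287

theorem LinkAt.translate {R R' : Ring} {s t : ℤ} (h : LinkAt R R' s t) (a b : ℤ) :
    LinkAt R R' (s + a * R.w) (t + b * R'.w) := by
  have e1 : s + a * R.w - 1 = (s - 1) + a * R.w := by ring
  have e2 : t + b * R'.w - 1 = (t - 1) + b * R'.w := by ring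
  refine ⟨?_, ?_⟩
  · rw [e1, e2, R.κper', R'.κper']
    exact h.1
  · intro i hi0 hi
    have e3 : s + a * R.w + i = (s + i) + a * R.w := by ring
    have e4 : t + b * R'.w + i = (t + i) + b * R'.w := by ring
    rw [e3, e4, R.κper', R'.κper']
    apply h.2 i hi0
    rw [e1, e2, R.Fper', R'.Fper'] at hi
    rcases hi with hi | hi
    · exact Or.inl (by linarith)
    · exact Or.inr (by linarith)

theorem toRing_F_sub {P : PL} (h : IsPRing P) (s : ℕ) :
    (toRing P h).F ((s : ℤ) - 1) - s = ((prevW P s).length - 1 : ℕ) := by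
  rw [prevW_eq h, toRing_F]
  have := List.length_pos_iff.mpr (h.2.1 _ (pz_mem h.1 ((s : ℤ) - 1)))
  omega

/-- `linkAt` decides `LinkAt` -/
theorem linkAt_iff {A B : PL} (hA : IsPRing A) (hB : IsPRing B) (s t : ℕ) :
    linkAt A B s t = true ↔ LinkAt (toRing A hA) (toRing B hB) s t := by
  unfold linkAt LinkAt
  rw [Bool.and_eq_true, bne_iff_ne, beq_iff_eq, perWin_txt hA, perWin_txt hB,
    win_eq_iff _ _ (by ring), toRing_F_sub hA, toRing_F_sub hB, toRing_κ, toRing_κ,
    prevW_eq hA, prevW_eq hB]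
  constructor
  · rintro ⟨h1, h2⟩
    refine ⟨h1, fun i h0 hi => h2 i h0 ?_⟩
    push_cast
    rcases hi with hi | hi
    · have := le_max_left (((pz A ((s : ℤ) - 1)).length - 1 : ℕ) : ℤ)
        (((pz B ((t : ℤ) - 1)).length - 1 : ℕ) : ℤ)
      push_cast at *
      linarith
    · have := le_max_right (((pz A ((s : ℤ) - 1)).length - 1 : ℕ) : ℤ)
        (((pz B ((t : ℤ) - 1)).length - 1 : ℕ) : ℤ)
      push_cast at *
      linarith
  · rintro ⟨h1, h2⟩
    refine ⟨h1, fun i h0 hi => h2 i h0 ?_⟩
    rw [add_sub_cancel_left] at hi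
    rw [Nat.cast_max] at hi
    exact lt_max_iff.mp hi

/-- **the test `linkedB` decides `Linked`** -/
theorem linkedB_iff {A B : PL} (hA : IsPRing A) (hB : IsPRing B) :
    linkedB A B = true ↔ (toRing A hA).Linked (toRing B hB) := by
  rw [linked_iff]
  unfold linkedB
  rw [List.any_eq_true]
  constructor
  · rintro ⟨s, _, h⟩
    rw [List.any_eq_true] at h
    obtain ⟨t, _, h⟩ := h
    exact ⟨s, t, (linkAt_iff hA hB s t).mp h⟩
  · rintro ⟨s, t, h⟩
    obtain ⟨s', hs', a, ha⟩ := exists_nat_pz hA.1 s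
    obtain ⟨t', ht', b, hb⟩ := exists_nat_pz hB.1 t
    refine ⟨s', List.mem_range.mpr hs', ?_⟩
    rw [List.any_eq_true]
    refine ⟨t', List.mem_range.mpr ht', ?_⟩
    rw [linkAt_iff hA hB]
    have := h.translate (-a) (-b)
    rw [toRing_w, toRing_w] at this
    have e1 : s + -a * A.length = s' := by rw [ha]; ring
    have e2 : t + -b * B.length = t' := by rw [hb]; ring
    rwa [e1, e2] at this


end Crest.Agent.R287
end

-- ▼ part R287/CandB

/-!
Row 287: the executable candidate test `candB` of `Core.lean` against `Cand` of `LBDefs.lean`,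
`nearB` / `Asm.near` against `Near`.
-/

set_option autoImplicit false

namespace Crest.Agent.R287

/-- `candB` implies the ring form of the candidate condition (any indexed family contained in `fam`,
which contains `K`) -/
theorem cand_of_candB {ι : Type*} (P : ι → PL) (hP : ∀ c, IsPRing (P c)) (fam : List PL)
    (hfam : ∀ c, P c ∈ fam) (K : ι) (hc : candB fam (P K) = true) :
    ∃ z : ℤ, Cand (fun c => toRing (P c) (hP c)) K z ∧
      xw (P K) = win (toRing (P K) (hP K)).κ z
        (z + ((toRing (P K) (hP K)).lev - (toRing (P K) (hP K)).w)) := by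
  unfold candB at hc
  rw [Bool.and_eq_true, Bool.and_eq_true] at hc
  obtain ⟨⟨h1, h2⟩, h3⟩ := hc
  have hwr : (P K).length ≤ levN (P K) := by
    unfold wrapB at h1
    rw [decide_eq_true_iff] at h1
    omega
  obtain ⟨z, hz1, hz2, hz3⟩ := exists_xw (hP K) hwr
  refine ⟨z, ?_, hz3⟩
  have hvis : ∀ c, VisU (fun c => toRing (P c) (hP c)) K z
      ((toRing (P K) (hP K)).lev - (toRing (P K) (hP K)).w) c → visU (P K) (P c) = true := by
    intro c hc
    rw [visU_iff (hP K) (hP c) hz2 hwr]
    exact hc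
  constructor
  · exact (wrapB_iff (hP K)).mp h1
  · exact hz1
  · intro c hc
    have h4 := List.all_eq_true.mp h2 (P c) (hfam c)
    rw [hvis c hc] at h4
    simp only [Bool.not_true, Bool.false_or, Bool.and_eq_true, decide_eq_true_iff] at h4
    refine ⟨(wrapB_iff (hP c)).mp h4.1, ?_⟩
    show (toRing (P K) (hP K)).lev ≤ (toRing (P c) (hP c)).lev
    rw [lev_toRing, lev_toRing]
    exact_mod_cast h4.2
  · intro c c' hc hc'
    have m1 : P c ∈ fam.filter (fun A => visU (P K) A) :=
      List.mem_filter.mpr ⟨hfam c, hvis c hc⟩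
    have m2 : P c' ∈ fam.filter (fun A => visU (P K) A) :=
      List.mem_filter.mpr ⟨hfam c', hvis c' hc'⟩
    have h4 := List.all_eq_true.mp (List.all_eq_true.mp h3 _ m1) _ m2
    show ¬ (toRing (P c) (hP c)).Linked (toRing (P c') (hP c'))
    rw [← linkedB_iff (hP c) (hP c')]
    simpa using h4

/-- why a wrap is not a candidate (word level) -/
theorem of_candB_eq_false {fam : List PL} {K : PL} (hw : wrapB K = true)
    (hc : candB fam K = false) :
    (∃ A ∈ fam, visU K A = true ∧ (wrapB A = false ∨ levN A < levN K)) ∨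
    (∃ A ∈ fam, ∃ B ∈ fam, visU K A = true ∧ visU K B = true ∧ linkedB A B = true ∧
      (wrapB A = true ∧ levN K ≤ levN A) ∧ (wrapB B = true ∧ levN K ≤ levN B)) := by
  by_cases h : ∃ A ∈ fam, visU K A = true ∧ (wrapB A = false ∨ levN A < levN K)
  · exact Or.inl h
  · right
    push Not at h
    have h2 : (fam.all fun A => !visU K A || (wrapB A && decide (levN K ≤ levN A))) = true := by
      rw [List.all_eq_true]
      intro A hA
      cases hv : visU K A with
      | false => simp
      | true =>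
        have := h A hA hv
        cases hwA : wrapB A with
        | false => exact absurd hwA this.1
        | true => simp [this.2]
    unfold candB at hc
    rw [hw, h2] at hc
    simp only [Bool.true_and] at hc
    rw [List.all_eq_false] at hc
    obtain ⟨A, hA, hA2⟩ := hc
    simp only [Bool.not_eq_true] at hA2
    rw [List.all_eq_false] at hA2
    obtain ⟨B, hB, hB2⟩ := hA2
    rw [List.mem_filter] at hA hB
    have hg : ∀ X ∈ fam, visU K X = true → wrapB X = true ∧ levN K ≤ levN X := by
      intro X hX hv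
      have := h X hX hv
      exact ⟨by simpa using this.1, this.2⟩
    exact ⟨A, hA.1, B, hB.1, hA.2, hB.2, by simpa using hB2, hg A hA.1 hA.2, hg B hB.1 hB.2⟩

/-- why a wrap is not a candidate (ring level, indexed family covering `fam`) -/
theorem of_candB_eq_false' {ι : Type*} (P : ι → PL) (hP : ∀ c, IsPRing (P c)) (fam : List PL)
    (hfam : ∀ A ∈ fam, ∃ c, P c = A) (K : ι)
    (hw : wrapB (P K) = true) (hc : candB fam (P K) = false) {z : ℤ}
    (hz : bottom (P K) = win (toRing (P K) (hP K)).κ z (z + levN (P K))) :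
    (∃ c, VisU (fun c => toRing (P c) (hP c)) K z
        ((toRing (P K) (hP K)).lev - (toRing (P K) (hP K)).w) c ∧
      (¬ (toRing (P c) (hP c)).Wrap ∨ (toRing (P c) (hP c)).lev < (toRing (P K) (hP K)).lev)) ∨
    (∃ c c', VisU (fun c => toRing (P c) (hP c)) K z
        ((toRing (P K) (hP K)).lev - (toRing (P K) (hP K)).w) c ∧
      VisU (fun c => toRing (P c) (hP c)) K z
        ((toRing (P K) (hP K)).lev - (toRing (P K) (hP K)).w) c' ∧
      (toRing (P c) (hP c)).Linked (toRing (P c') (hP c')) ∧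
      ((toRing (P c) (hP c)).Wrap ∧ (toRing (P K) (hP K)).lev ≤ (toRing (P c) (hP c)).lev) ∧
      ((toRing (P c') (hP c')).Wrap ∧ (toRing (P K) (hP K)).lev ≤ (toRing (P c') (hP c')).lev)) := by
  have hwr : (P K).length ≤ levN (P K) := by
    unfold wrapB at hw
    rw [decide_eq_true_iff] at hw
    omega
  have hvis : ∀ c, visU (P K) (P c) = true → VisU (fun c => toRing (P c) (hP c)) K z
      ((toRing (P K) (hP K)).lev - (toRing (P K) (hP K)).w) c := by
    intro c hc
    rw [visU_iff (hP K) (hP c) hz hwr] at hc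
    exact hc
  rcases of_candB_eq_false hw hc with ⟨A, hA, hv, h1⟩ | ⟨A, hA, B, hB, hvA, hvB, hl, hA2, hB2⟩
  · obtain ⟨c, rfl⟩ := hfam A hA
    left
    refine ⟨c, hvis c hv, ?_⟩
    rw [← wrapB_iff, lev_toRing, lev_toRing]
    rcases h1 with h1 | h1
    · left; simp [h1]
    · right; exact_mod_cast h1
  · obtain ⟨c, rfl⟩ := hfam A hA
    obtain ⟨c', rfl⟩ := hfam B hB
    right
    refine ⟨c, c', hvis c hvA, hvis c' hvB, (linkedB_iff _ _).mp hl, ?_, ?_⟩
    · rw [← wrapB_iff, lev_toRing, lev_toRing]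
      exact ⟨hA2.1, by exact_mod_cast hA2.2⟩
    · rw [← wrapB_iff, lev_toRing, lev_toRing]
      exact ⟨hB2.1, by exact_mod_cast hB2.2⟩

/-! ### near -/

theorem mem_nodes_visW {P : PL} (h : IsPRing P) (v : Word) :
    v ∈ nodes P ↔ (toRing P h).VisW v := mem_nodes_win h v

/-- `nearB` decides `Near` -/
theorem nearB_iff {K A : PL} (hK : IsPRing K) (hA : IsPRing A) :
    nearB K A = true ↔ Near (toRing K hK) (toRing A hA) := by
  unfold nearB nearPair Near
  rw [List.find?_isSome]
  constructor
  · rintro ⟨⟨u, v⟩, h1, h2⟩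
    rw [List.mem_flatMap] at h1
    obtain ⟨u', hu', h1⟩ := h1
    rw [List.mem_map] at h1
    obtain ⟨v', hv', he⟩ := h1
    rw [Prod.mk.injEq] at he
    obtain ⟨rfl, rfl⟩ := he
    rw [decide_eq_true_iff] at h2
    refine ⟨u', v', (mem_nodes_visW hK _).mp hu', (mem_nodes_visW hA _).mp hv', ?_⟩
    rw [toRing_w]
    simp only at h2
    omega
  · rintro ⟨u, v, hu, hv, h2⟩
    refine ⟨(u, v), ?_, ?_⟩
    · rw [List.mem_flatMap]
      exact ⟨u, (mem_nodes_visW hK _).mpr hu, List.mem_map.mpr
        ⟨v, (mem_nodes_visW hA _).mpr hv, rfl⟩⟩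
    · rw [decide_eq_true_iff]
      rw [toRing_w] at h2
      simp only
      omega

/-- `Asm.near` decides `Near` -/
theorem asm_near_iff {K A : PL} (hK : IsPRing K) (hA : IsPRing A) (n m : ℕ) :
    Asm.near (wcOf K n) (wcOf A m) = true ↔ Near (toRing K hK) (toRing A hA) :=
  nearB_iff hK hA

end Crest.Agent.R287
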