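import Mathlib

/-!
Row 287 (shortest superstring, 2-approximation): rings = closed walks of the hierarchical graph
in staircase form, counting functions and their two basic recursions; occurrences in a string.
-/

set_option autoImplicit false

namespace Crest.Agent.R287

/-- the window `κ[i, j)` -/
def win (κ : ℤ → ℕ) (i j : ℤ) : List ℕ :=
  (List.range (j - i).toNat).map (fun k : ℕ => κ (i + (k : ℤ)))

@[simp] theorem length_win (κ : ℤ → ℕ) (i j : ℤ) : (win κ i j).length = (j - i).toNat := by
  simp [win]

theorem win_self (κ : ℤ → ℕ) (i : ℤ) : win κ i i = [] := by simp [win]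

theorem win_eq_nil (κ : ℤ → ℕ) {i j : ℤ} (h : j ≤ i) : win κ i j = [] := by
  have : (j - i).toNat = 0 := by omega
  simp [win, this]


theorem win_cons (κ : ℤ → ℕ) {i j : ℤ} (h : i < j) :
    win κ i j = κ i :: win κ (i + 1) j := by
  have h1 : (j - i).toNat = (j - (i + 1)).toNat + 1 := by omega
  simp only [win, h1, List.range_succ_eq_map, List.map_cons, List.map_map]
  congr 1
  · simp
  · apply List.map_congr_left
    intro a _
    simp only [Function.comp]
    congr 1
    push_cast
    ring

theorem win_append (κ : ℤ → ℕ) {i j k : ℤ} (h : i ≤ j) (h' : j ≤ k) :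
    win κ i k = win κ i j ++ win κ j k := by
  have h1 : (k - i).toNat = (j - i).toNat + (k - j).toNat := by omega
  simp only [win, h1, List.range_add, List.map_append, List.map_map]
  congr 1
  apply List.map_congr_left
  intro a _
  simp only [Function.comp]
  congr 1
  push_cast
  omega

theorem win_eq_iff (κ κ' : ℤ → ℕ) {i j i' j' : ℤ} (h : j - i = j' - i') :
    win κ i j = win κ' i' j' ↔ ∀ n : ℤ, 0 ≤ n → n < j - i → κ (i + n) = κ' (i' + n) := by
  have h1 : (j - i).toNat = (j' - i').toNat := by rw [h]
  constructor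
  · intro e n hn hn'
    have := congrArg (fun l => l[n.toNat]?) e
    simp only [win, List.getElem?_map] at this
    have hr : n.toNat < (j - i).toNat := by omega
    rw [List.getElem?_range hr, List.getElem?_range (h1 ▸ hr)] at this
    simp only [Option.map_some, Option.some.injEq] at this
    have h2 : ((n.toNat : ℕ) : ℤ) = n := by omega
    rw [h2] at this
    exact this
  · intro e
    simp only [win, ← h1]
    apply List.map_congr_left
    intro a ha
    rw [List.mem_range] at ha
    exact e a (by omega) (by omega)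

theorem win_getElem? (κ : ℤ → ℕ) {i j : ℤ} {n : ℕ} (h : (n : ℤ) < j - i) :
    (win κ i j)[n]? = some (κ (i + n)) := by
  simp only [win, List.getElem?_map]
  rw [List.getElem?_range (by omega)]
  rfl

/-- a string equal to a window: characterisation -/
theorem win_eq_iff_list (κ : ℤ → ℕ) (i : ℤ) (y : List ℕ) :
    win κ i (i + y.length) = y ↔ ∀ n : ℕ, n < y.length → some (κ (i + n)) = y[n]? := by
  constructor
  · intro e n hn
    rw [← win_getElem? κ (i := i) (j := i + y.length) (n := n) (by omega), e]
  · intro e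
    apply List.ext_getElem?
    intro n
    by_cases hn : n < y.length
    · rw [win_getElem? κ (by omega), e n hn]
    · rw [List.getElem?_eq_none (by simp; omega), List.getElem?_eq_none (by omega)]

/-- A ring: a closed walk in the hierarchical graph (append a letter / drop the first letter).
`κ` is its bi-infinite periodic text with period `w`; the letter at position `i` is dropped when the
right end is `F i`.  The visited windows in column `i` are `κ[i, j)` with `F (i-1) ≤ j ≤ F i`. -/
structure Ring where
  w : ℕ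
  wpos : 0 < w
  κ : ℤ → ℕ
  κper : ∀ i, κ (i + w) = κ i
  F : ℤ → ℤ
  mono : Monotone F
  Fper : ∀ i, F (i + w) = F i + w
  Fgt : ∀ i, i < F i

/-- number of residues `n < w` satisfying `P` -/
def cnt (w : ℕ) (P : ℤ → Prop) [DecidablePred P] : ℕ :=
  ∑ n ∈ Finset.range w, if P n then 1 else 0



theorem cnt_congr {w : ℕ} {P Q : ℤ → Prop} [DecidablePred P] [DecidablePred Q]
    (h : ∀ i, P i ↔ Q i) : cnt w P = cnt w Q := by
  unfold cnt
  exact Finset.sum_congr rfl (fun n _ => by simp [h])




namespace Ring

variable (R : Ring)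

/-- visited lattice points -/
def Vis (i j : ℤ) : Prop := R.F (i - 1) ≤ j ∧ j ≤ R.F i

/-- number of occurrences of `y` covered by the walk -/
def M (y : List ℕ) : ℕ :=
  cnt R.w (fun i => win R.κ i (i + y.length) = y ∧ i + y.length ≤ R.F i)

/-- number of down-arcs out of `y` -/
def D (y : List ℕ) : ℕ :=
  cnt R.w (fun i => win R.κ i (i + y.length) = y ∧ i + y.length = R.F i)

/-- number of up-arcs into `y` -/
def U (y : List ℕ) : ℕ :=
  cnt R.w (fun i => win R.κ i (i + y.length) = y ∧ (R.F (i - 1) < i + y.length ∧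
    i + y.length ≤ R.F i))

theorem κper' (k i : ℤ) : R.κ (i + k * R.w) = R.κ i := by
  have hn : ∀ (n : ℕ) (i : ℤ), R.κ (i + n * R.w) = R.κ i := by
    intro n
    induction n with
    | zero => intro i; simp
    | succ n ih =>
      intro i
      have : i + ((n + 1 : ℕ) : ℤ) * R.w = (i + n * R.w) + R.w := by push_cast; ring
      rw [this, R.κper, ih]
  obtain ⟨n, rfl | rfl⟩ := Int.eq_nat_or_neg k
  · exact hn n i
  · have := hn n (i + -(n : ℤ) * R.w)
    have e : i + -(n : ℤ) * R.w + n * R.w = i := by ring
    rw [e] at this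
    exact this.symm

theorem Fper' (k i : ℤ) : R.F (i + k * R.w) = R.F i + k * R.w := by
  have hn : ∀ (n : ℕ) (i : ℤ), R.F (i + n * R.w) = R.F i + n * R.w := by
    intro n
    induction n with
    | zero => intro i; simp
    | succ n ih =>
      intro i
      have : i + ((n + 1 : ℕ) : ℤ) * R.w = (i + n * R.w) + R.w := by push_cast; ring
      rw [this, R.Fper, ih]; push_cast; ring
  obtain ⟨n, rfl | rfl⟩ := Int.eq_nat_or_neg k
  · exact hn n i
  · have := hn n (i + -(n : ℤ) * R.w)
    have e : i + -(n : ℤ) * R.w + n * R.w = i := by ring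
    rw [e] at this
    linarith

theorem win_per (i j : ℤ) : win R.κ (i + R.w) (j + R.w) = win R.κ i j := by
  rw [win_eq_iff _ _ (by ring)]
  intro n _ _
  have : i + R.w + n = (i + n) + R.w := by ring
  rw [this, R.κper]

theorem win_per' (k i j : ℤ) : win R.κ (i + k * R.w) (j + k * R.w) = win R.κ i j := by
  rw [win_eq_iff _ _ (by ring)]
  intro n _ _
  have : i + k * R.w + n = (i + n) + k * R.w := by ring
  rw [this, R.κper']

theorem Vis_per (k i j : ℤ) : R.Vis (i + k * R.w) (j + k * R.w) ↔ R.Vis i j := by
  unfold Vis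
  have e : i + k * R.w - 1 = (i - 1) + k * R.w := by ring
  rw [e, R.Fper', R.Fper']
  constructor <;> intro h <;> constructor <;> linarith [h.1, h.2]






/-- equality of a long window with itself in another phase propagates -/
theorem κ_eq_of_window {R : Ring} {i i' : ℤ}
    (h : ∀ n : ℤ, 0 ≤ n → n < R.w → R.κ (i + n) = R.κ (i' + n)) (n : ℤ) :
    R.κ (i + n) = R.κ (i' + n) := by
  have hw' : (0 : ℤ) < R.w := by exact_mod_cast R.wpos
  have h0 := Int.emod_nonneg n hw'.ne'
  have h1 := Int.emod_lt_of_pos n hw'
  have e : n % R.w + (n / R.w) * R.w = n := by rw [mul_comm]; exact Int.emod_add_mul_ediv n R.w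
  have e1 : i + n = (i + n % R.w) + (n / R.w) * R.w := by linarith
  have e2 : i' + n = (i' + n % R.w) + (n / R.w) * R.w := by linarith
  rw [e1, e2, R.κper', R.κper']
  exact h _ h0 h1

/-- bounded window length -/
theorem exists_bound (R : Ring) : ∃ B : ℕ, ∀ i, R.F i - i ≤ B := by
  have hw' : (0 : ℤ) < R.w := by exact_mod_cast R.wpos
  refine ⟨(R.F R.w).toNat, fun i => ?_⟩
  have h0 := Int.emod_nonneg i hw'.ne'
  have h1 := Int.emod_lt_of_pos i hw'
  have e : i % R.w + (i / R.w) * R.w = i := by rw [mul_comm]; exact Int.emod_add_mul_ediv i R.w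
  have e1 : R.F i = R.F (i % R.w) + (i / R.w) * R.w := by
    rw [← R.Fper', e]
  have e2 : R.F (i % R.w) ≤ R.F R.w := R.mono h1.le
  omega

/-- `l`-bottom lower bound -/
def LevGE (R : Ring) (l : ℤ) : Prop := ∀ i, i + l ≤ R.F (i - 1)

/-- the level of a ring: minimal length of a visited window -/
noncomputable def lev (R : Ring) : ℤ :=
  (Finset.range R.w).inf' (Finset.nonempty_range_iff.mpr R.wpos.ne') (fun n => R.F ((n : ℤ) - 1) - n)

theorem lev_le (R : Ring) (i : ℤ) : R.lev ≤ R.F (i - 1) - i := by
  have hw' : (0 : ℤ) < R.w := by exact_mod_cast R.wpos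
  have h0 := Int.emod_nonneg i hw'.ne'
  have h1 := Int.emod_lt_of_pos i hw'
  have e : i % R.w + (i / R.w) * R.w = i := by rw [mul_comm]; exact Int.emod_add_mul_ediv i R.w
  have e1 : R.F (i - 1) = R.F (i % R.w - 1) + (i / R.w) * R.w := by
    rw [← R.Fper']; congr 1; linarith
  obtain ⟨n, hn⟩ := Int.eq_ofNat_of_zero_le h0
  have hmem : n ∈ Finset.range R.w := by rw [Finset.mem_range]; omega
  have := Finset.inf'_le (fun n : ℕ => R.F ((n : ℤ) - 1) - n) hmem
  have h2 : R.lev ≤ R.F ((n : ℤ) - 1) - n := this
  rw [← hn] at h2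
  omega

theorem exists_lev (R : Ring) : ∃ i : ℤ, 0 ≤ i ∧ i < R.w ∧ R.F (i - 1) - i = R.lev := by
  obtain ⟨n, hn, h⟩ := Finset.exists_mem_eq_inf' (Finset.nonempty_range_iff.mpr R.wpos.ne')
    (fun n : ℕ => R.F ((n : ℤ) - 1) - n)
  rw [Finset.mem_range] at hn
  exact ⟨n, by omega, by exact_mod_cast hn, h.symm⟩

theorem levGE_iff (R : Ring) (l : ℤ) : R.LevGE l ↔ l ≤ R.lev := by
  constructor
  · intro h
    obtain ⟨i, _, _, hi⟩ := R.exists_lev
    have := h i
    omega
  · intro h i
    have := R.lev_le i
    omega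


/-- wrapping ring -/
def Wrap (R : Ring) : Prop := (R.w : ℤ) < R.lev

/-- `R` touches the window `[s, e)`: it visits the window `[s, F (s-1))`, which lies inside. -/
def Touch (R : Ring) (s e : ℤ) : Prop := R.F (s - 1) ≤ e

/-- two rings are linked: they touch a common word and are not in phase there -/
def Linked (R R' : Ring) : Prop :=
  ∃ s t n : ℤ, win R.κ s (s + n) = win R'.κ t (t + n) ∧ R.Touch s (s + n) ∧ R'.Touch t (t + n) ∧
    ¬ ∀ r, R.κ (s + r) = R'.κ (t + r)

theorem Linked.symm {R R' : Ring} (h : Linked R R') : Linked R' R := by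
  obtain ⟨s, t, n, h1, h2, h3, h4⟩ := h
  exact ⟨t, s, n, h1.symm, h3, h2, fun h => h4 (fun r => (h r).symm)⟩

/-- translation of a ring -/
def shift (R : Ring) (a : ℤ) : Ring where
  w := R.w
  wpos := R.wpos
  κ := fun i => R.κ (i + a)
  κper := by intro i; have := R.κper (i + a); rw [← this]; congr 1; ring
  F := fun i => R.F (i + a) - a
  mono := by intro i j h; have := R.mono (show i + a ≤ j + a by omega); simp only; omega
  Fper := by
    intro i
    have := R.Fper (i + a)
    have e : i + (R.w : ℤ) + a = i + a + R.w := by ring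
    simp only [e, this]; ring
  Fgt := by intro i; have := R.Fgt (i + a); omega







end Ring

end Crest.Agent.R287
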