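import Mathlib
import Crest.Agent.R287.Ring

-- ▼ part R287/Occ
section

/-!
Row 287: number of occurrences of a word in a string, recursions.
-/

set_option autoImplicit false

namespace Crest.Agent.R287

/-- number of occurrences of the (nonempty) word `y` in the string `T` -/
def occ (y : List ℕ) : List ℕ → ℕ
  | [] => 0
  | (c :: T) => (if y <+: (c :: T) then 1 else 0) + occ y T

@[simp] theorem occ_nil (y : List ℕ) : occ y [] = 0 := rfl

theorem occ_cons (y : List ℕ) (c : ℕ) (T : List ℕ) :
    occ y (c :: T) = (if y <+: (c :: T) then 1 else 0) + occ y T := rfl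


theorem occ_pos {y T : List ℕ} (hy : y ≠ []) (h : y <:+: T) : 0 < occ y T := by
  induction T with
  | nil => exact absurd (List.infix_nil.mp h) hy
  | cons c T ih =>
    rw [occ_cons]
    rcases List.infix_cons_iff.mp h with h | h
    · simp [h]
    · have := ih h
      omega


/-- splitting a prefix test by the next letter -/
theorem prefix_split (A : Finset ℕ) {y T : List ℕ} (hA : ∀ c ∈ T, c ∈ A) :
    (if y <+: T then 1 else 0) = (if y = T then 1 else 0) +
      ∑ b ∈ A, (if (y ++ [b]) <+: T then 1 else 0) := by
  by_cases hp : y <+: T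
  · obtain ⟨r, hr⟩ := hp
    cases r with
    | nil =>
      have e : y = T := by simpa using hr
      have h2 : ∀ b, ¬ ((y ++ [b]) <+: T) := by
        intro b hb
        have := hb.length_le
        rw [e] at this
        simp at this
      rw [if_pos ⟨[], hr⟩, if_pos e]
      simp [h2]
    | cons b r =>
      have e : y ≠ T := by
        intro e
        have := congrArg List.length hr
        rw [e] at this
        simp at this
      have hb : ∀ b', ((y ++ [b']) <+: T) ↔ b' = b := by
        intro b'
        constructor
        · rintro ⟨r', hr'⟩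
          rw [← hr, List.append_assoc, List.append_right_inj] at hr'
          simpa using (List.cons.inj hr').1
        · rintro rfl
          exact ⟨r, by rw [← hr]; simp⟩
      have hbA : b ∈ A := hA b (by rw [← hr]; simp)
      rw [if_pos ⟨b :: r, hr⟩, if_neg e]
      simp [hb, hbA]
  · have e : y ≠ T := fun e => hp (e ▸ List.prefix_rfl)
    have h2 : ∀ b, ¬ ((y ++ [b]) <+: T) := fun b hb => hp ((List.prefix_append y [b]).trans hb)
    rw [if_neg hp, if_neg e]
    simp [h2]

/-- recursion by the right neighbour -/
theorem occ_eq_suffix (A : Finset ℕ) {T : List ℕ} (hA : ∀ c ∈ T, c ∈ A) {y : List ℕ}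
    (hy : y ≠ []) :
    occ y T = ∑ b ∈ A, occ (y ++ [b]) T + (if y <:+ T then 1 else 0) := by
  induction T with
  | nil =>
    have : ¬ (y <:+ []) := by simpa using hy
    simp [this]
  | cons c T ih =>
    have ih' := ih (fun d hd => hA d (List.mem_cons_of_mem c hd))
    have hs : (if y <:+ (c :: T) then 1 else 0) = (if y = c :: T then 1 else 0) +
        (if y <:+ T then 1 else 0) := by
      by_cases h1 : y = c :: T
      · have h2 : ¬ (y <:+ T) := by
          intro h2
          have := h2.length_le
          rw [h1] at this
          simp at this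
        have h3 : y <:+ (c :: T) := List.suffix_cons_iff.mpr (Or.inl h1)
        rw [if_pos h1, if_neg h2, if_pos h3]
      · by_cases h2 : y <:+ T
        · have h3 : y <:+ (c :: T) := List.suffix_cons_iff.mpr (Or.inr h2)
          rw [if_neg h1, if_pos h2, if_pos h3]
        · have h3 : ¬ (y <:+ (c :: T)) := by
            rw [List.suffix_cons_iff]; exact not_or.mpr ⟨h1, h2⟩
          rw [if_neg h1, if_neg h2, if_neg h3]
    simp only [occ_cons, Finset.sum_add_distrib]
    rw [prefix_split A hA, hs, ih']
    ring

/-- recursion by the left neighbour -/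
theorem occ_eq_prefix (A : Finset ℕ) {T : List ℕ} (hA : ∀ c ∈ T, c ∈ A) {y : List ℕ}
    (hy : y ≠ []) :
    occ y T = ∑ a ∈ A, occ (a :: y) T + (if y <+: T then 1 else 0) := by
  induction T with
  | nil =>
    have : ¬ (y <+: []) := by simpa using hy
    simp [this]
  | cons c T ih =>
    have ih' := ih (fun d hd => hA d (List.mem_cons_of_mem c hd))
    have hc : c ∈ A := hA c (by simp)
    have hs : ∑ a ∈ A, (if (a :: y) <+: (c :: T) then 1 else 0) = (if y <+: T then 1 else 0) := by
      have : ∀ a, ((a :: y) <+: (c :: T)) ↔ (a = c ∧ y <+: T) := by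
        intro a; rw [List.cons_prefix_cons]
      simp only [this]
      by_cases h : y <+: T
      · simp [h, hc]
      · simp [h]
    simp only [occ_cons, Finset.sum_add_distrib]
    rw [hs, ih']
    ring



theorem sum_occ_singleton (A : Finset ℕ) {T : List ℕ} (hA : ∀ c ∈ T, c ∈ A) :
    ∑ a ∈ A, occ [a] T = T.length := by
  induction T with
  | nil => simp
  | cons c T ih =>
    have ih' := ih (fun d hd => hA d (List.mem_cons_of_mem c hd))
    have hc : c ∈ A := hA c (by simp)
    simp only [occ_cons, Finset.sum_add_distrib, ih', List.length_cons]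
    have : ∀ a, ([a] <+: (c :: T)) ↔ a = c := by
      intro a; rw [List.cons_prefix_cons]; simp
    simp only [this]
    simp [hc]
    ring

end Crest.Agent.R287
end

-- ▼ part R287/LBDefs

/-!
Row 287: totals over a finite family of rings, pointwise wrap-up of the lower bound.
-/

set_option autoImplicit false

namespace Crest.Agent.R287

open Finset

variable {ι : Type*} [Fintype ι]

/-- total number of covered occurrences -/
def Mtot (R : ι → Ring) (y : List ℕ) : ℕ := ∑ c, (R c).M y

/-- the ring `c` visits a word of `U(x)`, `x = κ_K[z, z+m)` -/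
def VisU (R : ι → Ring) (K : ι) (z m : ℤ) (c : ι) : Prop :=
  ∃ i j t : ℤ, i ≤ z ∧ z + m ≤ j ∧ win (R c).κ t (t + (j - i)) = win (R K).κ i j ∧
    (R c).Vis t (t + (j - i))

/-- the candidate condition of the algorithm (`x = κ_K[z, z + lev - w)`), in ring form -/
structure Cand (R : ι → Ring) (K : ι) (z : ℤ) : Prop where
  wrapK : (R K).Wrap
  bot : (R K).F (z - 1) = z + (R K).lev
  wrap : ∀ c, VisU R K z ((R K).lev - (R K).w) c → (R c).Wrap ∧ (R K).lev ≤ (R c).lev
  unlinked : ∀ c c', VisU R K z ((R K).lev - (R K).w) c → VisU R K z ((R K).lev - (R K).w) c' →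
    ¬ (R c).Linked (R c')

section letters

variable (R : ι → Ring) (T : List ℕ)


variable {R}



variable (R)


variable {R T}



end letters

/-- FROZEN STATEMENT of the lower bound step (slack lemma), to be proved in `LBStep.lean`. -/
def LBStepStatement : Prop :=
  ∀ (ι : Type) [Fintype ι] (R : ι → Ring) (K : ι) (z : ℤ) (T : List ℕ), Cand R K z →
    (∀ y : List ℕ, (win (R K).κ z (z + ((R K).lev - (R K).w))).length < y.length →
      Mtot R y ≤ occ y T) →
    Mtot R (win (R K).κ z (z + ((R K).lev - (R K).w))) + 1 ≤
      occ (win (R K).κ z (z + ((R K).lev - (R K).w))) T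

end Crest.Agent.R287
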