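import Crest.Agent.R287.Core
import Crest.Agent.R287.SpecCand
import Crest.Agent.R287.LBDefs
import Crest.Agent.R287.CandB
import Crest.Agent.R287.CoreMerge

-- ▼ part R287/InvStruct
section

/-!
# Row 287: structural invariants of the one-pass algorithm

`IsOpen m X`, `IsRingGe m P`, link-freeness, merging, stages of a level, blocks.
-/

set_option autoImplicit false

namespace Crest.Agent.R287

/-! ### head and last -/

theorem lastW_append' {X Y : PL} (h : Y ≠ []) : lastW (X ++ Y) = lastW Y := by
  unfold lastW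
  obtain ⟨a, l, rfl⟩ := List.exists_cons_of_ne_nil h
  rw [List.getLastD_eq_getLast?, List.getLastD_eq_getLast?, List.getLast?_append]
  simp [List.getLast?_cons]

theorem headW_append' {X Y : PL} (h : X ≠ []) : headW (X ++ Y) = headW X := by
  obtain ⟨a, l, rfl⟩ := List.exists_cons_of_ne_nil h
  rfl



theorem lastW_concat' (X : PL) (s : Word) : lastW (X ++ [s]) = s := by
  rw [lastW_append' (by simp)]; rfl

/-- open chain at level `m` -/
structure IsOpen (m : ℕ) (X : PL) : Prop where
  ne : X ≠ []
  chain : List.IsChain (fun p q : Word => p.tail <+: q) X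
  len : ∀ p ∈ X, m < p.length
  last : (lastW X).length = m + 1

/-- ring all of whose words are longer than `m` -/
structure IsRingGe (m : ℕ) (P : PL) : Prop where
  ring : IsPRing P
  len : ∀ p ∈ P, m < p.length

theorem IsRingGe.mono {m n : ℕ} {P : PL} (h : IsRingGe m P) (hn : n ≤ m) : IsRingGe n P :=
  ⟨h.ring, fun p hp => lt_of_le_of_lt hn (h.len p hp)⟩

theorem isOpen_singleton {m : ℕ} {s : Word} (h : s.length = m + 1) : IsOpen m [s] :=
  ⟨by simp, List.isChain_singleton _, by simp [h], h⟩

theorem IsOpen.append {m : ℕ} {X Y : PL} (hX : IsOpen m X) (hY : IsOpen m Y)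
    (h : linkB X Y = true) : IsOpen m (X ++ Y) := by
  refine ⟨by simp [hX.ne], ?_, ?_, ?_⟩
  · rw [List.isChain_append]
    refine ⟨hX.chain, hY.chain, ?_⟩
    intro p hp q hq
    have e1 : lastW X = p := by
      unfold lastW; rw [List.getLastD_eq_getLast?, Option.mem_def.mp hp]; rfl
    have e2 : headW Y = q := by
      unfold headW; rw [List.headD_eq_head?_getD, Option.mem_def.mp hq]; rfl
    unfold linkB at h
    rw [e1, e2] at h
    exact List.isPrefixOf_iff_prefix.mp h
  · intro p hp
    rcases List.mem_append.mp hp with hp | hp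
    · exact hX.len p hp
    · exact hY.len p hp
  · rw [lastW_append' hY.ne]; exact hY.last

theorem IsOpen.ext {m : ℕ} {X : PL} (hm : 1 ≤ m) (hX : IsOpen m X) :
    IsOpen (m - 1) (R287.ext X) := by
  have hlen : (lastW X).tail.length = m := by rw [List.length_tail, hX.last]; omega
  refine ⟨by simp [R287.ext], ?_, ?_, ?_⟩
  · unfold R287.ext
    rw [List.isChain_append]
    refine ⟨hX.chain, List.isChain_singleton _, ?_⟩
    intro p hp q hq
    have e1 : lastW X = p := by
      unfold lastW; rw [List.getLastD_eq_getLast?, Option.mem_def.mp hp]; rfl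
    simp only [List.head?_cons, Option.mem_def, Option.some.injEq] at hq
    rw [← hq, e1]
  · intro p hp
    unfold R287.ext at hp
    rcases List.mem_append.mp hp with hp | hp
    · have := hX.len p hp; omega
    · simp only [List.mem_singleton] at hp; rw [hp, hlen]; omega
  · unfold R287.ext
    rw [lastW_concat', hlen]; omega

/-- an open chain that links to itself is a ring -/
theorem IsOpen.close {m : ℕ} {X : PL} (hX : IsOpen m X) (h : linkB X X = true) :
    IsRingGe m X := by
  refine ⟨⟨hX.ne, ?_, ?_⟩, hX.len⟩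
  · intro p hp e
    have := hX.len p hp
    rw [e] at this; simp at this
  · rw [List.isChain_append]
    refine ⟨hX.chain, List.isChain_singleton _, ?_⟩
    intro p hp q hq
    have e1 : lastW X = p := by
      unfold lastW; rw [List.getLastD_eq_getLast?, Option.mem_def.mp hp]; rfl
    simp only [List.head?_cons, Option.mem_def, Option.some.injEq] at hq
    unfold linkB at h
    rw [e1] at h
    have := List.isPrefixOf_iff_prefix.mp h
    rw [← hq]; exact this

/-! ### merging -/

/-- no links between members at different positions -/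
def Free (l : List PL) : Prop :=
  l.Pairwise fun X Y => linkB X Y = false ∧ linkB Y X = false

theorem pick_none' {p : PL → Bool} {acc : List PL} (h : ∀ Y ∈ acc, p Y = false) :
    pick p acc = ([], acc) := by
  unfold pick
  have h1 : acc.find? p = none := by
    rw [List.find?_eq_none]; intro x hx; simp [h x hx]
  have h2 : acc.eraseP p = acc := by
    rw [List.eraseP_of_forall_not]; intro x hx; simp [h x hx]
  rw [h1, h2]; rfl

theorem pick_some' {p : PL → Bool} {acc : List PL} (h : ∃ Y ∈ acc, p Y = true) :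
    ∃ Y l₁ l₂, acc = l₁ ++ Y :: l₂ ∧ p Y = true ∧ pick p acc = (Y, l₁ ++ l₂) := by
  obtain ⟨Y, hY, hp⟩ := h
  obtain ⟨a, l₁, l₂, h1, h2, h3, h4⟩ := List.exists_of_eraseP hY hp
  refine ⟨a, l₁, l₂, h3, h2, ?_⟩
  unfold pick
  rw [h4]
  have : acc.find? p = some a := by
    rw [h3, List.find?_append]
    have : l₁.find? p = none := by
      rw [List.find?_eq_none]; intro x hx; exact h1 x hx
    rw [this]
    simp [h2]
  rw [this]; rfl

/-- specification of one insertion -/
theorem insertOpen_cases (X : PL) (acc : List PL) :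
    ∃ A B rest, insertOpen X acc = (A ++ (X ++ B)) :: rest ∧
      ((B = [] ∧ (∀ Y ∈ acc, linkB X Y = false)) ∨ (B ∈ acc ∧ linkB X B = true)) ∧
      ((A = [] ∧ (∀ Z ∈ rest, linkB Z (X ++ B) = false)) ∨
        (A ∈ acc ∧ linkB A (X ++ B) = true)) ∧
      acc.Perm ((if A = [] then [] else [A]) ++ ((if B = [] then [] else [B]) ++ rest)) ∨
      [] ∈ acc := by
  unfold insertOpen
  by_cases hnil : [] ∈ acc
  · exact ⟨[], [], [], Or.inr hnil⟩
  by_cases h1 : ∃ Y ∈ acc, linkB X Y = true
  · obtain ⟨Y, l₁, l₂, e1, hY, hp⟩ := pick_some' (p := fun Y => linkB X Y) h1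
    rw [hp]
    have hperm : acc.Perm (Y :: (l₁ ++ l₂)) := by rw [e1]; exact List.perm_middle
    have hYm : Y ∈ acc := by rw [e1]; simp
    have hYne : Y ≠ [] := fun e => hnil (e ▸ hYm)
    by_cases h2 : ∃ Z ∈ l₁ ++ l₂, linkB Z (X ++ Y) = true
    · obtain ⟨Z, k₁, k₂, e2, hZ, hq⟩ := pick_some' (p := fun Z => linkB Z (X ++ Y)) h2
      have hZm : Z ∈ acc := by
        have : Z ∈ l₁ ++ l₂ := by rw [e2]; simp
        rw [e1]
        rcases List.mem_append.mp this with h | h
        · exact List.mem_append_left _ h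
        · exact List.mem_append_right _ (List.mem_cons_of_mem _ h)
      have hZne : Z ≠ [] := fun e => hnil (e ▸ hZm)
      refine ⟨Z, Y, k₁ ++ k₂, Or.inl ⟨by simp only [hq], Or.inr ⟨hYm, hY⟩, Or.inr ⟨hZm, hZ⟩, ?_⟩⟩
      rw [if_neg hZne, if_neg hYne]
      refine hperm.trans ?_
      rw [e2]
      exact (List.Perm.cons Y List.perm_middle).trans (List.Perm.swap _ _ _)
    · push Not at h2
      have h2' : ∀ Z ∈ l₁ ++ l₂, linkB Z (X ++ Y) = false := fun Z hZ => by
        simpa using h2 Z hZ
      have hq := pick_none' (p := fun Z => linkB Z (X ++ Y)) h2'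
      refine ⟨[], Y, l₁ ++ l₂, Or.inl ⟨by simp only [hq], Or.inr ⟨hYm, hY⟩, Or.inl ⟨rfl, h2'⟩, ?_⟩⟩
      rw [if_pos rfl, if_neg hYne]
      exact hperm
  · push Not at h1
    have h1' : ∀ Y ∈ acc, linkB X Y = false := fun Y hY => by simpa using h1 Y hY
    have hp := pick_none' (p := fun Y => linkB X Y) h1'
    rw [hp]
    by_cases h2 : ∃ Z ∈ acc, linkB Z (X ++ []) = true
    · obtain ⟨Z, k₁, k₂, e2, hZ, hq⟩ := pick_some' (p := fun Z => linkB Z (X ++ [])) h2
      have hZm : Z ∈ acc := by rw [e2]; simp
      have hZne : Z ≠ [] := fun e => hnil (e ▸ hZm)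
      refine ⟨Z, [], k₁ ++ k₂, Or.inl ⟨by simp only [hq], Or.inl ⟨rfl, h1'⟩, Or.inr ⟨hZm, hZ⟩, ?_⟩⟩
      rw [if_neg hZne, if_pos rfl, e2]
      exact List.perm_middle
    · push Not at h2
      have h2' : ∀ Z ∈ acc, linkB Z (X ++ []) = false := fun Z hZ => by simpa using h2 Z hZ
      have hq := pick_none' (p := fun Z => linkB Z (X ++ [])) h2'
      refine ⟨[], [], acc, Or.inl ⟨by simp only [hq], Or.inl ⟨rfl, h1'⟩, Or.inl ⟨rfl, h2'⟩, ?_⟩⟩
      rw [if_pos rfl]
      exact List.Perm.refl _

theorem free_cons {X : PL} {l : List PL} :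
    Free (X :: l) ↔ (∀ Y ∈ l, linkB X Y = false ∧ linkB Y X = false) ∧ Free l :=
  List.pairwise_cons

theorem Free.perm {l l' : List PL} (h : Free l) (hp : l.Perm l') : Free l' :=
  (hp.pairwise_iff (fun hxy => ⟨hxy.2, hxy.1⟩)).mp h

theorem insertOpen_specO {k : ℕ} {X : PL} {acc : List PL} (hX : IsOpen k X)
    (hacc : ∀ Y ∈ acc, IsOpen k Y) (hfree : Free acc) :
    (∀ Y ∈ insertOpen X acc, IsOpen k Y) ∧ Free (insertOpen X acc) := by
  obtain ⟨A, B, rest, hc⟩ := insertOpen_cases X acc
  have hnil : [] ∉ acc := fun h => (hacc _ h).ne rfl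
  obtain ⟨e, hB, hA, hperm⟩ := hc.resolve_right hnil
  rw [e]
  have hXne := hX.ne
  have hfr : Free ((if A = [] then [] else [A]) ++ ((if B = [] then [] else [B]) ++ rest)) :=
    hfree.perm hperm
  have hmem : ∀ Y ∈ (if A = [] then [] else [A]) ++ ((if B = [] then [] else [B]) ++ rest),
      IsOpen k Y := fun Y hY => hacc Y (hperm.mem_iff.mpr hY)
  have hXB : IsOpen k (X ++ B) := by
    rcases hB with ⟨rfl, _⟩ | ⟨hBm, hBl⟩
    · rw [List.append_nil]; exact hX
    · exact hX.append (hacc B hBm) hBl
  have hAXB : IsOpen k (A ++ (X ++ B)) := by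
    rcases hA with ⟨rfl, _⟩ | ⟨hAm, hAl⟩
    · exact hXB
    · exact (hacc A hAm).append hXB hAl
  have hrest : ∀ Y ∈ rest, IsOpen k Y := fun Y hY =>
    hmem Y (List.mem_append_right _ (List.mem_append_right _ hY))
  have hfrest : Free rest := by
    have h1 := (List.pairwise_append.mp hfr).2.1
    exact (List.pairwise_append.mp h1).2.1
  -- the end of `X ++ B` is not linked to any head in `rest`
  have hend : ∀ Y ∈ rest, linkB (A ++ (X ++ B)) Y = false := by
    intro Y hY
    have e1 : linkB (A ++ (X ++ B)) Y = linkB (X ++ B) Y := by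
      unfold linkB; rw [lastW_append' hXB.ne]
    rw [e1]
    rcases hB with ⟨rfl, hB⟩ | ⟨hBm, _⟩
    · rw [List.append_nil]
      exact hB Y (hperm.mem_iff.mpr
        (List.mem_append_right _ (List.mem_append_right _ hY)))
    · have hBne : B ≠ [] := (hacc B hBm).ne
      have e2 : linkB (X ++ B) Y = linkB B Y := by
        unfold linkB; rw [lastW_append' hBne]
      rw [e2]
      have h1 := (List.pairwise_append.mp hfr).2.1
      have h2 := (List.pairwise_append.mp h1).2.2 B (by rw [if_neg hBne]; simp) Y hY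
      exact h2.1
  have hbeg : ∀ Y ∈ rest, linkB Y (A ++ (X ++ B)) = false := by
    intro Y hY
    rcases hA with ⟨rfl, hA⟩ | ⟨hAm, _⟩
    · exact hA Y hY
    · have hAne : A ≠ [] := (hacc A hAm).ne
      have e2 : linkB Y (A ++ (X ++ B)) = linkB Y A := by
        unfold linkB; rw [headW_append' hAne]
      rw [e2]
      have h2 := (List.pairwise_append.mp hfr).2.2 A (by rw [if_neg hAne]; simp) Y
        (List.mem_append_right _ hY)
      exact h2.2
  refine ⟨?_, ?_⟩
  · intro Y hY
    rcases List.mem_cons.mp hY with rfl | hY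
    · exact hAXB
    · exact hrest Y hY
  · rw [free_cons]
    exact ⟨fun Y hY => ⟨hend Y hY, hbeg Y hY⟩, hfrest⟩

theorem mergeAll_spec {k : ℕ} {l : List PL} (hl : ∀ X ∈ l, IsOpen k X) :
    (∀ Y ∈ mergeAll l, IsOpen k Y) ∧ Free (mergeAll l) := by
  unfold mergeAll
  induction l with
  | nil => exact ⟨by simp, List.Pairwise.nil⟩
  | cons X l ih =>
    obtain ⟨h1, h2⟩ := ih (fun Y hY => hl Y (List.mem_cons_of_mem _ hY))
    exact insertOpen_specO (hl X List.mem_cons_self) h1 h2

/-- `X` is a block of `Z`, the word before it has length at most `n` -/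
def BlockO (n : ℕ) (X Z : PL) : Prop :=
  ∃ A B, Z = A ++ X ++ B ∧ (A ≠ [] → (lastW A).length ≤ n)

theorem BlockO.refl (n : ℕ) (X : PL) : BlockO n X X := ⟨[], [], by simp, fun h => absurd rfl h⟩

theorem BlockO.trans {n : ℕ} {X Y Z : PL} (h1 : BlockO n X Y) (h2 : BlockO n Y Z) :
    BlockO n X Z := by
  obtain ⟨A, B, rfl, hA⟩ := h1
  obtain ⟨A', B', rfl, hA'⟩ := h2
  refine ⟨A' ++ A, B ++ B', by simp, ?_⟩
  intro h
  by_cases hAe : A = []
  · subst hAe
    rw [List.append_nil] at h ⊢
    exact hA' h
  · rw [lastW_append' hAe]; exact hA hAe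

theorem BlockO.mono {n n' : ℕ} {X Z : PL} (h : BlockO n X Z) (hn : n ≤ n') : BlockO n' X Z := by
  obtain ⟨A, B, e, hA⟩ := h
  exact ⟨A, B, e, fun h => (hA h).trans hn⟩

theorem BlockO.append (n : ℕ) (X B : PL) : BlockO n X (X ++ B) :=
  ⟨[], B, by simp, fun h => absurd rfl h⟩




/-! ### the stages of a level -/

def lvl1 (st : St) : St := (st.1.map ext, st.2)
def lvl2 (m : ℕ) (st : St) : St := (lvl1 st).2.foldl (issue m) (lvl1 st)
def lvl3 (S : List Word) (m : ℕ) (st : St) : St := S.foldl (addInput m) (lvl2 m st)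

theorem issue_snd (m : ℕ) (st : St) (K : PL) : (issue m st K).2 = st.2 := by
  unfold issue; split <;> rfl

theorem addInput_snd (m : ℕ) (st : St) (s : Word) : (addInput m st s).2 = st.2 := by
  unfold addInput; split <;> rfl

theorem foldl_issue_snd (m : ℕ) (l : List PL) (st : St) : (l.foldl (issue m) st).2 = st.2 := by
  induction l generalizing st with
  | nil => rfl
  | cons K l ih => rw [List.foldl_cons, ih, issue_snd]

theorem foldl_addInput_snd (m : ℕ) (l : List Word) (st : St) :
    (l.foldl (addInput m) st).2 = st.2 := by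
  induction l generalizing st with
  | nil => rfl
  | cons K l ih => rw [List.foldl_cons, ih, addInput_snd]

theorem lvl1_snd (st : St) : (lvl1 st).2 = st.2 := rfl
theorem lvl2_snd (m : ℕ) (st : St) : (lvl2 m st).2 = st.2 := by
  unfold lvl2; rw [foldl_issue_snd, lvl1_snd]
theorem lvl3_snd (S : List Word) (m : ℕ) (st : St) : (lvl3 S m st).2 = st.2 := by
  unfold lvl3; rw [foldl_addInput_snd, lvl2_snd]

theorem level_eq (S : List Word) (m : ℕ) (st : St) :
    level S m st = ((mergeAll (lvl3 S m st).1).filter (fun X => !linkB X X),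
      st.2 ++ (mergeAll (lvl3 S m st).1).filter (fun X => linkB X X)) := by
  have h := lvl3_snd S m st
  unfold level
  show ((mergeAll (lvl3 S m st).1).filter (fun X => !linkB X X),
    (lvl3 S m st).2 ++ (mergeAll (lvl3 S m st).1).filter (fun X => linkB X X)) = _
  rw [h]







/-! ### invariants -/

/-- invariant between levels: `stt S i` satisfies `LInv (maxLen S - i)` -/
structure LInv (m : ℕ) (st : St) : Prop where
  opens : ∀ X ∈ st.1, IsOpen m X
  rings : ∀ P ∈ st.2, IsRingGe m P
  free : ∀ X ∈ st.1, ∀ Y ∈ st.1, linkB X Y = false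

/-- invariant inside level `m` -/
structure Mid (m : ℕ) (st : St) : Prop where
  opens : ∀ X ∈ st.1, IsOpen (m - 1) X
  rings : ∀ P ∈ st.2, IsRingGe m P

theorem length_bottom {P : PL} (h : IsPRing P) : (bottom P).length = levN P := by
  obtain ⟨z, _, hz⟩ := exists_bottom h
  rw [hz, length_win]; omega

theorem length_xw {P : PL} (h : IsPRing P) : (xw P).length = levN P - P.length := by
  unfold xw
  rw [List.length_take, length_bottom h]
  omega

theorem mid_lvl1 {m : ℕ} {st : St} (hm : 1 ≤ m) (h : LInv m st) : Mid m (lvl1 st) := by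
  refine ⟨?_, h.rings⟩
  intro X hX
  obtain ⟨Y, hY, rfl⟩ := List.mem_map.mp hX
  exact (h.opens Y hY).ext hm

theorem mid_issue {m : ℕ} {st : St} {K : PL} (hm : 1 ≤ m) (hK : IsPRing K) (h : Mid m st) :
    Mid m (issue m st K) := by
  unfold issue
  split
  · rename_i hc
    simp only [Bool.and_eq_true, decide_eq_true_eq] at hc
    refine ⟨?_, h.rings⟩
    intro X hX
    rcases List.mem_cons.mp hX with rfl | hX
    · apply isOpen_singleton
      rw [length_xw hK, hc.1]; omega
    · exact h.opens X hX
  · exact h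

theorem mid_foldl_issue {m : ℕ} (hm : 1 ≤ m) {l : List PL} (hl : ∀ K ∈ l, IsPRing K) {st : St}
    (h : Mid m st) : Mid m (l.foldl (issue m) st) := by
  induction l generalizing st with
  | nil => exact h
  | cons K l ih =>
    exact ih (fun K hK => hl K (List.mem_cons_of_mem _ hK))
      (mid_issue hm (hl K List.mem_cons_self) h)

theorem mid_addInput {m : ℕ} {st : St} {s : Word} (hm : 1 ≤ m) (h : Mid m st) :
    Mid m (addInput m st s) := by
  unfold addInput
  split
  · rename_i hc
    simp only [Bool.and_eq_true, decide_eq_true_eq] at hc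
    refine ⟨?_, h.rings⟩
    intro X hX
    rcases List.mem_cons.mp hX with rfl | hX
    · apply isOpen_singleton
      rw [hc.1]; omega
    · exact h.opens X hX
  · exact h

theorem mid_foldl_addInput {m : ℕ} (hm : 1 ≤ m) {l : List Word} {st : St}
    (h : Mid m st) : Mid m (l.foldl (addInput m) st) := by
  induction l generalizing st with
  | nil => exact h
  | cons K l ih => exact ih (mid_addInput hm h)

theorem mid_lvl2 {m : ℕ} {st : St} (hm : 1 ≤ m) (h : LInv m st) : Mid m (lvl2 m st) :=
  mid_foldl_issue hm (fun K hK => (h.rings K hK).ring) (mid_lvl1 hm h)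

theorem mid_lvl3 (S : List Word) {m : ℕ} {st : St} (hm : 1 ≤ m) (h : LInv m st) :
    Mid m (lvl3 S m st) :=
  mid_foldl_addInput hm (mid_lvl2 hm h)

theorem inv_level (S : List Word) {m : ℕ} {st : St} (hm : 1 ≤ m) (h : LInv m st) :
    LInv (m - 1) (level S m st) := by
  have hmid := mid_lvl3 S hm h
  obtain ⟨h1, h2⟩ := mergeAll_spec hmid.opens
  rw [level_eq]
  refine ⟨?_, ?_, ?_⟩
  · intro X hX
    exact h1 X (List.mem_filter.mp hX).1
  · intro P hP
    rcases List.mem_append.mp hP with hP | hP
    · exact (h.rings P hP).mono (by omega)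
    · obtain ⟨hP1, hP2⟩ := List.mem_filter.mp hP
      exact (h1 P hP1).close (by simpa using hP2)
  · intro X hX Y hY
    obtain ⟨hX1, hX2⟩ := List.mem_filter.mp hX
    obtain ⟨hY1, hY2⟩ := List.mem_filter.mp hY
    by_cases e : X = Y
    · rw [← e]; simpa using hX2
    · have : Std.Symm (fun X Y : PL => linkB X Y = false ∧ linkB Y X = false) :=
        ⟨fun _ _ h => ⟨h.2, h.1⟩⟩
      exact (List.Pairwise.forall h2 hX1 hY1 e).1

theorem linv_stt (S : List Word) {i : ℕ} (hi : i ≤ maxLen S) :
    LInv (maxLen S - i) (stt S i) := by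
  induction i with
  | zero => exact ⟨by simp [stt], by simp [stt], by simp [stt]⟩
  | succ i ih =>
    have := inv_level S (m := maxLen S - i) (by omega) (ih (by omega))
    have e : maxLen S - i - 1 = maxLen S - (i + 1) := by omega
    rw [e] at this
    exact this


theorem isPRing_ringsOf {S : List Word} {P : PL} (h : P ∈ ringsOf S) : IsPRing P :=
  ((linv_stt S (le_refl (maxLen S))).rings P h).ring

/-- rings are never changed or removed -/
theorem ringsOf_isPRing (S : List Word) : ∀ P ∈ ringsOf S, IsPRing P :=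
  fun _ h => isPRing_ringsOf h




/-! ### blocks in final rings -/





/-! ### closing an open chain through the empty word -/





end Crest.Agent.R287
end

-- ▼ part R287/LBStep
section

/-!
# Row 287 (S0432): the lower-bound step (`lb_step : LBStepStatement`)

helper546's algorithm, helper781's Step A / Step B argument, made multiplicity-proof by the lower
envelope of all components in phase with `K`.  Proved on a local structure `LBS.Comp` and
transported to `Ring` at the end.
-/

set_option autoImplicit false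

namespace Crest.Agent.R287.LBS

/-- A closed component: periodic text `u : ℤ → ℕ` with period `w`, staircase `H`. -/
structure Comp where
  u : ℤ → ℕ
  w : ℕ
  H : ℤ → ℤ
  w_pos : 0 < w
  u_per : ∀ s, u (s + w) = u s
  H_mono : ∀ s, H s ≤ H (s + 1)
  H_per : ∀ s, H (s + w) = H s + w
  H_gt : ∀ s, s < H s

/-- The window of length `n` of the bi-infinite text `u` starting at `s`. -/
def win (u : ℤ → ℕ) (s : ℤ) (n : ℕ) : List ℕ :=
  (List.range n).map (fun k : ℕ => u (s + k))

/-- number of occurrences of `v` in the (linear) string `T`. -/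
def occ (T v : List ℕ) : ℕ := T.tails.countP (fun t => decide (v <+: t))

/-- two components are linked: a common aligned window touched by both, not in phase. -/
def Linked (A B : Comp) : Prop :=
  ∃ (s t : ℤ) (n : ℕ), win A.u s n = win B.u t n ∧
    A.H (s - 1) ≤ s + n ∧ B.H (t - 1) ≤ t + n ∧ ¬ ∀ r : ℤ, A.u (s + r) = B.u (t + r)

/-- number of windows under the staircase of `A` with content `v`. -/
noncomputable def Comp.cnt (A : Comp) (v : List ℕ) : ℕ :=
  ((Finset.Ico (0 : ℤ) A.w).filter
    (fun s => win A.u s v.length = v ∧ s + v.length ≤ A.H s)).card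

/-- number of down-arcs leaving `v`. -/
noncomputable def Comp.dn (A : Comp) (v : List ℕ) : ℕ :=
  ((Finset.Ico (0 : ℤ) A.w).filter
    (fun s => win A.u s v.length = v ∧ s + v.length = A.H s)).card

/-- number of up-arcs arriving at `v`. -/
noncomputable def Comp.up (A : Comp) (v : List ℕ) : ℕ :=
  ((Finset.Ico (0 : ℤ) A.w).filter
    (fun s => win A.u s v.length = v ∧ A.H (s - 1) < s + v.length ∧ s + v.length ≤ A.H s)).card

/-- the component visits a word of `U(x)`, `x = κ[0,m)`: a window `κ[i,j)`, `i ≤ 0`, `m ≤ j`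
(`n = j - i`). -/
def VisitsU (A : Comp) (κ : ℤ → ℕ) (m : ℕ) : Prop :=
  ∃ (i s : ℤ) (n : ℕ), i ≤ 0 ∧ (m : ℤ) ≤ i + n ∧ win A.u s n = win κ i n ∧
    A.H (s - 1) ≤ s + n ∧ s + n ≤ A.H s

/-! ### windows -/

@[simp] theorem win_length (u : ℤ → ℕ) (s : ℤ) (n : ℕ) : (win u s n).length = n := by
  simp [win]

@[simp] theorem win_zero (u : ℤ → ℕ) (s : ℤ) : win u s 0 = [] := by simp [win]

theorem win_getElem (u : ℤ → ℕ) (s : ℤ) (n k : ℕ) (hk : k < (win u s n).length) :
    (win u s n)[k] = u (s + k) := by
  simp [win]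

theorem win_succ (u : ℤ → ℕ) (s : ℤ) (n : ℕ) : win u s (n + 1) = win u s n ++ [u (s + n)] := by
  simp [win, List.range_succ]

theorem win_succ' (u : ℤ → ℕ) (s : ℤ) (n : ℕ) : win u s (n + 1) = u s :: win u (s + 1) n := by
  simp only [win, List.range_succ_eq_map, List.map_cons, List.map_map]
  congr 1
  · simp
  · apply List.map_congr_left
    intro k _
    simp only [Function.comp]
    congr 1
    push_cast
    ring


theorem win_eq_iff (u u' : ℤ → ℕ) (s t : ℤ) (n : ℕ) :
    win u s n = win u' t n ↔ ∀ k : ℕ, k < n → u (s + k) = u' (t + k) := by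
  constructor
  · intro h k hk
    have h1 : (win u s n)[k]'(by simpa using hk) = (win u' t n)[k]'(by simpa using hk) := by
      simp [h]
    simpa [win_getElem] using h1
  · intro h
    apply List.ext_getElem (by simp)
    intro k hk _
    rw [win_getElem, win_getElem]
    exact h k (by simpa using hk)


/-! ### occurrences in a linear string -/

theorem occ_nil (v : List ℕ) : occ [] v = if v = [] then 1 else 0 := by
  by_cases h : v = [] <;> simp [occ, h]

theorem occ_cons (c : ℕ) (T v : List ℕ) :
    occ (c :: T) v = (if v <+: c :: T then 1 else 0) + occ T v := by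
  by_cases h : v <+: c :: T
  · simp only [occ, List.tails_cons, h, if_true]
    rw [List.countP_cons_of_pos (by simpa using h)]
    omega
  · simp only [occ, List.tails_cons, h, if_false]
    rw [List.countP_cons_of_neg (by simpa using h)]
    omega

theorem prefix_split (t v : List ℕ) (Λ : Finset ℕ) (hΛ : ∀ a ∈ t, a ∈ Λ) :
    (if v <+: t then 1 else 0) =
      (∑ b ∈ Λ, if v ++ [b] <+: t then 1 else 0) + (if v = t then 1 else 0) := by
  by_cases h : v <+: t
  · obtain ⟨r, rfl⟩ := h
    cases r with
    | nil =>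
      have h1 : ∀ b, ¬ (v ++ [b] <+: v ++ []) := by
        intro b hb
        have := hb.length_le
        simp at this
      simp only [h1]
      simp
    | cons c r =>
      have hc : c ∈ Λ := hΛ c (by simp)
      have h1 : ∀ b, (v ++ [b] <+: v ++ c :: r) ↔ b = c := by
        intro b
        rw [List.prefix_append_right_inj]
        simp
      simp only [h1]
      simp [hc]
  · have h1 : ∀ b, ¬ (v ++ [b] <+: t) := fun b hb => h ((List.prefix_append _ _).trans hb)
    have h2 : v ≠ t := fun hh => h (hh ▸ List.prefix_refl _)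
    simp [h, h1, h2]

theorem occ_eq_sum_append (T v : List ℕ) (Λ : Finset ℕ) (hΛ : ∀ a ∈ T, a ∈ Λ) :
    occ T v = (∑ b ∈ Λ, occ T (v ++ [b])) + (if v <:+ T then 1 else 0) := by
  induction T with
  | nil => simp [occ_nil]
  | cons c T ih =>
    have ih' := ih (fun a ha => hΛ a (List.mem_cons_of_mem _ ha))
    simp only [occ_cons, Finset.sum_add_distrib]
    rw [prefix_split (c :: T) v Λ hΛ, ih']
    have h3 : (if v <:+ c :: T then 1 else 0) =
        (if v = c :: T then 1 else 0) + (if v <:+ T then 1 else 0) := by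
      by_cases h1 : v = c :: T
      · have h2 : ¬ v <:+ T := by
          intro h
          have := h.length_le
          rw [h1] at this
          simp at this
        have h4 : v <:+ c :: T := by rw [h1]
        rw [if_pos h1, if_neg h2, if_pos h4]
      · by_cases h2 : v <:+ T
        · rw [if_neg h1, if_pos h2, if_pos (List.suffix_cons_iff.2 (Or.inr h2))]
        · have h4 : ¬ v <:+ c :: T := by
            rw [List.suffix_cons_iff]
            tauto
          rw [if_neg h1, if_neg h2, if_neg h4]
    rw [h3]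
    ring

theorem sum_occ_cons_le (T v : List ℕ) (Λ : Finset ℕ) :
    (∑ a ∈ Λ, occ T (a :: v)) ≤ occ T v := by
  have key : ∀ T : List ℕ, (∑ a ∈ Λ, occ T (a :: v)) + (if v <+: T then 1 else 0) ≤ occ T v := by
    intro T
    induction T with
    | nil => simp [occ_nil]
    | cons c T ih =>
      simp only [occ_cons, Finset.sum_add_distrib]
      have h1 : (∑ a ∈ Λ, if a :: v <+: c :: T then 1 else 0) ≤ (if v <+: T then 1 else 0) := by
        by_cases h : v <+: T
        · simp only [List.cons_prefix_cons, h, and_true, if_true]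
          rw [Finset.sum_ite_eq' Λ c]
          split_ifs <;> simp
        · simp [List.cons_prefix_cons, h]
      omega
  have := key T
  omega

/-! ### counting windows of a component -/

theorem H_mono' (A : Comp) {s t : ℤ} (h : s ≤ t) : A.H s ≤ A.H t := by
  obtain ⟨k, hk⟩ := Int.le.dest h
  induction k generalizing t with
  | zero => simp at hk; rw [hk]
  | succ k ih =>
    have h1 : A.H s ≤ A.H (s + k) := ih (by omega) rfl
    have h2 := A.H_mono (s + k)
    have h3 : t = s + k + 1 := by push_cast at hk; omega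
    rw [h3]
    exact h1.trans h2

theorem u_per_mul (A : Comp) (s : ℤ) (k : ℤ) : A.u (s + k * A.w) = A.u s := by
  induction k using Int.induction_on with
  | zero => simp
  | succ k ih =>
    rw [← ih, ← A.u_per (s + k * A.w)]
    congr 1; ring
  | pred k ih =>
    rw [← ih, ← A.u_per (s + (-k - 1) * A.w)]
    congr 1; ring

theorem H_per_mul (A : Comp) (s : ℤ) (k : ℤ) : A.H (s + k * A.w) = A.H s + k * A.w := by
  induction k using Int.induction_on with
  | zero => simp
  | succ k ih =>
    have h := A.H_per (s + k * A.w)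
    have e : s + ((k : ℤ) + 1) * A.w = s + k * A.w + A.w := by ring
    rw [e, h, ih]; ring
  | pred k ih =>
    have h := A.H_per (s + (-k - 1) * A.w)
    have e : s + (-(k : ℤ) - 1) * A.w + A.w = s + -k * A.w := by ring
    rw [e, ih] at h
    linarith

theorem win_per (A : Comp) (s : ℤ) (k : ℤ) (n : ℕ) : win A.u (s + k * A.w) n = win A.u s n := by
  rw [win_eq_iff]
  intro j _
  have := u_per_mul A (s + j) k
  rw [← this]
  congr 1; ring

/-- shifting a periodic predicate does not change its count. -/
theorem card_shift (w : ℕ) (P : ℤ → Prop) [DecidablePred P] (hP : ∀ s, P (s + w) ↔ P s) :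
    ((Finset.Ico (0 : ℤ) w).filter (fun s => P (s + 1))).card =
      ((Finset.Ico (0 : ℤ) w).filter P).card := by
  have h1 : ((Finset.Ico (0 : ℤ) w).filter (fun s => P (s + 1))).card =
      ((Finset.Ico (1 : ℤ) (w + 1)).filter P).card := by
    apply Finset.card_bij (fun s _ => s + 1)
    · intro s hs
      simp only [Finset.mem_filter, Finset.mem_Ico] at hs ⊢
      exact ⟨by omega, hs.2⟩
    · intro a _ b _ h
      simpa using h
    · intro b hb
      simp only [Finset.mem_filter, Finset.mem_Ico] at hb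
      refine ⟨b - 1, ?_, by ring⟩
      simp only [Finset.mem_filter, Finset.mem_Ico]
      refine ⟨by omega, ?_⟩
      rw [sub_add_cancel]
      exact hb.2
  rw [h1]
  rcases Nat.eq_zero_or_pos w with h0 | hw
  · subst h0; simp
  apply Finset.card_bij (fun (s : ℤ) _ => if s = (w : ℤ) then (0 : ℤ) else s)
  · intro s hs
    simp only [Finset.mem_filter, Finset.mem_Ico] at hs ⊢
    split_ifs with h
    · refine ⟨by omega, ?_⟩
      have := (hP 0)
      rw [zero_add] at this
      rw [← this, ← h]
      exact hs.2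
    · exact ⟨by omega, hs.2⟩
  · intro a ha b hb h
    simp only [Finset.mem_filter, Finset.mem_Ico] at ha hb
    split_ifs at h <;> omega
  · intro b hb
    simp only [Finset.mem_filter, Finset.mem_Ico] at hb
    by_cases h : b = 0
    · refine ⟨w, ?_, by simp [h]⟩
      simp only [Finset.mem_filter, Finset.mem_Ico]
      refine ⟨by omega, ?_⟩
      have := (hP 0)
      rw [zero_add] at this
      rw [this, ← h]
      exact hb.2
    · refine ⟨b, ?_, ?_⟩
      · simp only [Finset.mem_filter, Finset.mem_Ico]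
        exact ⟨by omega, hb.2⟩
      · rw [if_neg (by omega)]

theorem cnt_eq_append (A : Comp) (v : List ℕ) (Λ : Finset ℕ) (hΛ : ∀ s, A.u s ∈ Λ) :
    A.cnt v = (∑ b ∈ Λ, A.cnt (v ++ [b])) + A.dn v := by
  unfold Comp.cnt Comp.dn
  have hsplit : ((Finset.Ico (0 : ℤ) A.w).filter
      (fun s => win A.u s v.length = v ∧ s + v.length ≤ A.H s)) =
      ((Finset.Ico (0 : ℤ) A.w).filter
      (fun s => win A.u s v.length = v ∧ s + v.length + 1 ≤ A.H s)) ∪
      ((Finset.Ico (0 : ℤ) A.w).filter
      (fun s => win A.u s v.length = v ∧ s + v.length = A.H s)) := by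
    ext s
    simp only [Finset.mem_filter, Finset.mem_union, Finset.mem_Ico]
    constructor
    · rintro ⟨h1, h2, h3⟩
      rcases lt_or_eq_of_le h3 with h | h
      · left; exact ⟨h1, h2, by omega⟩
      · right; exact ⟨h1, h2, h⟩
    · rintro (⟨h1, h2, h3⟩ | ⟨h1, h2, h3⟩)
      · exact ⟨h1, h2, by omega⟩
      · exact ⟨h1, h2, by omega⟩
  rw [hsplit, Finset.card_union_of_disjoint]
  · congr 1
    rw [Finset.card_eq_sum_card_fiberwise (f := fun s => A.u (s + v.length)) (t := Λ)
      (fun s _ => hΛ _)]
    apply Finset.sum_congr rfl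
    intro b _
    congr 1
    ext s
    simp only [Finset.mem_filter, Finset.mem_Ico, List.length_append, List.length_singleton,
      win_succ, Nat.cast_add, Nat.cast_one]
    constructor
    · rintro ⟨⟨h1, h2, h3⟩, h4⟩
      refine ⟨h1, by rw [h2, h4], by omega⟩
    · rintro ⟨h1, h2, h3⟩
      have h5 := List.append_inj h2 (by simp)
      refine ⟨⟨h1, h5.1, by omega⟩, by simpa using h5.2⟩
  · rw [Finset.disjoint_left]
    intro s hs hs'
    simp only [Finset.mem_filter, Finset.mem_Ico] at hs hs'
    omega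

theorem cnt_eq_cons (A : Comp) (v : List ℕ) (Λ : Finset ℕ) (hΛ : ∀ s, A.u s ∈ Λ) :
    A.cnt v = (∑ a ∈ Λ, A.cnt (a :: v)) + A.up v := by
  unfold Comp.cnt Comp.up
  have hsplit : ((Finset.Ico (0 : ℤ) A.w).filter
      (fun s => win A.u s v.length = v ∧ s + v.length ≤ A.H s)) =
      ((Finset.Ico (0 : ℤ) A.w).filter
      (fun s => win A.u s v.length = v ∧ s + v.length ≤ A.H (s - 1))) ∪
      ((Finset.Ico (0 : ℤ) A.w).filter
      (fun s => win A.u s v.length = v ∧ A.H (s - 1) < s + v.length ∧
        s + v.length ≤ A.H s)) := by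
    ext s
    have hm := A.H_mono (s - 1)
    rw [sub_add_cancel] at hm
    simp only [Finset.mem_filter, Finset.mem_union, Finset.mem_Ico]
    constructor
    · rintro ⟨h1, h2, h3⟩
      by_cases h : s + v.length ≤ A.H (s - 1)
      · left; exact ⟨h1, h2, h⟩
      · right; exact ⟨h1, h2, by omega, h3⟩
    · rintro (⟨h1, h2, h3⟩ | ⟨h1, h2, h3, h4⟩)
      · exact ⟨h1, h2, by omega⟩
      · exact ⟨h1, h2, by omega⟩
  rw [hsplit, Finset.card_union_of_disjoint]
  · congr 1
    have hsh := card_shift A.w (fun s => win A.u s v.length = v ∧ s + v.length ≤ A.H (s - 1)) (by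
      intro s
      have e1 := win_per A s 1 v.length
      have e2 := H_per_mul A (s - 1) 1
      rw [one_mul] at e1 e2
      have e3 : s + (A.w : ℤ) - 1 = s - 1 + A.w := by ring
      rw [e1, e3, e2]
      constructor
      · rintro ⟨h1, h2⟩; exact ⟨h1, by omega⟩
      · rintro ⟨h1, h2⟩; exact ⟨h1, by omega⟩)
    rw [← hsh]
    rw [Finset.card_eq_sum_card_fiberwise (f := fun s => A.u s) (t := Λ)
      (fun s _ => hΛ _)]
    apply Finset.sum_congr rfl
    intro a _
    congr 1
    ext s
    simp only [Finset.mem_filter, Finset.mem_Ico, List.length_cons, win_succ', Nat.cast_add,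
      Nat.cast_one, add_sub_cancel_right, List.cons.injEq]
    constructor
    · rintro ⟨⟨h1, h2, h3⟩, h4⟩
      refine ⟨h1, ⟨h4, h2⟩, by omega⟩
    · rintro ⟨h1, h2, h3⟩
      refine ⟨⟨h1, h2.2, by omega⟩, h2.1⟩
  · rw [Finset.disjoint_left]
    intro s hs hs'
    simp only [Finset.mem_filter, Finset.mem_Ico] at hs hs'
    omega

theorem dn_pos {A : Comp} {v : List ℕ} (s : ℤ) (h1 : win A.u s v.length = v)
    (h2 : s + v.length = A.H s) : 0 < A.dn v := by
  unfold Comp.dn
  apply Finset.card_pos.2
  have hw : (0 : ℤ) < A.w := by exact_mod_cast A.w_pos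
  refine ⟨s % A.w, ?_⟩
  have e : s % A.w = s + (-(s / A.w)) * A.w := by
    have := Int.emod_add_mul_ediv s A.w
    linarith [this]
  simp only [Finset.mem_filter, Finset.mem_Ico]
  refine ⟨⟨Int.emod_nonneg _ hw.ne', Int.emod_lt_of_pos _ hw⟩, ?_, ?_⟩
  · rw [e, win_per]; exact h1
  · rw [e, H_per_mul, ← h2]; ring

theorem exists_of_dn_pos {A : Comp} {v : List ℕ} (h : 0 < A.dn v) :
    ∃ s : ℤ, win A.u s v.length = v ∧ s + v.length = A.H s := by
  unfold Comp.dn at h
  obtain ⟨s, hs⟩ := Finset.card_pos.1 h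
  simp only [Finset.mem_filter, Finset.mem_Ico] at hs
  exact ⟨s, hs.2.1, hs.2.2⟩

theorem exists_of_up_pos {A : Comp} {v : List ℕ} (h : 0 < A.up v) :
    ∃ s : ℤ, win A.u s v.length = v ∧ A.H (s - 1) < s + v.length ∧ s + v.length ≤ A.H s := by
  unfold Comp.up at h
  obtain ⟨s, hs⟩ := Finset.card_pos.1 h
  simp only [Finset.mem_filter, Finset.mem_Ico] at hs
  exact ⟨s, hs.2.1, hs.2.2.1, hs.2.2.2⟩

open Finset

variable {ι : Type*} [Fintype ι]

/-- total count `M`. -/
noncomputable def M (A : ι → Comp) (v : List ℕ) : ℕ := ∑ i, (A i).cnt v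
/-- total number of down-arcs leaving `v`. -/
noncomputable def Dn (A : ι → Comp) (v : List ℕ) : ℕ := ∑ i, (A i).dn v
/-- total number of up-arcs arriving at `v`. -/
noncomputable def Up (A : ι → Comp) (v : List ℕ) : ℕ := ∑ i, (A i).up v

/-- slack -/
noncomputable def EE (A : ι → Comp) (T : List ℕ) (v : List ℕ) : ℤ := (occ T v : ℤ) - M A v

theorem exists_letters (A : ι → Comp) (T : List ℕ) (c : ℕ) :
    ∃ Λ : Finset ℕ, c ∈ Λ ∧ (∀ a ∈ T, a ∈ Λ) ∧ ∀ i s, (A i).u s ∈ Λ := by
  classical
  refine ⟨insert c (T.toFinset ∪ univ.biUnion (fun i => (Finset.Ico (0 : ℤ) (A i).w).image (A i).u)),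
    by simp, ?_, ?_⟩
  · intro a ha
    simp [ha]
  · intro i s
    apply Finset.mem_insert_of_mem
    apply Finset.mem_union_right
    rw [Finset.mem_biUnion]
    refine ⟨i, Finset.mem_univ _, ?_⟩
    rw [Finset.mem_image]
    have hw : (0 : ℤ) < (A i).w := by exact_mod_cast (A i).w_pos
    refine ⟨s % (A i).w, ?_, ?_⟩
    · simp only [Finset.mem_Ico]
      exact ⟨Int.emod_nonneg _ hw.ne', Int.emod_lt_of_pos _ hw⟩
    · have e : s % (A i).w = s + (-(s / (A i).w)) * (A i).w := by
        have := Int.emod_add_mul_ediv s (A i).w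
        linarith [this]
      rw [e, u_per_mul]

theorem M_append (A : ι → Comp) (v : List ℕ) (Λ : Finset ℕ) (hΛ : ∀ i s, (A i).u s ∈ Λ) :
    M A v = (∑ b ∈ Λ, M A (v ++ [b])) + Dn A v := by
  unfold M Dn
  rw [Finset.sum_comm, ← Finset.sum_add_distrib]
  exact Finset.sum_congr rfl (fun i _ => cnt_eq_append (A i) v Λ (hΛ i))

theorem M_cons (A : ι → Comp) (v : List ℕ) (Λ : Finset ℕ) (hΛ : ∀ i s, (A i).u s ∈ Λ) :
    M A v = (∑ a ∈ Λ, M A (a :: v)) + Up A v := by
  unfold M Up
  rw [Finset.sum_comm, ← Finset.sum_add_distrib]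
  exact Finset.sum_congr rfl (fun i _ => cnt_eq_cons (A i) v Λ (hΛ i))

theorem EE_append (A : ι → Comp) (T v : List ℕ) (Λ : Finset ℕ) (hΛT : ∀ a ∈ T, a ∈ Λ)
    (hΛ : ∀ i s, (A i).u s ∈ Λ) :
    EE A T v + Dn A v = (∑ b ∈ Λ, EE A T (v ++ [b])) + (if v <:+ T then 1 else 0) := by
  have h1 := occ_eq_sum_append T v Λ hΛT
  have h2 := M_append A v Λ hΛ
  unfold EE
  rw [Finset.sum_sub_distrib, h1, h2]
  push_cast
  ring

theorem EE_cons (A : ι → Comp) (T v : List ℕ) (Λ : Finset ℕ)
    (hΛ : ∀ i s, (A i).u s ∈ Λ) :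
    (∑ a ∈ Λ, EE A T (a :: v)) ≤ EE A T v + Up A v := by
  have h1 := sum_occ_cons_le T v Λ
  have h2 := M_cons A v Λ hΛ
  unfold EE
  rw [Finset.sum_sub_distrib, h2]
  push_cast
  have h3 : (∑ a ∈ Λ, (occ T (a :: v) : ℤ)) ≤ occ T v := by exact_mod_cast h1
  linarith

section E

variable {A : ι → Comp} {T : List ℕ} {m : ℕ} (hM : ∀ v : List ℕ, m < v.length → M A v ≤ occ T v)
include hM

theorem EE_nonneg {v : List ℕ} (hv : m < v.length) : 0 ≤ EE A T v := by
  unfold EE
  have := hM v hv
  have h : (M A v : ℤ) ≤ occ T v := by exact_mod_cast this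
  linarith

theorem EE_snoc_le {v : List ℕ} (b : ℕ) (hv : m ≤ v.length) :
    EE A T (v ++ [b]) ≤ EE A T v + Dn A v := by
  obtain ⟨Λ, hb, hT, hu⟩ := exists_letters A T b
  rw [EE_append A T v Λ hT hu]
  have h1 : EE A T (v ++ [b]) ≤ ∑ b ∈ Λ, EE A T (v ++ [b]) :=
    Finset.single_le_sum (f := fun b => EE A T (v ++ [b]))
      (fun c _ => EE_nonneg hM (by simp; omega)) hb
  split_ifs <;> linarith

theorem not_suffix {v : List ℕ} (hv : m ≤ v.length) (h : EE A T v + Dn A v ≤ 0) :
    ¬ v <:+ T := by
  intro hs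
  obtain ⟨Λ, hb, hT, hu⟩ := exists_letters A T 0
  rw [EE_append A T v Λ hT hu, if_pos hs] at h
  have h1 : 0 ≤ ∑ b ∈ Λ, EE A T (v ++ [b]) :=
    Finset.sum_nonneg (fun c _ => EE_nonneg hM (by simp; omega))
  linarith

omit hM in
theorem EE_le_snoc {v : List ℕ} (c : ℕ) (hs : ¬ v <:+ T)
    (h : ∀ b, b ≠ c → EE A T (v ++ [b]) ≤ 0) :
    EE A T v + Dn A v ≤ EE A T (v ++ [c]) := by
  obtain ⟨Λ, hb, hT, hu⟩ := exists_letters A T c
  rw [EE_append A T v Λ hT hu, if_neg hs, add_zero, ← Finset.add_sum_erase _ _ hb]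
  have h1 : ∑ b ∈ Λ.erase c, EE A T (v ++ [b]) ≤ 0 :=
    Finset.sum_nonpos (fun b hb => h b (Finset.ne_of_mem_erase hb))
  linarith

theorem EE_cons_le {v : List ℕ} (a : ℕ) (hv : m ≤ v.length) :
    EE A T (a :: v) ≤ EE A T v + Up A v := by
  obtain ⟨Λ, hb, hT, hu⟩ := exists_letters A T a
  have h1 : EE A T (a :: v) ≤ ∑ a ∈ Λ, EE A T (a :: v) :=
    Finset.single_le_sum (f := fun a => EE A T (a :: v))
      (fun c _ => EE_nonneg hM (by simp; omega)) hb
  exact h1.trans (EE_cons A T v Λ hu)

end E

theorem Dn_pos_of {A : ι → Comp} {v : List ℕ} (C : ι) (s : ℤ) (h1 : win (A C).u s v.length = v)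
    (h2 : s + v.length = (A C).H s) : 0 < Dn A v := by
  unfold Dn
  have := dn_pos s h1 h2
  exact lt_of_lt_of_le this (Finset.single_le_sum (f := fun i => (A i).dn v)
    (fun _ _ => Nat.zero_le _) (Finset.mem_univ C))

theorem exists_of_Dn_pos {A : ι → Comp} {v : List ℕ} (h : 0 < Dn A v) :
    ∃ C, ∃ s : ℤ, win (A C).u s v.length = v ∧ s + v.length = (A C).H s := by
  unfold Dn at h
  obtain ⟨C, _, hC⟩ := Finset.exists_ne_zero_of_sum_ne_zero h.ne'
  obtain ⟨s, h1, h2⟩ := exists_of_dn_pos (Nat.pos_of_ne_zero hC)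
  exact ⟨C, s, h1, h2⟩

theorem exists_of_Up_pos {A : ι → Comp} {v : List ℕ} (h : 0 < Up A v) :
    ∃ C, ∃ s : ℤ, win (A C).u s v.length = v ∧ (A C).H (s - 1) < s + v.length ∧
      s + v.length ≤ (A C).H s := by
  unfold Up at h
  obtain ⟨C, _, hC⟩ := Finset.exists_ne_zero_of_sum_ne_zero h.ne'
  obtain ⟨s, h1, h2, h3⟩ := exists_of_up_pos (Nat.pos_of_ne_zero hC)
  exact ⟨C, s, h1, h2, h3⟩

/-! ### the lower envelope -/

/-- `(B, t)` is a member of the family in phase with `κ`. -/
def Phi (A : ι → Comp) (κ : ℤ → ℕ) (m : ℕ) (B : ι) (t : ℤ) : Prop :=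
  VisitsU (A B) κ m ∧ ∀ r, (A B).u (t + r) = κ r

/-- lower envelope -/
noncomputable def Hm (A : ι → Comp) (κ : ℤ → ℕ) (m : ℕ) (r : ℤ) : ℤ :=
  sInf {x : ℤ | ∃ B t, Phi A κ m B t ∧ (A B).H (t + r) - t = x}

/-- The hypotheses of the lower-bound step. -/
structure LBData (A : ι → Comp) (T : List ℕ) (κ : ℤ → ℕ) (w m : ℕ) : Prop where
  hw : 0 < w
  hκ : ∀ r, κ (r + w) = κ r
  hK : ∃ (K : ι) (t0 : ℤ), (∀ r, (A K).u (t0 + r) = κ r) ∧ (A K).H (t0 - 1) = t0 + (m + w)
  hl : ∀ B, VisitsU (A B) κ m → ∀ s, s + (m + w) ≤ (A B).H (s - 1)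
  hlink : ∀ B C, VisitsU (A B) κ m → VisitsU (A C) κ m → ¬ Linked (A B) (A C)
  hM : ∀ v : List ℕ, m < v.length → M A v ≤ occ T v

namespace LBData

variable {A : ι → Comp} {T : List ℕ} {κ : ℤ → ℕ} {w m : ℕ} (D : LBData A T κ w m)
include D

theorem phiK : ∃ (K : ι) (t0 : ℤ), Phi A κ m K t0 ∧ (A K).H (t0 - 1) = t0 + (m + w) := by
  obtain ⟨K, t0, h1, h2⟩ := D.hK
  refine ⟨K, t0, ⟨⟨0, t0, m + w, le_refl _, by push_cast; omega, ?_, ?_, ?_⟩, h1⟩, h2⟩
  · rw [win_eq_iff]
    intro k _
    rw [h1, zero_add]
  · rw [h2]; push_cast; omega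
  · have := (A K).H_mono (t0 - 1)
    rw [sub_add_cancel, h2] at this
    push_cast; omega

omit [Fintype ι] D in
theorem bdd (r : ℤ) : BddBelow {x : ℤ | ∃ B t, Phi A κ m B t ∧ (A B).H (t + r) - t = x} := by
  refine ⟨r, ?_⟩
  rintro x ⟨B, t, _, rfl⟩
  have := (A B).H_gt (t + r)
  omega

theorem Hm_att (r : ℤ) : ∃ B t, Phi A κ m B t ∧ (A B).H (t + r) - t = Hm A κ m r := by
  obtain ⟨K, t0, h1, _⟩ := D.phiK
  have hne : {x : ℤ | ∃ B t, Phi A κ m B t ∧ (A B).H (t + r) - t = x}.Nonempty :=
    ⟨_, K, t0, h1, rfl⟩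
  have := Int.csInf_mem hne (bdd r)
  exact this

omit [Fintype ι] D in
theorem Hm_le {B : ι} {t : ℤ} (h : Phi A κ m B t) (r : ℤ) :
    Hm A κ m r ≤ (A B).H (t + r) - t :=
  csInf_le (bdd r) ⟨B, t, h, rfl⟩

theorem Hm_gt (r : ℤ) : r < Hm A κ m r := by
  obtain ⟨B, t, _, h⟩ := D.Hm_att r
  have := (A B).H_gt (t + r)
  omega


theorem Hm_mono {r s : ℤ} (h : r ≤ s) : Hm A κ m r ≤ Hm A κ m s := by
  obtain ⟨B, t, hB, h'⟩ := D.Hm_att s
  have h1 := Hm_le hB r
  have h2 := H_mono' (A B) (s := t + r) (t := t + s) (by omega)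
  omega

theorem Hm_ge (r : ℤ) : r + (m + w) ≤ Hm A κ m (r - 1) := by
  obtain ⟨B, t, hB, h⟩ := D.Hm_att (r - 1)
  have h1 := D.hl B hB.1 (t + r)
  rw [add_sub_assoc] at h1
  omega

theorem Hm_neg_one_le : Hm A κ m (-1) ≤ m + w := by
  obtain ⟨K, t0, h1, h2⟩ := D.phiK
  have := Hm_le h1 (-1)
  rw [← sub_eq_add_neg, h2] at this
  omega

theorem kper (r k : ℤ) : κ (r + k * w) = κ r := by
  induction k using Int.induction_on with
  | zero => simp
  | succ k ih =>
    rw [← ih, ← D.hκ (r + k * w)]
    congr 1; ring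
  | pred k ih =>
    rw [← ih, ← D.hκ (r + (-k - 1) * w)]
    congr 1; ring

theorem winper (r k : ℤ) (n : ℕ) : win κ (r + k * w) n = win κ r n := by
  rw [win_eq_iff]
  intro j _
  rw [← D.kper (r + j) k]
  congr 1; ring

theorem phi_shift {B : ι} {t : ℤ} (h : Phi A κ m B t) (k : ℤ) : Phi A κ m B (t - k * w) := by
  refine ⟨h.1, fun r => ?_⟩
  have := h.2 (r - k * w)
  have e : t - k * w + r = t + (r - k * w) := by ring
  rw [e, this, ← D.kper (r - k * w) k]
  congr 1; ring

theorem Hm_per (r k : ℤ) : Hm A κ m (r + k * w) = Hm A κ m r + k * w := by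
  have key : ∀ r k : ℤ, Hm A κ m (r + k * w) ≤ Hm A κ m r + k * w := by
    intro r k
    obtain ⟨B, t, hB, h⟩ := D.Hm_att r
    have h1 := Hm_le (D.phi_shift hB k) (r + k * w)
    have e : t - k * w + (r + k * w) = t + r := by ring
    rw [e] at h1
    linarith
  apply le_antisymm (key r k)
  have := key (r + k * w) (-k)
  have e : r + k * w + -k * w = r := by ring
  rw [e] at this
  linarith

/-- a component visiting a `κ`-window on or above the envelope is in phase. -/
theorem onP {C : ι} {t i : ℤ} {n : ℕ} (hn : Hm A κ m (i - 1) ≤ i + n)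
    (hwin : win (A C).u t n = win κ i n) (h1 : (A C).H (t - 1) ≤ t + n)
    (h2 : t + n ≤ (A C).H t) : Phi A κ m C (t - i) := by
  have hwpos : (0 : ℤ) < w := by exact_mod_cast D.hw
  have hlen : (m + w : ℤ) ≤ n := by
    have := D.Hm_ge i
    omega
  have hV : VisitsU (A C) κ m := by
    -- shift `i` into `(-w, 0]`
    obtain ⟨k, hk1, hk2⟩ : ∃ k : ℤ, i + k * w ≤ 0 ∧ -(w : ℤ) < i + k * w := by
      refine ⟨-(i / w) - (if i % w = 0 then 0 else 1), ?_, ?_⟩
      · have e := Int.emod_add_mul_ediv i w
        have e1 := Int.emod_nonneg i hwpos.ne'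
        have e2 := Int.emod_lt_of_pos i hwpos
        split_ifs with h
        · have : i + (-(i / w) - 0) * w = i % w := by linarith
          rw [this, h]
        · have : i + (-(i / w) - 1) * w = i % w - w := by linarith
          rw [this]; omega
      · have e := Int.emod_add_mul_ediv i w
        have e1 := Int.emod_nonneg i hwpos.ne'
        have e2 := Int.emod_lt_of_pos i hwpos
        split_ifs with h
        · have : i + (-(i / w) - 0) * w = i % w := by linarith
          rw [this, h]; omega
        · have : i + (-(i / w) - 1) * w = i % w - w := by linarith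
          rw [this]
          have : 0 < i % w := lt_of_le_of_ne e1 (Ne.symm h)
          omega
    refine ⟨i + k * w, t, n, hk1, by omega, ?_, h1, h2⟩
    rw [D.winper]; exact hwin
  refine ⟨hV, ?_⟩
  obtain ⟨B, t', hB, hH⟩ := D.Hm_att (i - 1)
  have hnl := D.hlink B C hB.1 hV
  by_contra hcon
  apply hnl
  refine ⟨t' + i, t, n, ?_, ?_, h1, ?_⟩
  · rw [hwin, win_eq_iff]
    intro k _
    rw [add_assoc, hB.2]
  · have e : t' + i - 1 = t' + (i - 1) := by ring
    rw [e]; omega
  · intro hall
    apply hcon
    intro r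
    have := hall (r - i)
    have e1 : t' + i + (r - i) = t' + r := by ring
    have e2 : t + (r - i) = t - i + r := by ring
    rw [e1, e2, hB.2] at this
    exact this.symm

theorem dn_zero {i : ℤ} {n : ℕ} (hn : Hm A κ m (i - 1) ≤ i + n) (hn' : i + n < Hm A κ m i) :
    Dn A (win κ i n) = 0 := by
  by_contra hne
  obtain ⟨C, s, h1, h2⟩ := exists_of_Dn_pos (Nat.pos_of_ne_zero hne)
  rw [win_length] at h1 h2
  have hm := (A C).H_mono (s - 1)
  rw [sub_add_cancel] at hm
  have hΦ := D.onP hn h1 (by omega) (by omega)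
  have := Hm_le hΦ i
  rw [sub_add_cancel] at this
  omega

theorem up_zero {i : ℤ} {n : ℕ} (hn : i + n = Hm A κ m (i - 1)) :
    Up A (win κ i n) = 0 := by
  by_contra hne
  obtain ⟨C, s, h1, h2, h3⟩ := exists_of_Up_pos (Nat.pos_of_ne_zero hne)
  rw [win_length] at h1 h2 h3
  have hΦ := D.onP (le_of_eq hn.symm) h1 (by omega) (by omega)
  have := Hm_le hΦ (i - 1)
  have e : s - i + (i - 1) = s - 1 := by ring
  rw [e] at this
  omega

theorem up_zero' {i : ℤ} {n : ℕ} (hn : Hm A κ m (i - 1) ≤ i + n) {b : ℕ} (hb : b ≠ κ (i + n)) :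
    Up A (win κ i n ++ [b]) = 0 := by
  by_contra hne
  obtain ⟨C, s, h1, h2, h3⟩ := exists_of_Up_pos (Nat.pos_of_ne_zero hne)
  simp only [List.length_append, win_length, List.length_singleton, Nat.cast_add,
    Nat.cast_one, win_succ] at h1 h2 h3
  have h5 := List.append_inj h1 (by simp)
  have hΦ := D.onP hn h5.1 (by omega) (by omega)
  have h6 := hΦ.2 (i + n)
  have e : s - i + (i + n) = s + n := by ring
  rw [e] at h6
  apply hb
  rw [← h6]
  simpa using h5.2.symm

section StepA

variable (hneg : ∀ (r : ℤ) (n : ℕ), r + n = Hm A κ m (r - 1) → Hm A κ m (r - 1) < Hm A κ m r →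
  EE A T (win κ r n) ≤ 0)
include hneg

theorem claim1 (k : ℕ) : ∀ (r : ℤ) (n : ℕ), r + n = Hm A κ m (r - 1) →
    Hm A κ m (r - 1) < Hm A κ m (r + k) → EE A T (win κ r n) ≤ 0 := by
  induction k with
  | zero =>
    intro r n h1 h2
    rw [Nat.cast_zero, add_zero] at h2
    exact hneg r n h1 h2
  | succ k ih =>
    intro r n h1 h2
    by_cases h3 : Hm A κ m (r - 1) < Hm A κ m r
    · exact hneg r n h1 h3
    · have h4 : Hm A κ m r = Hm A κ m (r - 1) := by
        have := D.Hm_mono (r := r - 1) (s := r) (by omega)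
        omega
      have h5 := D.Hm_ge r
      have h6 := D.Hm_gt r
      obtain ⟨n', rfl⟩ : ∃ n', n = n' + 1 := ⟨n - 1, by omega⟩
      have hwpos : (0 : ℤ) < w := by exact_mod_cast D.hw
      have h7 : r + 1 + n' = Hm A κ m (r + 1 - 1) := by
        rw [add_sub_cancel_right]; push_cast at h1; omega
      have h8 := ih (r + 1) n' h7 (by
        rw [add_sub_cancel_right, h4]
        have e : r + 1 + (k : ℤ) = r + ((k + 1 : ℕ) : ℤ) := by push_cast; ring
        rw [e]; exact h2)
      rw [win_succ']
      have h9 := EE_cons_le D.hM (v := win κ (r + 1) n') (κ r) (by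
        rw [win_length]; push_cast at h1; omega)
      rw [D.up_zero h7] at h9
      push_cast at h9
      linarith

theorem claim2 (d : ℕ) : ∀ (r : ℤ) (n : ℕ), r + n = Hm A κ m (r - 1) + d →
    r + n ≤ Hm A κ m r → EE A T (win κ r n) ≤ 0 := by
  induction d with
  | zero =>
    intro r n h1 h2
    rw [Nat.cast_zero, add_zero] at h1
    apply D.claim1 hneg (Hm A κ m (r - 1) - r).toNat r n h1
    have h3 := D.Hm_gt (r + ((Hm A κ m (r - 1) - r).toNat : ℤ))
    have h4 := Int.self_le_toNat (Hm A κ m (r - 1) - r)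
    linarith
  | succ d ih =>
    intro r n h1 h2
    have h5 := D.Hm_ge r
    have hwpos : (0 : ℤ) < w := by exact_mod_cast D.hw
    obtain ⟨n', rfl⟩ : ∃ n', n = n' + 1 := ⟨n - 1, by push_cast at h1; omega⟩
    push_cast at h1 h2
    have h3 := ih r n' (by omega) (by omega)
    rw [win_succ]
    have h4 := EE_snoc_le D.hM (v := win κ r n') (κ (r + n')) (by rw [win_length]; omega)
    rw [D.dn_zero (by omega) (by omega)] at h4
    push_cast at h4
    linarith

theorem claim3 (k : ℕ) : ∀ (i : ℤ) (n : ℕ), Hm A κ m (i - 1) ≤ i + n → i + n < Hm A κ m (i + k) →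
    (¬ win κ i n <:+ T) ∧ ∀ b, b ≠ κ (i + n) → EE A T (win κ i n ++ [b]) ≤ 0 := by
  have base : ∀ (i : ℤ) (n : ℕ), Hm A κ m (i - 1) ≤ i + n → i + n < Hm A κ m i →
      (¬ win κ i n <:+ T) ∧ ∀ b, b ≠ κ (i + n) → EE A T (win κ i n ++ [b]) ≤ 0 := by
    intro i n h1 h2
    have h5 := D.Hm_ge i
    have h3 := D.claim2 hneg (i + n - Hm A κ m (i - 1)).toNat i n
      (by rw [Int.toNat_of_nonneg (by omega)]; ring) (by omega)
    have h4 := D.dn_zero h1 h2
    constructor
    · apply not_suffix D.hM (by rw [win_length]; omega)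
      rw [h4]; push_cast; linarith
    · intro b _
      have h6 := EE_snoc_le D.hM (v := win κ i n) b (by rw [win_length]; omega)
      rw [h4] at h6
      push_cast at h6
      linarith
  induction k with
  | zero =>
    intro i n h1 h2
    rw [Nat.cast_zero, add_zero] at h2
    exact base i n h1 h2
  | succ k ih =>
    intro i n h1 h2
    by_cases h3 : i + n < Hm A κ m i
    · exact base i n h1 h3
    · have h4 := D.Hm_gt i
      have h5 := D.Hm_ge i
      obtain ⟨n', rfl⟩ : ∃ n', n = n' + 1 := ⟨n - 1, by omega⟩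
      push_cast at h1 h2 h3 h5
      have h6 := ih (i + 1) n' (by rw [add_sub_cancel_right]; omega) (by
        have e : i + 1 + (k : ℤ) = i + ((k : ℤ) + 1) := by ring
        rw [e]; omega)
      have e1 : i + 1 + (n' : ℤ) = i + ((n' + 1 : ℕ) : ℤ) := by push_cast; ring
      rw [e1] at h6
      constructor
      · intro hs
        rw [win_succ'] at hs
        exact h6.1 ((List.suffix_cons _ _).trans hs)
      · intro b hb
        rw [win_succ', List.cons_append]
        have h7 := EE_cons_le D.hM (v := win κ (i + 1) n' ++ [b]) (κ i) (by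
          rw [List.length_append, win_length, List.length_singleton]; omega)
        rw [D.up_zero' (i := i + 1) (n := n') (by rw [add_sub_cancel_right]; omega)
          (by rw [e1]; exact hb)] at h7
        have h8 := h6.2 b hb
        push_cast at h7
        linarith

theorem stepA_false : False := by
  have c3 : ∀ (i : ℤ) (n : ℕ), Hm A κ m (i - 1) ≤ i + n →
      (¬ win κ i n <:+ T) ∧ ∀ b, b ≠ κ (i + n) → EE A T (win κ i n ++ [b]) ≤ 0 := by
    intro i n h
    apply D.claim3 hneg n i n h
    exact D.Hm_gt _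
  have h0 := D.Hm_gt 0
  have h1 := D.Hm_mono (r := -1) (s := 0) (by omega)
  have h2 := D.Hm_ge 0
  rw [zero_sub] at h2
  set n0 := (Hm A κ m 0).toNat with hn0
  have hn0' : (n0 : ℤ) = Hm A κ m 0 := Int.toNat_of_nonneg (by omega)
  have hd : 0 < Dn A (win κ 0 n0) := by
    obtain ⟨B, t, hB, hH⟩ := D.Hm_att 0
    apply Dn_pos_of B t
    · rw [win_length, win_eq_iff]
      intro k _
      rw [hB.2, zero_add]
    · rw [win_length]
      rw [add_zero] at hH
      omega
  have key : ∀ k : ℕ, 1 ≤ EE A T (win κ 0 (n0 + 1 + k)) := by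
    intro k
    induction k with
    | zero =>
      have h3 := c3 0 n0 (by rw [zero_sub]; omega)
      have h4 := EE_le_snoc (A := A) (T := T) (κ (0 + n0)) h3.1 h3.2
      rw [← win_succ] at h4
      have h5 := EE_nonneg D.hM (v := win κ 0 n0) (by
        rw [win_length]
        have hwpos : (0 : ℤ) < w := by exact_mod_cast D.hw
        omega)
      have h6 : (1 : ℤ) ≤ Dn A (win κ 0 n0) := by exact_mod_cast hd
      rw [add_zero]
      linarith
    | succ k ih =>
      have h3 := c3 0 (n0 + 1 + k) (by rw [zero_sub]; push_cast; omega)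
      have h4 := EE_le_snoc (A := A) (T := T) (κ (0 + (n0 + 1 + k : ℕ))) h3.1 h3.2
      rw [← win_succ] at h4
      rw [← Nat.add_assoc]
      have h6 : (0 : ℤ) ≤ Dn A (win κ 0 (n0 + 1 + k)) := Int.natCast_nonneg _
      linarith
  have hfin := key T.length
  unfold EE at hfin
  have h7 : 0 < occ T (win κ 0 (n0 + 1 + T.length)) := by
    have : (0 : ℤ) ≤ M A (win κ 0 (n0 + 1 + T.length)) := Int.natCast_nonneg _
    have h8 : (0 : ℤ) < occ T (win κ 0 (n0 + 1 + T.length)) := by linarith
    exact_mod_cast h8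
  unfold occ at h7
  rw [List.countP_pos_iff] at h7
  obtain ⟨t, ht1, ht2⟩ := h7
  have h9 := ((List.mem_tails _ _).1 ht1).length_le
  have h10 := (of_decide_eq_true ht2).length_le
  rw [win_length] at h10
  omega

end StepA

theorem stepA : ∃ (r : ℤ) (n : ℕ), r + n = Hm A κ m (r - 1) ∧ Hm A κ m (r - 1) < Hm A κ m r ∧
    1 ≤ EE A T (win κ r n) := by
  by_contra hcon
  push Not at hcon
  exact D.stepA_false (fun r n h1 h2 => by
    have := hcon r n h1 h2
    omega)

/-! ### Step B -/

omit D in
/-- a bad window: some member of the family has it as an aligned window, touches it but does not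
visit it. -/
def Bad (A : ι → Comp) (κ : ℤ → ℕ) (m : ℕ) (i : ℤ) (n : ℕ) : Prop :=
  ∃ (C : ι) (t : ℤ), VisitsU (A C) κ m ∧ win (A C).u t n = win κ i n ∧
    (A C).H (t - 1) ≤ t + n ∧ (A C).H t < t + n

theorem not_bad_start {i : ℤ} {n : ℕ} (h1 : i + n = Hm A κ m (i - 1))
    (h2 : Hm A κ m (i - 1) < Hm A κ m i) : ¬ Bad A κ m i n := by
  rintro ⟨C, t, hC, hwin, h3, h4⟩
  obtain ⟨B, t', hB, hH⟩ := D.Hm_att (i - 1)
  have hnl := D.hlink B C hB.1 hC
  apply hnl
  refine ⟨t' + i, t, n, ?_, ?_, h3, ?_⟩
  · rw [hwin, win_eq_iff]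
    intro k _
    rw [add_assoc, hB.2]
  · have e : t' + i - 1 = t' + (i - 1) := by ring
    rw [e]; omega
  · intro hall
    have hΦ : Phi A κ m C (t - i) := by
      refine ⟨hC, fun r => ?_⟩
      have := hall (r - i)
      have e1 : t' + i + (r - i) = t' + r := by ring
      have e2 : t + (r - i) = t - i + r := by ring
      rw [e1, e2, hB.2] at this
      exact this.symm
    have := Hm_le hΦ i
    rw [sub_add_cancel] at this
    omega

theorem stepB {i0 : ℤ} (hi0 : -(w : ℤ) < i0) {j0 : ℤ} (hj0 : j0 ≤ m + w) (n : ℕ) :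
    ∀ i : ℤ, i0 ≤ i → i ≤ 0 → (m : ℤ) ≤ i + n → i + n ≤ j0 → 1 ≤ EE A T (win κ i n) →
      ¬ Bad A κ m i n → 1 ≤ EE A T (win κ 0 m) := by
  induction n with
  | zero =>
    intro i h1 h2 h3 h4 h5 _
    have e1 : i = 0 := by push_cast at h3; omega
    have e2 : m = 0 := by push_cast at h3; omega
    subst e1; subst e2; exact h5
  | succ n ih =>
    intro i h1 h2 h3 h4 h5 h6
    by_cases h0 : i = 0 ∧ n + 1 = m
    · obtain ⟨e1, e2⟩ := h0
      subst e1; rw [← e2]; exact h5
    -- left
    have hL : i < 0 → (1 ≤ EE A T (win κ 0 m)) ∨ ∃ (C : ι) (t : ℤ), VisitsU (A C) κ m ∧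
        win (A C).u t n = win κ (i + 1) n ∧ (A C).H (t - 1) ≤ t + n - 1 ∧
        (A C).u (t - 1) ≠ κ i := by
      intro hi
      by_cases hb : 1 ≤ EE A T (win κ (i + 1) n) ∧ ¬ Bad A κ m (i + 1) n
      · left
        exact ih (i + 1) (by omega) (by omega) (by push_cast at h3; omega)
          (by push_cast at h4; omega) hb.1 hb.2
      · right
        -- the next letter differs since the window itself is not bad
        have hne : ∀ (C : ι) (t : ℤ), VisitsU (A C) κ m → win (A C).u t n = win κ (i + 1) n →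
            (A C).H (t - 1) ≤ t + n - 1 → (A C).u (t - 1) ≠ κ i := by
          intro C t hC hwin hH hu
          apply h6
          refine ⟨C, t - 1, hC, ?_, ?_, ?_⟩
          · rw [win_succ', win_succ', hu, sub_add_cancel, hwin]
          · have := (A C).H_mono (t - 1 - 1)
            rw [sub_add_cancel] at this
            push_cast; omega
          · push_cast; omega
        by_cases hb1 : 1 ≤ EE A T (win κ (i + 1) n)
        · have hb2 : Bad A κ m (i + 1) n := by
            by_contra hcon; exact hb ⟨hb1, hcon⟩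
          obtain ⟨C, t, hC, hwin, h7, h8⟩ := hb2
          have h9 := (A C).H_mono (t - 1)
          rw [sub_add_cancel] at h9
          have h10 : (A C).H (t - 1) ≤ t + n - 1 := by omega
          exact ⟨C, t, hC, hwin, h10, hne C t hC hwin h10⟩
        · have h7 := EE_cons_le D.hM (v := win κ (i + 1) n) (κ i) (by
            rw [win_length]; push_cast at h3; omega)
          rw [← win_succ'] at h7
          have h8 : 0 < Up A (win κ (i + 1) n) := by
            by_contra hcon
            have : Up A (win κ (i + 1) n) = 0 := by omega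
            rw [this] at h7
            push_cast at h7
            omega
          obtain ⟨C, t, h9, h10, h11⟩ := exists_of_Up_pos h8
          rw [win_length] at h9 h10 h11
          have hC : VisitsU (A C) κ m :=
            ⟨i + 1, t, n, by omega, by push_cast at h3; omega, h9, by omega, h11⟩
          have h12 : (A C).H (t - 1) ≤ t + n - 1 := by omega
          exact ⟨C, t, hC, h9, h12, hne C t hC h9 h12⟩
    have hR : (m : ℤ) < i + (n + 1 : ℕ) → (1 ≤ EE A T (win κ 0 m)) ∨ ∃ (C : ι) (t : ℤ),
        VisitsU (A C) κ m ∧ win (A C).u t n = win κ i n ∧ (A C).H t ≤ t + n ∧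
        (A C).u (t + n) ≠ κ (i + n) := by
      intro hj
      push_cast at hj h4
      by_cases hb : 1 ≤ EE A T (win κ i n) ∧ ¬ Bad A κ m i n
      · left
        exact ih i h1 h2 (by omega) (by omega) hb.1 hb.2
      · right
        have hne : ∀ (C : ι) (t : ℤ), VisitsU (A C) κ m → win (A C).u t n = win κ i n →
            (A C).H t ≤ t + n → (A C).u (t + n) ≠ κ (i + n) := by
          intro C t hC hwin hH hu
          apply h6
          refine ⟨C, t, hC, ?_, ?_, ?_⟩
          · rw [win_succ, win_succ, hu, hwin]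
          · have := (A C).H_mono (t - 1)
            rw [sub_add_cancel] at this
            push_cast; omega
          · push_cast; omega
        by_cases hb1 : 1 ≤ EE A T (win κ i n)
        · have hb2 : Bad A κ m i n := by
            by_contra hcon; exact hb ⟨hb1, hcon⟩
          obtain ⟨C, t, hC, hwin, h7, h8⟩ := hb2
          exact ⟨C, t, hC, hwin, by omega, hne C t hC hwin (by omega)⟩
        · have h7 := EE_snoc_le D.hM (v := win κ i n) (κ (i + n)) (by
            rw [win_length]; omega)
          rw [← win_succ] at h7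
          have h8 : 0 < Dn A (win κ i n) := by
            by_contra hcon
            have : Dn A (win κ i n) = 0 := by omega
            rw [this] at h7
            push_cast at h7
            omega
          obtain ⟨C, t, h9, h10⟩ := exists_of_Dn_pos h8
          rw [win_length] at h9 h10
          have h11 := (A C).H_mono (t - 1)
          rw [sub_add_cancel] at h11
          have hC : VisitsU (A C) κ m :=
            ⟨i, t, n, by omega, by omega, h9, by omega, by omega⟩
          exact ⟨C, t, hC, h9, by omega, hne C t hC h9 (by omega)⟩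
    push_cast at h3 h4 hR
    rcases lt_or_eq_of_le h2 with hi | hi
    · rcases hL hi with h | ⟨C, t, hC, hwin, hH, hu⟩
      · exact h
      have hlC := D.hl C hC t
      rcases lt_or_eq_of_le h3 with hj | hj
      · rcases hR hj with h | ⟨C', t', hC', hwin', hH', hu'⟩
        · exact h
        exfalso
        have hwpos : (0 : ℤ) < w := by exact_mod_cast D.hw
        obtain ⟨q, rfl⟩ : ∃ q, n = q + 1 := ⟨n - 1, by omega⟩
        apply D.hlink C C' hC hC'
        refine ⟨t, t' + 1, q, ?_, ?_, ?_, ?_⟩
        · rw [win_succ, win_succ] at hwin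
          rw [win_succ', win_succ'] at hwin'
          have e1 := (List.append_inj hwin (by simp)).1
          have e2 := (List.cons.inj hwin').2
          rw [e1, e2]
        · push_cast at hH; omega
        · rw [add_sub_cancel_right]; push_cast at hH'; omega
        · intro hall
          apply hu
          have := hall (-1)
          rw [← sub_eq_add_neg, ← sub_eq_add_neg, add_sub_cancel_right] at this
          rw [this]
          rw [win_succ', win_succ'] at hwin'
          exact (List.cons.inj hwin').1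
      · exfalso; omega
    · subst hi
      rcases lt_or_eq_of_le h3 with hj | hj
      · rcases hR hj with h | ⟨C', t', hC', hwin', hH', hu'⟩
        · exact h
        exfalso
        have hlC := D.hl C' hC' (t' + 1)
        rw [add_sub_cancel_right] at hlC
        omega
      · exfalso
        apply h0
        exact ⟨rfl, by omega⟩

/-- **The lower-bound step.** -/
theorem main : M A (win κ 0 m) + 1 ≤ occ T (win κ 0 m) := by
  obtain ⟨r, n, h1, h2, h3⟩ := D.stepA
  have hwpos : (0 : ℤ) < w := by exact_mod_cast D.hw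
  obtain ⟨k, hk1, hk2⟩ : ∃ k : ℤ, r + k * w ≤ 0 ∧ -(w : ℤ) < r + k * w := by
    refine ⟨-(r / w) - (if r % w = 0 then 0 else 1), ?_, ?_⟩
    · have e := Int.emod_add_mul_ediv r w
      have e1 := Int.emod_nonneg r hwpos.ne'
      have e2 := Int.emod_lt_of_pos r hwpos
      split_ifs with h
      · have : r + (-(r / w) - 0) * w = r % w := by linarith
        rw [this, h]
      · have : r + (-(r / w) - 1) * w = r % w - w := by linarith
        rw [this]; omega
    · have e := Int.emod_add_mul_ediv r w
      have e1 := Int.emod_nonneg r hwpos.ne'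
      have e2 := Int.emod_lt_of_pos r hwpos
      split_ifs with h
      · have : r + (-(r / w) - 0) * w = r % w := by linarith
        rw [this, h]; omega
      · have : r + (-(r / w) - 1) * w = r % w - w := by linarith
        rw [this]
        have : 0 < r % w := lt_of_le_of_ne e1 (Ne.symm h)
        omega
  have e1 : Hm A κ m (r + k * w - 1) = Hm A κ m (r - 1) + k * w := by
    have e : r + k * w - 1 = r - 1 + k * w := by ring
    rw [e, D.Hm_per]
  have e2 := D.Hm_per r k
  have h1' : r + k * w + n = Hm A κ m (r + k * w - 1) := by rw [e1, ← h1]; ring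
  have h2' : Hm A κ m (r + k * w - 1) < Hm A κ m (r + k * w) := by rw [e1, e2]; linarith
  have h3' : 1 ≤ EE A T (win κ (r + k * w) n) := by rw [D.winper]; exact h3
  have h4 : Hm A κ m (r + k * w - 1) ≤ m + w := by
    have := D.Hm_mono (r := r + k * w - 1) (s := -1) (by omega)
    exact this.trans D.Hm_neg_one_le
  have h5 := D.Hm_ge (r + k * w)
  have := D.stepB (i0 := r + k * w) hk2 (j0 := r + k * w + n) (by rw [h1']; exact h4) n
    (r + k * w) le_rfl hk1 (by omega) le_rfl h3' (D.not_bad_start h1' h2')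
  unfold EE at this
  have h6 : (M A (win κ 0 m) : ℤ) + 1 ≤ occ T (win κ 0 m) := by linarith
  exact_mod_cast h6

end LBData

end Crest.Agent.R287.LBS

namespace Crest.Agent.R287

/-! ### transport to `Ring` -/

/-- a ring as an `LBS.Comp` -/
def toComp (R : Ring) : LBS.Comp where
  u := R.κ
  w := R.w
  H := R.F
  w_pos := R.wpos
  u_per := R.κper
  H_mono := fun s => R.mono (by omega)
  H_per := R.Fper
  H_gt := R.Fgt

theorem win_conv (u : ℤ → ℕ) (s : ℤ) (n : ℕ) : LBS.win u s n = win u s (s + n) := by
  unfold LBS.win win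
  have : (s + (n : ℤ) - s).toNat = n := by omega
  rw [this]

theorem occ_conv (T : List ℕ) {v : List ℕ} (hv : v ≠ []) : LBS.occ T v = occ v T := by
  induction T with
  | nil => rw [LBS.occ_nil, if_neg hv]; rfl
  | cons c T ih => rw [LBS.occ_cons, ih]; rfl

theorem cnt_conv (R : Ring) (v : List ℕ) : (toComp R).cnt v = R.M v := by
  unfold LBS.Comp.cnt Ring.M cnt
  rw [Finset.card_filter]
  symm
  apply Finset.sum_bij (fun (n : ℕ) _ => (n : ℤ))
  · intro n hn
    rw [Finset.mem_range] at hn
    rw [Finset.mem_Ico]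
    exact ⟨by omega, by exact_mod_cast hn⟩
  · intro a _ b _ h
    exact_mod_cast h
  · intro b hb
    rw [Finset.mem_Ico] at hb
    have hb2 : b < (R.w : ℤ) := hb.2
    refine ⟨b.toNat, ?_, by omega⟩
    rw [Finset.mem_range]
    omega
  · intro n _
    rw [win_conv]
    rfl

theorem M_conv {ι : Type} [Fintype ι] (R : ι → Ring) (v : List ℕ) :
    LBS.M (fun i => toComp (R i)) v = Mtot R v := by
  unfold LBS.M Mtot
  exact Finset.sum_congr rfl (fun i _ => cnt_conv (R i) v)

theorem linked_conv {R R' : Ring} (h : LBS.Linked (toComp R) (toComp R')) : R.Linked R' := by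
  obtain ⟨s, t, n, h1, h2, h3, h4⟩ := h
  rw [win_conv, win_conv] at h1
  exact ⟨s, t, n, h1, h2, h3, h4⟩

/-- **The lower-bound step**, in the frozen form. -/
theorem lb_step : LBStepStatement := by
  intro ι _ R K z T hC hM
  have hwrap : ((R K).w : ℤ) < (R K).lev := hC.wrapK
  set lv := (R K).lev with hlv
  obtain ⟨m, hm⟩ : ∃ m : ℕ, lv - (R K).w = m := ⟨(lv - (R K).w).toNat, by omega⟩
  have hlev : lv = m + (R K).w := by omega
  have hwin : ∀ (i : ℤ) (n : ℕ), LBS.win (fun r => (R K).κ (z + r)) i n =
      win (R K).κ (z + i) (z + i + n) := by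
    intro i n
    rw [← win_conv]
    unfold LBS.win
    apply List.map_congr_left
    intro k _
    simp only [add_assoc]
  have hV : ∀ B, LBS.VisitsU (toComp (R B)) (fun r => (R K).κ (z + r)) m →
      VisU R K z (lv - (R K).w) B := by
    rintro B ⟨i, s, n, h1, h2, h3, h4, h5⟩
    refine ⟨z + i, z + i + n, s, by omega, by omega, ?_, ?_, ?_⟩
    · have e : z + i + (n : ℤ) - (z + i) = n := by ring
      rw [e, ← win_conv, ← hwin]
      exact h3
    · have e : s + (z + i + (n : ℤ) - (z + i)) = s + n := by ring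
      rw [e]; exact h4
    · have e : s + (z + i + (n : ℤ) - (z + i)) = s + n := by ring
      rw [e]; exact h5
  have hlen : (win (R K).κ z (z + (lv - (R K).w))).length = m := by
    rw [length_win]; omega
  have D : LBS.LBData (fun i => toComp (R i)) T (fun r => (R K).κ (z + r)) (R K).w m := by
    refine ⟨(R K).wpos, ?_, ⟨K, z, fun r => rfl, ?_⟩, ?_, ?_, ?_⟩
    · intro r
      have := (R K).κper (z + r)
      rw [← this, add_assoc]
    · have := hC.bot
      rw [← hlv, hlev] at this
      exact this
    · intro B hB s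
      have h1 := (hC.wrap B (hV B hB)).2
      have h2 := (R B).lev_le s
      have h3 : lv ≤ (R B).F (s - 1) - s := le_trans h1 h2
      have h4 : (toComp (R B)).H (s - 1) = (R B).F (s - 1) := rfl
      rw [h4]; omega
    · intro B C hB hCC hL
      exact hC.unlinked B C (hV B hB) (hV C hCC) (linked_conv hL)
    · intro v hv
      rw [M_conv, occ_conv T (by intro e; rw [e] at hv; simp at hv)]
      exact hM v (by rw [hlen]; exact hv)
  have := D.main
  have e0 : LBS.win (fun r => (R K).κ (z + r)) 0 m = win (R K).κ z (z + (lv - (R K).w)) := by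
    rw [hwin, hm, add_zero]
  rw [e0, M_conv, occ_conv] at this
  · exact this
  · intro e
    have h1 := congrArg List.length e
    rw [hlen] at h1
    simp at h1
    omega

end Crest.Agent.R287
end

-- ▼ part R287/InvCount

/-!
# Row 287: counting part of the correctness of the one-pass algorithm
-/

set_option autoImplicit false

namespace Crest.Agent.R287.IC

open Finset

/-- all words of a state -/
def wordsS (st : St) : List Word := st.1.flatten ++ st.2.flatten

/-- number of words of `W` having `v` as a prefix -/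
def Ms (W : List Word) (v : Word) : ℕ := W.countP fun p => decide (v <+: p)

theorem Ms_perm {W W' : List Word} (h : W.Perm W') (v : Word) : Ms W v = Ms W' v := h.countP_eq _

theorem Ms_append (W W' : List Word) (v : Word) : Ms (W ++ W') v = Ms W v + Ms W' v := by
  simp [Ms, List.countP_append]

@[simp] theorem Ms_nil (v : Word) : Ms [] v = 0 := rfl

theorem Ms_cons (p : Word) (W : List Word) (v : Word) :
    Ms (p :: W) v = (if v <+: p then 1 else 0) + Ms W v := by
  unfold Ms
  rw [List.countP_cons]
  by_cases h : v <+: p <;> simp [h]; omega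

theorem Ms_eq_zero {W : List Word} {v : Word} (h : ∀ p ∈ W, p.length < v.length) : Ms W v = 0 := by
  unfold Ms
  rw [List.countP_eq_zero]
  intro p hp
  have := h p hp
  simp only [decide_eq_true_eq]
  intro hc
  have := hc.length_le
  omega

/-- right recursion -/
theorem Ms_right (A : Finset ℕ) {W : List Word} (hA : ∀ p ∈ W, ∀ c ∈ p, c ∈ A) (v : Word) :
    Ms W v = ∑ b ∈ A, Ms W (v ++ [b]) + W.count v := by
  induction W with
  | nil => simp
  | cons p W ih =>
    have ih' := ih (fun q hq => hA q (List.mem_cons_of_mem _ hq))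
    have hp := prefix_split (y := v) A (hA p List.mem_cons_self)
    rw [Ms_cons, ih', hp]
    simp only [Ms_cons, Finset.sum_add_distrib]
    rw [List.count_cons]
    have : (if (p == v) = true then 1 else 0) = (if v = p then 1 else 0) := by
      by_cases h : v = p
      · simp [h]
      · have h' : ¬ p = v := fun e => h e.symm
        simp [h, h']
    omega

/-- left recursion for the tails -/
theorem countP_tail (A : Finset ℕ) {W : List Word} (hA : ∀ p ∈ W, ∀ c ∈ p, c ∈ A)
    (hne : ∀ p ∈ W, p ≠ []) (v : Word) :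
    W.countP (fun p => decide (v <+: p.tail)) = ∑ a ∈ A, Ms W (a :: v) := by
  induction W with
  | nil => simp
  | cons p W ih =>
    have ih' := ih (fun q hq => hA q (List.mem_cons_of_mem _ hq))
      (fun q hq => hne q (List.mem_cons_of_mem _ hq))
    rw [List.countP_cons, ih']
    simp only [Ms_cons, Finset.sum_add_distrib]
    cases p with
    | nil => exact absurd rfl (hne _ List.mem_cons_self)
    | cons c p =>
      have hc : c ∈ A := hA (c :: p) List.mem_cons_self c List.mem_cons_self
      have : ∀ a, ((a :: v) <+: (c :: p)) ↔ (a = c ∧ v <+: p) := by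
        intro a; rw [List.cons_prefix_cons]
      simp only [this, List.tail_cons]
      by_cases h : v <+: p
      · simp [h, hc]; omega
      · simp [h]

/-- counting the successors in a chain -/
theorem Ms_next {L : List Word} {e : Word} (hc : List.IsChain (fun p q : Word => p.tail <+: q) (L ++ [e]))
    {v : Word} (hl : ∀ p ∈ L, v.length + 1 ≤ p.length) :
    Ms (L ++ [e]).tail v = L.countP (fun p => decide (v <+: p.tail)) := by
  induction L with
  | nil => simp
  | cons p L ih =>
    have key : ∀ q : Word, p.tail <+: q → ((v <+: q) ↔ (v <+: p.tail)) := by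
      intro q hq
      have h1 := hl p List.mem_cons_self
      constructor
      · intro h
        exact List.prefix_of_prefix_length_le h hq (by simp; omega)
      · intro h; exact h.trans hq
    rw [List.cons_append, List.tail_cons, List.countP_cons]
    cases L with
    | nil =>
      simp only [List.nil_append, List.cons_append, List.isChain_cons_cons] at hc ⊢
      rw [Ms_cons]
      simp only [key e hc.1, Ms_nil, List.countP_nil]
      by_cases h : v <+: p.tail <;> simp [h]
    | cons q L =>
      simp only [List.cons_append, List.isChain_cons_cons] at hc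
      have ih' := ih (by simpa using hc.2) (fun r hr => hl r (List.mem_cons_of_mem _ hr))
      rw [List.cons_append, List.tail_cons] at ih'
      rw [List.cons_append, Ms_cons, ih']
      simp only [key q hc.1]
      by_cases h : v <+: p.tail <;> simp [h]; omega

/-! ### structure of the states -/

/-- open chain whose last word has length `m` (the others are at least as long) -/
structure OpenAt (m : ℕ) (X : PL) : Prop where
  ne : X ≠ []
  chain : X.IsChain (fun p q : Word => p.tail <+: q)
  len : ∀ p ∈ X, m ≤ p.length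
  last : (lastW X).length = m

/-- ring with words of length at least `m` -/
structure RingAt (m : ℕ) (P : PL) : Prop where
  ring : IsPRing P
  len : ∀ p ∈ P, m ≤ p.length

structure Mid (m : ℕ) (st : St) : Prop where
  opens : ∀ X ∈ st.1, OpenAt m X
  rings : ∀ P ∈ st.2, RingAt m P

def LinkFree (st : St) : Prop := ∀ X ∈ st.1, ∀ Y ∈ st.1, linkB X Y = false

theorem lastW_eq {X : PL} (h : X ≠ []) : lastW X = X.getLast h := by
  unfold lastW
  rw [List.getLastD_eq_getLast?, List.getLast?_eq_some_getLast h]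
  rfl

theorem chain_ext {X : PL} (hc : X.IsChain (fun p q : Word => p.tail <+: q)) (hne : X ≠ []) :
    (X ++ [(lastW X).tail]).IsChain (fun p q : Word => p.tail <+: q) := by
  rw [List.isChain_append]
  refine ⟨hc, List.isChain_singleton _, ?_⟩
  intro x hx y hy
  rw [List.getLast?_eq_some_getLast hne] at hx
  simp only [Option.mem_def, Option.some.injEq, List.head?_cons] at hx hy
  subst hx; subst hy
  rw [lastW_eq hne]

theorem OpenAt.ext {m : ℕ} {X : PL} (h : OpenAt (m + 1) X) : OpenAt m (ext X) where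
  ne := by simp [Crest.Agent.R287.ext]
  chain := chain_ext h.chain h.ne
  len := by
    intro p hp
    unfold Crest.Agent.R287.ext at hp
    rw [List.mem_append, List.mem_singleton] at hp
    rcases hp with hp | rfl
    · have := h.len p hp; omega
    · rw [List.length_tail, h.last]; omega
  last := by
    unfold Crest.Agent.R287.ext
    rw [lastW_concat, List.length_tail, h.last]; omega

theorem RingAt.mono {m m' : ℕ} (hm : m' ≤ m) {P : PL} (h : RingAt m P) : RingAt m' P :=
  ⟨h.ring, fun p hp => hm.trans (h.len p hp)⟩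

theorem Mid.ext {m : ℕ} {st : St} (h : Mid (m + 1) st) : Mid m (st.1.map ext, st.2) where
  opens := by
    intro X hX
    obtain ⟨Y, hY, rfl⟩ := List.mem_map.1 hX
    exact (h.opens Y hY).ext
  rings := fun P hP => (h.rings P hP).mono (Nat.le_succ m)

theorem Mid.add {m : ℕ} {st : St} (h : Mid m st) {x : Word} (hx : x.length = m) :
    Mid m ([x] :: st.1, st.2) where
  opens := by
    intro X hX
    rcases List.mem_cons.1 hX with rfl | hX
    · exact ⟨by simp, List.isChain_singleton _, by simp [hx], by simp [lastW, hx]⟩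
    · exact h.opens X hX
  rings := h.rings

/-! ### the extension step -/

theorem flatten_map_ext (l : List PL) :
    ((l.map ext).flatten).Perm (l.flatten ++ l.map (fun X => (lastW X).tail)) := by
  induction l with
  | nil => simp
  | cons X l ih =>
    simp only [List.map_cons, List.flatten_cons, ext, List.append_assoc]
    refine List.Perm.append_left X ?_
    rw [List.singleton_append]
    refine (List.Perm.cons _ ih).trans ?_
    exact (List.perm_middle).symm

theorem wordsS_ext (st : St) :
    (wordsS (st.1.map ext, st.2)).Perm (wordsS st ++ st.1.map (fun X => (lastW X).tail)) := by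
  unfold wordsS
  refine (List.Perm.append_right _ (flatten_map_ext st.1)).trans ?_
  rw [List.append_assoc, List.append_assoc]
  exact List.Perm.append_left _ List.perm_append_comm

theorem linkB_eq_false {X Y : PL} : linkB X Y = false ↔ ¬ (lastW X).tail <+: headW Y := by
  unfold linkB
  rw [← Bool.not_eq_true, List.isPrefixOf_iff_prefix]

/-- count in an extended open chain -/
theorem Ms_ext_open {m : ℕ} {X : PL} (h : OpenAt (m + 1) X) {v : Word} (hv : v.length = m)
    (hh : ¬ v <+: headW X) : Ms (ext X) v = X.countP (fun p => decide (v <+: p.tail)) := by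
  have hn := Ms_next (chain_ext h.chain h.ne) (v := v)
    (fun p hp => by have := h.len p hp; omega)
  cases X with
  | nil => exact absurd rfl h.ne
  | cons x X' =>
    rw [← hn]
    unfold ext
    rw [List.cons_append, List.tail_cons, Ms_cons]
    have : ¬ v <+: x := by simpa [headW] using hh
    simp [this]

/-- count in a ring -/
theorem Ms_ring {m : ℕ} {P : PL} (h : RingAt (m + 1) P) {v : Word} (hv : v.length = m) :
    Ms P v = P.countP (fun p => decide (v <+: p.tail)) := by
  have hn := Ms_next h.ring.2.2 (v := v) (fun p hp => by have := h.len p hp; omega)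
  cases P with
  | nil => exact absurd rfl h.ring.1
  | cons x P' =>
    rw [← hn, List.cons_append, List.tail_cons]
    apply Ms_perm
    simpa using (List.perm_append_singleton x P').symm

theorem Ms_flatten_congr {l l' : List PL} {v : Word} (f : Word → Bool)
    (h : List.Forall₂ (fun X Y : PL => Ms Y v = X.countP f) l l') :
    Ms l'.flatten v = l.flatten.countP f := by
  induction h with
  | nil => rfl
  | cons h1 _ ih => rw [List.flatten_cons, List.flatten_cons, Ms_append, List.countP_append, h1, ih]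

theorem ext_step {m : ℕ} {st : St} (h : Mid (m + 1) st) (hG : LinkFree st) {T : List ℕ}
    (hocc : ∀ v : Word, m + 1 ≤ v.length → Ms (wordsS st) v ≤ occ v T) (v : Word) (hv0 : v ≠ [])
    (hv : m ≤ v.length) : Ms (wordsS (st.1.map ext, st.2)) v ≤ occ v T := by
  have hperm := Ms_perm (wordsS_ext st) v
  rw [Ms_append] at hperm
  have hlen1 : ∀ p ∈ wordsS st, m + 1 ≤ p.length := by
    intro p hp
    unfold wordsS at hp
    rw [List.mem_append, List.mem_flatten, List.mem_flatten] at hp
    rcases hp with ⟨X, hX, hp⟩ | ⟨X, hX, hp⟩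
    · exact (h.opens X hX).len p hp
    · exact (h.rings X hX).len p hp
  have hlen2 : ∀ p ∈ st.1.map (fun X => (lastW X).tail), p.length = m := by
    intro p hp
    obtain ⟨X, hX, rfl⟩ := List.mem_map.1 hp
    rw [List.length_tail, (h.opens X hX).last]; omega
  rcases Nat.eq_or_lt_of_le hv with hv | hv
  · -- length `m`
    set A : Finset ℕ := T.toFinset ∪ (wordsS st).flatten.toFinset with hAdef
    have hAT : ∀ c ∈ T, c ∈ A := fun c hc => by simp [hAdef, hc]
    have hAW : ∀ p ∈ wordsS st, ∀ c ∈ p, c ∈ A := fun p hp c hc => by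
      rw [hAdef, Finset.mem_union, List.mem_toFinset, List.mem_toFinset]
      right
      exact List.mem_flatten.2 ⟨p, hp, hc⟩
    by_cases hD : ∃ X ∈ st.1, (lastW X).tail = v
    · obtain ⟨X, hX, hXv⟩ := hD
      have hU : ∀ Y ∈ st.1, ¬ v <+: headW Y := by
        intro Y hY
        rw [← hXv]
        exact linkB_eq_false.1 (hG X hX Y hY)
      have e1 : Ms (wordsS (st.1.map ext, st.2)) v =
          (wordsS st).countP (fun p => decide (v <+: p.tail)) := by
        unfold wordsS
        rw [Ms_append, List.countP_append]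
        congr 1
        · apply Ms_flatten_congr
          rw [List.forall₂_map_right_iff]
          exact List.forall₂_same.2 fun Y hY => Ms_ext_open (h.opens Y hY) hv.symm (hU Y hY)
        · apply Ms_flatten_congr
          exact List.forall₂_same.2 fun Y hY => Ms_ring (h.rings Y hY) hv.symm
      rw [e1, countP_tail A hAW (fun p hp => by
        have := hlen1 p hp
        intro e; rw [e] at this; simp at this) v, occ_eq_prefix A hAT hv0]
      have : ∑ a ∈ A, Ms (wordsS st) (a :: v) ≤ ∑ a ∈ A, occ (a :: v) T :=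
        Finset.sum_le_sum fun a _ => hocc _ (by simp only [List.length_cons]; omega)
      omega
    · have e2 : Ms (st.1.map (fun X => (lastW X).tail)) v = 0 := by
        unfold Ms
        rw [List.countP_eq_zero]
        intro p hp
        simp only [decide_eq_true_eq]
        intro hpre
        have := hpre.eq_of_length (by rw [hlen2 p hp, hv])
        obtain ⟨X, hX, rfl⟩ := List.mem_map.1 hp
        exact hD ⟨X, hX, this.symm⟩
      have e3 : (wordsS st).count v = 0 := by
        rw [List.count_eq_zero]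
        intro hmem
        have := hlen1 v hmem
        omega
      rw [hperm, e2, Ms_right A hAW, e3, occ_eq_suffix A hAT hv0]
      have : ∑ b ∈ A, Ms (wordsS st) (v ++ [b]) ≤ ∑ b ∈ A, occ (v ++ [b]) T :=
        Finset.sum_le_sum fun b _ => hocc _ (by
          simp only [List.length_append, List.length_singleton]; omega)
      omega
  · have e2 : Ms (st.1.map (fun X => (lastW X).tail)) v = 0 :=
      Ms_eq_zero fun p hp => by rw [hlen2 p hp]; exact hv
    rw [hperm, e2, Nat.add_zero]
    exact hocc v hv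

/-! ### adding words -/

theorem wordsS_add (st : St) (x : Word) : wordsS ([x] :: st.1, st.2) = x :: wordsS st := by
  simp [wordsS]

theorem add_step {m : ℕ} {st : St} {x : Word} (hx : x.length = m) {T : List ℕ}
    (h : ∀ v : Word, v ≠ [] → m ≤ v.length → Ms (wordsS st) v ≤ occ v T)
    (hx' : Ms (wordsS st) x + 1 ≤ occ x T) (v : Word) (hv0 : v ≠ []) (hv : m ≤ v.length) :
    Ms (wordsS ([x] :: st.1, st.2)) v ≤ occ v T := by
  rw [wordsS_add, Ms_cons]
  by_cases hvx : v <+: x
  · have : v = x := hvx.eq_of_length (by have := hvx.length_le; omega)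
    subst this
    rw [if_pos hvx]
    omega
  · rw [if_neg hvx]
    have := h v hv0 hv
    omega

theorem occursB_iff (st : St) (s : Word) : occursB st s = true ↔ ∃ p ∈ wordsS st, s <:+: p := by
  unfold occursB wordsS
  simp only [List.any_eq_true, List.isPrefixOf_iff_prefix, List.mem_append, List.mem_flatten,
    List.mem_tails]
  constructor
  · rintro ⟨X, hX, p, hp, q, hq, hs⟩
    refine ⟨p, ?_, hs.isInfix.trans hq.isInfix⟩
    rcases hX with hX | hX
    · exact Or.inl ⟨X, hX, hp⟩
    · exact Or.inr ⟨X, hX, hp⟩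
  · rintro ⟨p, hp, hs⟩
    obtain ⟨q, hq, hs'⟩ := List.infix_iff_prefix_suffix.1 hs
    rcases hp with ⟨X, hX, hp⟩ | ⟨X, hX, hp⟩
    · exact ⟨X, Or.inl hX, p, hp, q, hs', hq⟩
    · exact ⟨X, Or.inr hX, p, hp, q, hs', hq⟩

theorem addInput_step {m : ℕ} (hm : 1 ≤ m) {st : St} {s : Word} {T : List ℕ} (hs : s <:+: T)
    (hM : Mid m st)
    (h : ∀ v : Word, v ≠ [] → m ≤ v.length → Ms (wordsS st) v ≤ occ v T) :
    Mid m (addInput m st s) ∧
      ∀ v : Word, v ≠ [] → m ≤ v.length → Ms (wordsS (addInput m st s)) v ≤ occ v T := by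
  unfold addInput
  by_cases hc : (decide (s.length = m) && !occursB st s) = true
  · rw [if_pos hc]
    simp only [Bool.and_eq_true, decide_eq_true_eq, Bool.not_eq_true'] at hc
    refine ⟨hM.add hc.1, add_step hc.1 h ?_⟩
    have h0 : Ms (wordsS st) s = 0 := by
      unfold Ms
      rw [List.countP_eq_zero]
      intro p hp
      simp only [decide_eq_true_eq]
      intro hpre
      have := (occursB_iff st s).2 ⟨p, hp, hpre.isInfix⟩
      rw [this] at hc
      simp at hc
    rw [h0]
    have hs0 : s ≠ [] := by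
      intro e; rw [e] at hc; simp at hc; omega
    have := occ_pos hs0 hs
    omega
  · rw [if_neg hc]
    exact ⟨hM, h⟩

theorem addInputs_step {m : ℕ} (hm : 1 ≤ m) {T : List ℕ} (S : List Word) (hS : ∀ s ∈ S, s <:+: T)
    {st : St} (hM : Mid m st)
    (h : ∀ v : Word, v ≠ [] → m ≤ v.length → Ms (wordsS st) v ≤ occ v T) :
    Mid m (S.foldl (addInput m) st) ∧
      ∀ v : Word, v ≠ [] → m ≤ v.length → Ms (wordsS (S.foldl (addInput m) st)) v ≤ occ v T := by
  induction S generalizing st with
  | nil => exact ⟨hM, h⟩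
  | cons s S ih =>
    rw [List.foldl_cons]
    obtain ⟨h1, h2⟩ := addInput_step hm (hS s List.mem_cons_self) hM h
    exact ih (fun t ht => hS t (List.mem_cons_of_mem _ ht)) h1 h2

/-! ### the family of rings of a state -/

theorem tails_dropLast_cons (a : ℕ) (l : Word) :
    (a :: l).tails.dropLast = (a :: l) :: l.tails.dropLast := by
  rw [List.tails_cons]
  exact List.dropLast_cons_of_ne_nil (by
    intro e
    have : l.tails.length = 0 := by rw [e]; rfl
    simp at this)

theorem mem_tails_dropLast {l p : Word} (h : p ∈ l.tails.dropLast) :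
    p ≠ [] ∧ p.length ≤ l.length := by
  induction l with
  | nil => simp at h
  | cons a l ih =>
    rw [tails_dropLast_cons, List.mem_cons] at h
    rcases h with rfl | h
    · simp
    · have := ih h
      exact ⟨this.1, by simp only [List.length_cons]; omega⟩

theorem chain_tails (e h : Word) :
    (e :: (e.tail.tails.dropLast ++ [h])).IsChain (fun p q : Word => p.tail <+: q) := by
  induction e with
  | nil => simp
  | cons a e ih =>
    cases e with
    | nil => simp
    | cons b e =>
      rw [List.tail_cons, tails_dropLast_cons, List.cons_append, List.isChain_cons_cons]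
      exact ⟨List.prefix_refl _, ih⟩

theorem isPRing_closeR' {X : PL} (hne : X ≠ []) (hpos : ∀ p ∈ X, p ≠ [])
    (hc : X.IsChain (fun p q : Word => p.tail <+: q)) : IsPRing (closeR X) := by
  refine ⟨by simp [closeR, hne], ?_, ?_⟩
  · intro p hp
    unfold closeR at hp
    rw [List.mem_append] at hp
    rcases hp with hp | hp
    · exact hpos p hp
    · exact (mem_tails_dropLast hp).1
  · obtain ⟨X', e, rfl⟩ : ∃ X' e, X = X' ++ [e] := ⟨X.dropLast, X.getLast hne,
      (List.dropLast_append_getLast hne).symm⟩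
    unfold closeR
    rw [lastW_concat]
    have h2 := chain_tails e (((X' ++ [e]) ++ e.tail.tails.dropLast).headD [])
    have := List.IsChain.append_overlap (l₁ := X') (l₂ := [e])
      (l₃ := e.tail.tails.dropLast ++ [((X' ++ [e]) ++ e.tail.tails.dropLast).headD []]) hc
      (by simpa using h2) (by simp)
    simpa using this

theorem Ms_closeR {X : PL} {v : Word} (hv : (lastW X).length ≤ v.length) (hv0 : v ≠ []) :
    Ms (closeR X) v = Ms X v := by
  unfold closeR
  rw [Ms_append, Ms_eq_zero (W := (lastW X).tail.tails.dropLast), Nat.add_zero]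
  intro p hp
  have h1 := (mem_tails_dropLast hp).2
  rw [List.length_tail] at h1
  have : 0 < v.length := List.length_pos_iff.mpr hv0
  omega

theorem Ms_famS {m : ℕ} {st : St} (h : Mid m st) {v : Word} (hv : m ≤ v.length) (hv0 : v ≠ []) :
    Ms (famS st).flatten v = Ms (wordsS st) v := by
  unfold famS wordsS
  rw [List.flatten_append, Ms_append, Ms_append, Nat.add_comm]
  congr 1
  have := Ms_flatten_congr (v := v) (l := st.1) (l' := st.1.map closeR)
    (fun p => decide (v <+: p)) (by
      rw [List.forall₂_map_right_iff]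
      exact List.forall₂_same.2 fun Y hY => Ms_closeR (by rw [(h.opens Y hY).last]; exact hv) hv0)
  exact this

theorem famS_isPRing {m : ℕ} (hm : 1 ≤ m) {st : St} (h : Mid m st) : ∀ P ∈ famS st, IsPRing P := by
  intro P hP
  unfold famS at hP
  rw [List.mem_append, List.mem_map] at hP
  rcases hP with hP | ⟨X, hX, rfl⟩
  · exact (h.rings P hP).ring
  · have hX' := h.opens X hX
    refine isPRing_closeR' hX'.ne (fun p hp e => ?_) hX'.chain
    have := hX'.len p hp
    rw [e] at this
    simp at this
    omega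

theorem Mtot_fin (l : List PL) (h : ∀ i : Fin l.length, IsPRing l[i]) (v : Word) :
    Mtot (fun i : Fin l.length => toRing l[i] (h i)) v = Ms l.flatten v := by
  unfold Mtot
  have h1 : ∀ i : Fin l.length, (toRing l[i] (h i)).M v = Ms l[i] v := fun i =>
    M_eq_countP (h i) v
  rw [Finset.sum_congr rfl fun i _ => h1 i]
  clear h1
  clear h
  induction l with
  | nil => simp
  | cons X l ih =>
    rw [List.flatten_cons, Ms_append, ← ih]
    exact Fin.sum_univ_succ (fun i : Fin (l.length + 1) => Ms (X :: l)[i] v)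

/-- the lower bound step for a family given as a list -/
theorem step_list (fam : List PL) (hfam : ∀ P ∈ fam, IsPRing P) {K : PL} (hK : K ∈ fam)
    (hc : candB fam K = true) {T : List ℕ}
    (h : ∀ v : Word, (xw K).length < v.length → Ms fam.flatten v ≤ occ v T) :
    Ms fam.flatten (xw K) + 1 ≤ occ (xw K) T := by
  obtain ⟨k, hk, rfl⟩ := List.getElem_of_mem hK
  have hP : ∀ i : Fin fam.length, IsPRing fam[i] := fun i => hfam _ (List.getElem_mem i.2)
  obtain ⟨z, hz, hx⟩ := cand_of_candB (fun i : Fin fam.length => fam[i]) hP fam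
    (fun c => List.getElem_mem c.2) ⟨k, hk⟩ hc
  have key := lb_step (Fin fam.length) (fun i : Fin fam.length => toRing fam[i] (hP i)) ⟨k, hk⟩ z T
    hz
  have hx' : xw fam[k] = win (toRing fam[k] (hP ⟨k, hk⟩)).κ z
        (z + ((toRing fam[k] (hP ⟨k, hk⟩)).lev - (toRing fam[k] (hP ⟨k, hk⟩)).w)) := hx
  simp only [Fin.getElem_fin] at key
  rw [← hx'] at key
  have hM : ∀ v, Mtot (fun i : Fin fam.length => toRing fam[i] (hP i)) v = Ms fam.flatten v :=
    Mtot_fin fam hP
  simp only [Fin.getElem_fin] at hM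
  rw [hM] at key
  apply key
  intro y hy
  rw [hM]
  exact h y hy

theorem length_xw {K : PL} (hK : IsPRing K) (hw : K.length ≤ levN K) :
    (xw K).length = levN K - K.length := by
  obtain ⟨z, hz, hb⟩ := exists_bottom hK
  unfold xw
  rw [List.length_take, hb, length_win]
  omega

theorem issue_step {m : ℕ} (hm : 1 ≤ m) {st : St} {K : PL} (hM : Mid m st) (hK : K ∈ st.2)
    {T : List ℕ} (h : ∀ v : Word, v ≠ [] → m ≤ v.length → Ms (wordsS st) v ≤ occ v T) :
    Mid m (issue m st K) ∧ (issue m st K).2 = st.2 ∧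
      ∀ v : Word, v ≠ [] → m ≤ v.length → Ms (wordsS (issue m st K)) v ≤ occ v T := by
  unfold issue
  by_cases hc : (decide (levN K = m + K.length) && candB (famS st) K) = true
  · rw [if_pos hc]
    simp only [Bool.and_eq_true, decide_eq_true_eq] at hc
    have hx : (xw K).length = m := by
      rw [length_xw (hM.rings K hK).ring (by omega), hc.1]; omega
    refine ⟨hM.add hx, rfl, add_step hx h ?_⟩
    have hx0 : xw K ≠ [] := by
      intro e; rw [e] at hx; simp at hx; omega
    rw [← Ms_famS hM hx.ge hx0]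
    refine step_list (famS st) (famS_isPRing hm hM) (List.mem_append_left _ hK) hc.2 ?_
    intro v hv
    have hv0 : v ≠ [] := by
      intro e; rw [e] at hv; simp at hv
    rw [Ms_famS hM (by omega) hv0]
    exact h v hv0 (by omega)
  · rw [if_neg hc]
    exact ⟨hM, rfl, h⟩

theorem issues_step {m : ℕ} (hm : 1 ≤ m) {T : List ℕ} (L : List PL) {st : St} (hM : Mid m st)
    (hL : ∀ K ∈ L, K ∈ st.2)
    (h : ∀ v : Word, v ≠ [] → m ≤ v.length → Ms (wordsS st) v ≤ occ v T) :
    Mid m (L.foldl (issue m) st) ∧ (L.foldl (issue m) st).2 = st.2 ∧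
      ∀ v : Word, v ≠ [] → m ≤ v.length → Ms (wordsS (L.foldl (issue m) st)) v ≤ occ v T := by
  induction L generalizing st with
  | nil => exact ⟨hM, rfl, h⟩
  | cons K L ih =>
    rw [List.foldl_cons]
    obtain ⟨h1, h2, h3⟩ := issue_step hm hM (hL K List.mem_cons_self) h
    obtain ⟨h4, h5, h6⟩ := ih h1 (fun K' hK' => by rw [h2]; exact hL K' (List.mem_cons_of_mem _ hK'))
      h3
    exact ⟨h4, h5.trans h2, h6⟩

/-! ### the level -/

theorem wordsS_merge (st : St) :
    (wordsS ((mergeAll st.1).filter (fun X => !linkB X X),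
      st.2 ++ (mergeAll st.1).filter (fun X => linkB X X))).Perm (wordsS st) := by
  unfold wordsS
  simp only [List.flatten_append]
  have h1 : ((mergeAll st.1).filter (fun X => !linkB X X) ++
      (mergeAll st.1).filter (fun X => linkB X X)).Perm (mergeAll st.1) := by
    have := List.filter_append_perm (fun X => linkB X X) (mergeAll st.1)
    exact List.perm_append_comm.trans this
  have h2 := (h1.flatten).trans (mergeAll_flatten st.1)
  rw [List.flatten_append] at h2
  refine List.Perm.trans ?_ (List.Perm.append_right _ h2)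
  rw [List.append_assoc]
  exact List.Perm.append_left _ List.perm_append_comm

theorem level_step {m : ℕ} (hm : 1 ≤ m) (S : List Word) {T : List ℕ} (hS : ∀ s ∈ S, s <:+: T)
    {st : St} (hM : Mid (m + 1) st) (hG : LinkFree st)
    (h : ∀ v : Word, v ≠ [] → m + 1 ≤ v.length → Ms (wordsS st) v ≤ occ v T) :
    ∀ v : Word, v ≠ [] → m ≤ v.length → Ms (wordsS (level S m st)) v ≤ occ v T := by
  have h1 : ∀ v : Word, v ≠ [] → m ≤ v.length → Ms (wordsS (st.1.map ext, st.2)) v ≤ occ v T :=
    fun v hv0 hv => ext_step hM hG (fun u hu => h u (by intro e; rw [e] at hu; simp at hu) hu) v hv0 hv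
  obtain ⟨h2, -, h3⟩ := issues_step hm (st.2) hM.ext (fun K hK => hK) h1
  obtain ⟨-, h4⟩ := addInputs_step hm S hS h2 h3
  intro v hv0 hv
  have := h4 v hv0 hv
  unfold level
  simp only
  rw [Ms_perm (wordsS_merge _)]
  exact this

/-! ### all levels -/

theorem count_stt (S : List Word) {T : List ℕ} (hS : ∀ s ∈ S, s <:+: T)
    (hI : ∀ i ≤ maxLen S, Mid (maxLen S - i + 1) (stt S i) ∧ LinkFree (stt S i)) :
    ∀ i ≤ maxLen S, ∀ v : Word, v ≠ [] → maxLen S - i + 1 ≤ v.length →
      Ms (wordsS (stt S i)) v ≤ occ v T := by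
  intro i
  induction i with
  | zero => intro _ v _ _; simp [stt, wordsS]
  | succ i ih =>
    intro hi v hv0 hv
    obtain ⟨h1, h2⟩ := hI i (by omega)
    have h3 := ih (by omega)
    have hm : maxLen S - (i + 1) + 1 = maxLen S - i := by omega
    rw [hm] at hv
    have e : stt S (i + 1) = level S (maxLen S - i) (stt S i) := rfl
    rw [e]
    exact level_step (by omega) S hS h1 h2 h3 v hv0 hv

theorem length_eq_sum_Ms (A : Finset ℕ) {W : List Word} (hA : ∀ p ∈ W, ∀ c ∈ p, c ∈ A)
    (hne : ∀ p ∈ W, p ≠ []) : W.length = ∑ a ∈ A, Ms W [a] := by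
  have := countP_tail A hA hne []
  rw [← this]
  symm
  rw [List.countP_eq_length]
  intro p _
  simp

theorem length_le_of_Ms {W : List Word} (hne : ∀ p ∈ W, p ≠ []) {T : List ℕ}
    (h : ∀ v : Word, v ≠ [] → Ms W v ≤ occ v T) : W.length ≤ T.length := by
  set A : Finset ℕ := T.toFinset ∪ W.flatten.toFinset with hAdef
  have hAT : ∀ c ∈ T, c ∈ A := fun c hc => by simp [hAdef, hc]
  have hAW : ∀ p ∈ W, ∀ c ∈ p, c ∈ A := fun p hp c hc => by
    rw [hAdef, Finset.mem_union, List.mem_toFinset, List.mem_toFinset]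
    right
    exact List.mem_flatten.2 ⟨p, hp, hc⟩
  rw [length_eq_sum_Ms A hAW hne, ← sum_occ_singleton A hAT]
  exact Finset.sum_le_sum fun a _ => h [a] (by simp)

theorem sum_le_of_struct (S : List Word) {T : List ℕ} (hS : ∀ s ∈ S, s <:+: T)
    (hI : ∀ i ≤ maxLen S, Mid (maxLen S - i + 1) (stt S i) ∧ LinkFree (stt S i)) :
    ((stt S (maxLen S)).1 ++ (stt S (maxLen S)).2).flatten.length ≤ T.length := by
  have h1 := count_stt S hS hI (maxLen S) le_rfl
  have h2 := (hI (maxLen S) le_rfl).1
  rw [List.flatten_append]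
  refine length_le_of_Ms (W := wordsS (stt S (maxLen S))) ?_ ?_
  · intro p hp e
    unfold wordsS at hp
    rw [List.mem_append, List.mem_flatten, List.mem_flatten] at hp
    rcases hp with ⟨X, hX, hp⟩ | ⟨X, hX, hp⟩
    · have := (h2.opens X hX).len p hp
      rw [e] at this; simp at this
    · have := (h2.rings X hX).len p hp
      rw [e] at this; simp at this
  · intro v hv0
    refine h1 v hv0 ?_
    have := List.length_pos_iff.mpr hv0
    omega

end Crest.Agent.R287.IC
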