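import Crest.Agent.R287.Core
import Crest.Agent.R287.VisitPT
import Crest.Agent.R287.PTBasics

-- ▼ part R287/CorePT
section

/-!
# Row 287: the one-pass algorithm on P-lists is polynomial time
-/

set_option autoImplicit false

namespace Crest.Agent.R287

open Crest.Agent.Lib.PT

section gen

variable {γ α : Type} [PTCode γ] [PTCode α]

/-- `getD` with a binary index -/
theorem ptf_getDB {n : γ → ℕ} {l : γ → List α} {d : γ → α} (hn : PTF n) (hl : PTF l) (hd : PTF d) :
    PTF (fun c => (l c).getD (n c) (d c)) := by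
  refine PTF.of_eq (PTF.getD (PTF.natMinUn hn (PTU.length hl)) hl hd) (fun c => ?_)
  rcases lt_or_ge (n c) (l c).length with h | h
  · rw [min_eq_left h.le]
  · rw [min_eq_right h, List.getD_eq_getElem?_getD, List.getD_eq_getElem?_getD,
      List.getElem?_eq_none le_rfl, List.getElem?_eq_none h]

/-- `take` with a binary index -/
theorem ptf_takeBin {n : γ → ℕ} {l : γ → List α} (hn : PTF n) (hl : PTF l) :
    PTF (fun c => (l c).take (n c)) := by
  refine PTF.of_eq (PTF.take (PTF.natMinUn hn (PTU.length hl)) hl) (fun c => ?_)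
  rcases le_total (n c) (l c).length with h | h
  · rw [min_eq_left h]
  · rw [min_eq_right h, List.take_of_length_le h, List.take_of_length_le le_rfl]

theorem ptf_dropLast {l : γ → List α} (hl : PTF l) : PTF (fun c => (l c).dropLast) := by
  refine PTF.of_eq (PTF.take (PTU.sub (PTU.length hl) (PTU.const 1)) hl) (fun c => ?_)
  rw [List.dropLast_eq_take]

theorem ptf_prefixB [DecidableEq α] {f g : γ → List α} (hf : PTF f) (hg : PTF g) :
    PTF (fun c => (f c).isPrefixOf (g c)) := by
  refine PTF.of_eq (ptp_prefix hf hg).toPTF (fun c => ?_)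
  rw [Bool.eq_iff_iff]
  simp

/-- remove the first element satisfying `p` -/
theorem ptf_eraseP {l : γ → List α} {p : γ → α → Bool} (hl : PTF l) (hp : PTF₂ p) :
    PTF (fun c => (l c).eraseP (p c)) := by
  have h1 : PTF (fun c => (l c).takeWhile (fun a => !p c a)) :=
    PTF.takeWhile (p := fun c a => !p c a) hl (PTF.not hp)
  have h2 : PTF (fun c => ((l c).dropWhile (fun a => !p c a)).tail) :=
    PTF.tail (PTF.dropWhile (p := fun c a => !p c a) hl (PTF.not hp))
  refine PTF.of_eq (PTF.append h1 h2) (fun c => ?_)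
  induction l c with
  | nil => rfl
  | cons a l ih =>
    by_cases h : p c a
    · simp [h]
    · simp only [Bool.not_eq_true] at h
      simp [h]
      exact ih

end gen

variable {γ : Type} [PTCode γ]

theorem ptf_headW {f : γ → PL} (hf : PTF f) : PTF (fun c => headW (f c)) :=
  ptf_headD hf (PTF.const [])

theorem ptf_lastW {f : γ → PL} (hf : PTF f) : PTF (fun c => lastW (f c)) := by
  refine PTF.of_eq (PTF.optionGetD (PTF.getLast? hf) (PTF.const [])) (fun c => ?_)
  unfold lastW
  rw [List.getLastD_eq_getLast?]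

theorem ptf_linkB {f g : γ → PL} (hf : PTF f) (hg : PTF g) :
    PTF (fun c => linkB (f c) (g c)) :=
  ptf_prefixB (PTF.tail (ptf_lastW hf)) (ptf_headW hg)

theorem ptf_ext {f : γ → PL} (hf : PTF f) : PTF (fun c => ext (f c)) :=
  PTF.append hf (PTF.listCons (PTF.tail (ptf_lastW hf)) (PTF.const []))

theorem ptf_closeR {f : γ → PL} (hf : PTF f) : PTF (fun c => closeR (f c)) :=
  PTF.append hf (ptf_dropLast (ptf_tails (PTF.tail (ptf_lastW hf))))

theorem ptf_column {p q : γ → Word} (hp : PTF p) (hq : PTF q) :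
    PTF (fun c => column (p c) (q c)) := by
  unfold column
  have h1 : PTU (fun c => (q c).length + 1 - ((p c).length - 1)) :=
    PTU.sub (PTU.add (PTU.length hq) (PTU.const 1)) (PTU.sub (PTU.length hp) (PTU.const 1))
  refine PTF.map (f := fun c k => (q c).take ((p c).length - 1 + k)) (PTF.range h1) ?_
  refine ptf_takeBin (PTF.natAdd (PTU.toPTF ?_) PTF.snd) (PTF.comp hq PTF.fst)
  exact PTU.sub (PTU.length (PTF.comp hp PTF.fst)) (PTU.const 1)

theorem ptf_nodes {f : γ → PL} (hf : PTF f) : PTF (fun c => nodes (f c)) := by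
  unfold nodes
  refine PTF.flatMap (f := fun _ pq => column pq.1 pq.2)
    (PTF.zip (PTF.listCons (ptf_lastW hf) hf) hf) ?_
  exact ptf_column (ptf_fst PTF.snd) (ptf_snd PTF.snd)

theorem ptu_levN {f : γ → PL} (hf : PTF f) : PTU (fun c => levN (f c)) := by
  have key : ∀ (l : PL) (b : ℕ), (l.foldr (fun p (acc : Un) => Un.mk (min (p.length - 1) acc.val))
      (Un.mk b)) = Un.mk ((l.map fun p => p.length - 1).foldr min b) := by
    intro l b
    induction l with
    | nil => rfl
    | cons a l ih => simp only [List.foldr_cons, List.map_cons, ih]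
  have h : PTF (fun c => ((f c).foldr (fun p (acc : Un) => Un.mk (min (p.length - 1) acc.val))
      (Un.mk (headW (f c)).length))) := by
    refine PTF.foldr_add (f := fun (_ : γ) (p : Word) (acc : Un) =>
      Un.mk (min (p.length - 1) acc.val)) hf ?_ (PTU.length (ptf_headW hf)) (G := fun _ => 0)
      (PB.const 0) ?_
    · refine PTU.min (PTU.sub (PTU.length ?_) (PTU.const 1)) (PTU.val ?_)
      · exact ptf_fst PTF.snd
      · exact ptf_snd PTF.snd
    · intro c b a _
      simp only [sz_un]
      omega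
  exact PTF.of_eq h (fun c => by rw [key]; rfl)

theorem ptf_bottom {f : γ → PL} (hf : PTF f) : PTF (fun c => bottom (f c)) := by
  unfold bottom
  refine PTF.tail (PTF.optionGetD (PTF.find? (p := fun c p => p.length - 1 == levN (f c)) hf ?_)
    (PTF.const []))
  have h : PTF (fun q : γ × Word => decide (q.2.length - 1 = levN (f q.1))) :=
    (PTU.eq (PTU.sub (PTU.length PTF.snd) (PTU.const 1)) (ptu_levN (PTF.comp hf PTF.fst))).toPTF
  exact PTF.of_eq h (fun q => by rw [Bool.eq_iff_iff]; simp)

theorem ptf_wrapB {f : γ → PL} (hf : PTF f) : PTF (fun c => wrapB (f c)) :=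
  (PTU.lt (PTU.length hf) (ptu_levN hf)).toPTF

theorem ptf_xw {f : γ → PL} (hf : PTF f) : PTF (fun c => xw (f c)) :=
  PTF.take (PTU.sub (ptu_levN hf) (PTU.length hf)) (ptf_bottom hf)

theorem ptf_txt {f : γ → PL} (hf : PTF f) : PTF (fun c => txt (f c)) := by
  unfold txt
  exact PTF.map (f := fun (_ : γ) (p : Word) => p.headD 0) hf (ptf_headD PTF.snd (PTF.const 0))

theorem ptf_perWin {c : γ → Word} {i n : γ → ℕ} (hc : PTF c) (hi : PTF i) (hn : PTU n) :
    PTF (fun x => perWin (c x) (i x) (n x)) := by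
  unfold perWin
  refine PTF.map (f := fun x t => (c x).getD ((i x + t) % (c x).length) 0) (PTF.range hn) ?_
  refine ptf_getDB (PTF.natMod (PTF.natAdd (PTF.comp hi PTF.fst) PTF.snd)
    (PTU.toPTF (PTU.length (PTF.comp hc PTF.fst)))) (PTF.comp hc PTF.fst) (PTF.const 0)

theorem ptf_prevW {f : γ → PL} {s : γ → ℕ} (hf : PTF f) (hs : PTF s) :
    PTF (fun c => prevW (f c) (s c)) := by
  unfold prevW
  have hl := PTU.toPTF (PTU.length hf)
  exact ptf_getDB (PTF.natMod (PTF.natSub (PTF.natAdd hs hl) (PTF.const 1)) hl) hf (PTF.const [])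

theorem ptf_linkAt {A B : γ → PL} {s t : γ → ℕ} (hA : PTF A) (hB : PTF B) (hs : PTF s)
    (ht : PTF t) : PTF (fun c => linkAt (A c) (B c) (s c) (t c)) := by
  unfold linkAt
  have hp := ptf_prevW hA hs
  have hq := ptf_prevW hB ht
  have h1 : PTU (fun c => (prevW (A c) (s c)).length - 1) := PTU.sub (PTU.length hp) (PTU.const 1)
  have h2 : PTU (fun c => (prevW (B c) (t c)).length - 1) := PTU.sub (PTU.length hq) (PTU.const 1)
  have hm : PTU (fun c => max ((prevW (A c) (s c)).length - 1) ((prevW (B c) (t c)).length - 1)) :=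
    (PTU.add h1 (PTU.sub h2 h1)).of_eq (fun c => by omega)
  have e1 : PTF (fun c => decide (¬ ((prevW (A c) (s c)).headD 0 = (prevW (B c) (t c)).headD 0))) :=
    (PTPred.not (PTPred.eq (ptf_headD hp (PTF.const 0)) (ptf_headD hq (PTF.const 0)))).toPTF
  have e2 := PTF.beq (ptf_perWin (ptf_txt hA) hs hm) (ptf_perWin (ptf_txt hB) ht hm)
  refine PTF.of_eq (PTF.and e1 e2) (fun c => ?_)
  rw [Bool.eq_iff_iff]
  simp

theorem ptf_linkedB {A B : γ → PL} (hA : PTF A) (hB : PTF B) :
    PTF (fun c => linkedB (A c) (B c)) := by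
  unfold linkedB
  refine PTF.any (p := fun c s => (List.range (B c).length).any fun t => linkAt (A c) (B c) s t)
    (PTF.range (PTU.length hA)) ?_
  refine PTF.any (p := fun (q : γ × ℕ) t => linkAt (A q.1) (B q.1) q.2 t)
    (PTF.range (PTU.length (PTF.comp hB PTF.fst))) ?_
  exact ptf_linkAt (PTF.comp hA (ptf_fst PTF.fst)) (PTF.comp hB (ptf_fst PTF.fst))
    (ptf_snd PTF.fst) PTF.snd

theorem ptf_inU {z v : γ → Word} {w : γ → ℕ} (hz : PTF z) (hw : PTU w) (hv : PTF v) :
    PTF (fun c => inU (z c) (w c) (v c)) := by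
  unfold inU
  have hz' : PTF (fun q : γ × ℕ => z q.1) := PTF.comp hz PTF.fst
  have hv' : PTF (fun q : γ × ℕ => v q.1) := PTF.comp hv PTF.fst
  have hw' : PTU (fun q : γ × ℕ => w q.1) := PTU.comp hw PTF.fst
  refine PTF.any (p := fun c r => decide (r + ((z c).length - w c) ≤ (v c).length) &&
    (v c == perWin ((z c).take (w c)) (w c - r) (v c).length)) (PTF.range hw) ?_
  refine PTF.and ?_ ?_
  · exact (PTPred.natLe (PTF.natAdd PTF.snd (PTU.toPTF (PTU.sub (PTU.length hz') hw')))
      (PTU.toPTF (PTU.length hv'))).toPTF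
  · have h := PTF.beq hv' (ptf_perWin (PTF.take hw' hz') (PTF.natSub (PTU.toPTF hw') PTF.snd)
      (PTU.length hv'))
    exact PTF.of_eq h (fun q => by rw [Bool.eq_iff_iff]; simp)

theorem ptf_visU {K A : γ → PL} (hK : PTF K) (hA : PTF A) :
    PTF (fun c => visU (K c) (A c)) := by
  unfold visU
  refine PTF.any (p := fun c v => inU (bottom (K c)) (K c).length v) (ptf_nodes hA) ?_
  exact ptf_inU (ptf_bottom (PTF.comp hK PTF.fst)) (PTU.length (PTF.comp hK PTF.fst)) PTF.snd

theorem ptf_candB {F : γ → List PL} {K : γ → PL} (hF : PTF F) (hK : PTF K) :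
    PTF (fun c => candB (F c) (K c)) := by
  unfold candB
  have hK' : PTF (fun q : γ × PL => K q.1) := PTF.comp hK PTF.fst
  have hv : PTF (fun q : γ × PL => visU (K q.1) q.2) := ptf_visU hK' PTF.snd
  have hfil : PTF (fun c => (F c).filter fun A => visU (K c) A) :=
    PTF.filter (p := fun c A => visU (K c) A) hF hv
  refine PTF.and (PTF.and (ptf_wrapB hK) ?_) ?_
  · refine PTF.all (p := fun c A => !visU (K c) A || (wrapB A && decide (levN (K c) ≤ levN A)))
      hF ?_
    refine PTF.or (PTF.not hv) (PTF.and (ptf_wrapB PTF.snd) ?_)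
    exact (PTU.le (ptu_levN hK') (ptu_levN PTF.snd)).toPTF
  · refine PTF.all (p := fun c A => ((F c).filter fun A => visU (K c) A).all fun B =>
      !linkedB A B) hfil ?_
    refine PTF.all (p := fun (q : γ × PL) B => !linkedB q.2 B) (PTF.comp hfil PTF.fst) ?_
    exact PTF.not (ptf_linkedB (ptf_snd PTF.fst) PTF.snd)




/-! ### the process -/

theorem ptf_famS {st : γ → St} (hs : PTF st) : PTF (fun c => famS (st c)) :=
  PTF.append (ptf_snd hs) (PTF.map (f := fun _ X => closeR X) (ptf_fst hs) (ptf_closeR PTF.snd))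

theorem ptf_issue {m : γ → ℕ} {st : γ → St} {K : γ → PL} (hm : PTF m) (hs : PTF st) (hK : PTF K) :
    PTF (fun c => issue (m c) (st c) (K c)) := by
  unfold issue
  have h1 : PTF (fun c => decide (levN (K c) = m c + (K c).length)) :=
    (PTPred.natEq (PTU.toPTF (ptu_levN hK)) (PTF.natAdd hm (PTU.toPTF (PTU.length hK)))).toPTF
  have h2 := PTF.and h1 (ptf_candB (ptf_famS hs) hK)
  refine PTF.of_eq (PTF.cond h2 (PTF.prodMk (PTF.listCons (PTF.listCons (ptf_xw hK) (PTF.const []))
    (ptf_fst hs)) (ptf_snd hs)) hs) (fun c => ?_)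
  cases h : (decide (levN (K c) = m c + (K c).length) && candB (famS (st c)) (K c)) <;> simp

theorem ptf_occursB {st : γ → St} {s : γ → Word} (hst : PTF st) (hs : PTF s) :
    PTF (fun c => occursB (st c) (s c)) := by
  unfold occursB
  refine PTF.any (p := fun c X => X.any fun p => p.tails.any fun q => (s c).isPrefixOf q)
    (PTF.append (ptf_fst hst) (ptf_snd hst)) ?_
  refine PTF.any (p := fun (a : γ × PL) p => p.tails.any fun q => (s a.1).isPrefixOf q)
    PTF.snd ?_
  refine PTF.any (p := fun (a : (γ × PL) × Word) q => (s a.1.1).isPrefixOf q)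
    (ptf_tails PTF.snd) ?_
  exact ptf_prefixB (PTF.comp hs (ptf_fst (ptf_fst PTF.fst))) PTF.snd

theorem ptf_addInput {m : γ → ℕ} {st : γ → St} {s : γ → Word} (hm : PTF m) (hst : PTF st)
    (hs : PTF s) : PTF (fun c => addInput (m c) (st c) (s c)) := by
  unfold addInput
  have h1 : PTF (fun c => decide ((s c).length = m c)) :=
    (PTPred.natEq (PTU.toPTF (PTU.length hs)) hm).toPTF
  have h2 := PTF.and h1 (PTF.not (ptf_occursB hst hs))
  refine PTF.of_eq (PTF.cond h2 (PTF.prodMk (PTF.listCons (PTF.listCons hs (PTF.const []))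
    (ptf_fst hst)) (ptf_snd hst)) hst) (fun c => ?_)
  cases h : (decide ((s c).length = m c) && !occursB (st c) (s c)) <;> simp

theorem ptf_pick {p : γ → PL → Bool} {l : γ → List PL} (hp : PTF₂ p) (hl : PTF l) :
    PTF (fun c => pick (p c) (l c)) :=
  PTF.prodMk (PTF.optionGetD (PTF.find? hl hp) (PTF.const [])) (ptf_eraseP hl hp)

theorem ptf_insertOpen {X : γ → PL} {l : γ → List PL} (hX : PTF X) (hl : PTF l) :
    PTF (fun c => insertOpen (X c) (l c)) := by
  unfold insertOpen
  have hr : PTF (fun c => pick (fun Y => linkB (X c) Y) (l c)) :=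
    ptf_pick (p := fun c Y => linkB (X c) Y) (ptf_linkB (PTF.comp hX PTF.fst) PTF.snd) hl
  have hX1 := PTF.append hX (ptf_fst hr)
  have hq : PTF (fun c => pick (fun Z => linkB Z (X c ++ (pick (fun Y => linkB (X c) Y) (l c)).1))
      (pick (fun Y => linkB (X c) Y) (l c)).2) :=
    ptf_pick (p := fun c Z => linkB Z (X c ++ (pick (fun Y => linkB (X c) Y) (l c)).1))
      (ptf_linkB PTF.snd (PTF.comp hX1 PTF.fst)) (ptf_snd hr)
  exact PTF.listCons (PTF.append (ptf_fst hq) hX1) (ptf_snd hq)

/-- sizes: removing and inserting -/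
theorem sz_pick (p : PL → Bool) (l : List PL) :
    2 * sz (pick p l).1 + sz (pick p l).2 ≤ sz l := by
  unfold pick
  induction l with
  | nil => simp
  | cons a l ih =>
    by_cases h : p a
    · simp [h]
    · simp only [Bool.not_eq_true] at h
      simp only [List.find?_cons, h, List.eraseP_cons, sz_cons] at ih ⊢
      simp only [cond_false, sz_cons]
      omega

theorem sz_insertOpen (X : PL) (l : List PL) : sz (insertOpen X l) ≤ sz l + (2 * sz X + 1) := by
  unfold insertOpen
  have h1 := sz_pick (fun Y => linkB X Y) l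
  have h2 := sz_pick (fun Z => linkB Z (X ++ (pick (fun Y => linkB X Y) l).1))
    (pick (fun Y => linkB X Y) l).2
  simp only [sz_cons, sz_append]
  omega

theorem ptf_mergeAll {l : γ → List PL} (hl : PTF l) : PTF (fun c => mergeAll (l c)) := by
  unfold mergeAll
  refine PTF.foldr_add (f := fun (_ : γ) X acc => insertOpen X acc) hl
    (ptf_insertOpen (ptf_fst PTF.snd) (ptf_snd PTF.snd)) (PTF.const [])
    (G := fun c => 2 * sz (l c) + 1) (by have := hl.sz; fun_prop) ?_
  intro c b a ha
  refine (sz_insertOpen a b).trans ?_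
  have := sz_mem_le ha
  omega

end Crest.Agent.R287
end

-- ▼ part R287/SttPT

/-!
# Row 287: the whole one-pass process is polynomial time
-/

set_option autoImplicit false

namespace Crest.Agent.R287

open Crest.Agent.Lib.PT

variable {γ : Type} [PTCode γ]

/-- size bound for the states of the process (semantic input for the running time) -/
def SttBd (S : List Word) : Prop :=
  ∀ i, i ≤ maxLen S →
    ((stt S i).1 ++ (stt S i).2).flatten.length ≤ (S.map List.length).sum ∧
    ∀ X ∈ (stt S i).1 ++ (stt S i).2, X ≠ [] ∧ ∀ p ∈ X, ∃ s ∈ S, p <:+: s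

theorem sz_infix {p s : Word} (h : p <:+: s) : sz p ≤ sz s := by
  obtain ⟨a, b, rfl⟩ := h
  simp only [sz_append]
  omega


theorem sz_listList_le (l : List PL) (m : ℕ) (h : ∀ X ∈ l, X ≠ [] ∧ ∀ p ∈ X, sz p ≤ m) :
    sz l ≤ l.flatten.length * (4 * m + 3) := by
  induction l with
  | nil => simp
  | cons X l ih =>
    have h1 := ih (fun Y hY => h Y (List.mem_cons_of_mem _ hY))
    obtain ⟨h2, h3⟩ := h X List.mem_cons_self
    have h4 : sz X ≤ X.length * (2 * m + 1) := sz_list_le h3
    have h5 : 1 ≤ X.length := List.length_pos_of_ne_nil h2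
    simp only [sz_cons, List.flatten_cons, List.length_append]
    have e : (X.length + l.flatten.length) * (4 * m + 3) =
        2 * (X.length * (2 * m + 1)) + X.length + l.flatten.length * (4 * m + 3) := by ring
    omega

theorem sum_length_le_sz (S : List Word) : (S.map List.length).sum ≤ sz S := by
  induction S with
  | nil => simp
  | cons s S ih =>
    simp only [List.map_cons, List.sum_cons, sz_cons]
    have := length_le_sz s
    omega

theorem maxLen_le_sum (S : List Word) : maxLen S ≤ (S.map List.length).sum := by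
  unfold maxLen
  induction S with
  | nil => simp
  | cons s S ih => simp only [List.map_cons, List.foldr_cons, List.sum_cons]; omega

theorem sz_stt_le {S : List Word} (h : SttBd S) {i : ℕ} (hi : i ≤ maxLen S) :
    sz (stt S i) ≤ 2 * (sz S * (4 * sz S + 3)) + 1 := by
  obtain ⟨h1, h2⟩ := h i hi
  have h3 : sz ((stt S i).1 ++ (stt S i).2) ≤
      ((stt S i).1 ++ (stt S i).2).flatten.length * (4 * sz S + 3) := by
    apply sz_listList_le
    intro X hX
    obtain ⟨h4, h5⟩ := h2 X hX
    refine ⟨h4, fun p hp => ?_⟩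
    obtain ⟨s, hs, hps⟩ := h5 p hp
    exact (sz_infix hps).trans (sz_mem_le hs)
  have h4 : ((stt S i).1 ++ (stt S i).2).flatten.length ≤ sz S := h1.trans (sum_length_le_sz S)
  have h5 : sz ((stt S i).1 ++ (stt S i).2) ≤ sz S * (4 * sz S + 3) :=
    h3.trans (Nat.mul_le_mul_right _ h4)
  have h6 : sz (stt S i) = 2 * sz (stt S i).1 + 1 + sz (stt S i).2 := by
    rw [← sz_prod]
  rw [sz_append] at h5
  omega

theorem ptu_maxLen {S : γ → List Word} (hS : PTF S) : PTU (fun c => maxLen (S c)) := by
  have key : ∀ (l : List Word), (l.foldr (fun p (acc : Un) => Un.mk (max p.length acc.val))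
      (Un.mk 0)) = Un.mk (maxLen l) := by
    intro l
    induction l with
    | nil => rfl
    | cons a l ih => simp only [List.foldr_cons, ih, maxLen, List.map_cons]
  have h : PTF (fun c => ((S c).foldr (fun p (acc : Un) => Un.mk (max p.length acc.val))
      (Un.mk 0))) := by
    refine PTF.foldr (f := fun (_ : γ) (p : Word) (acc : Un) =>
      Un.mk (max p.length acc.val)) (b := fun _ => Un.mk 0) hS ?_ (PTF.const _)
      (B := fun c => sz (S c)) (by have := hS.sz; fun_prop) ?_
    · have h1 : PTU (fun p : γ × Word × Un => p.2.1.length) := PTU.length (ptf_fst PTF.snd)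
      have h2 : PTU (fun p : γ × Word × Un => p.2.2.val) := PTU.val (ptf_snd PTF.snd)
      exact (PTU.add h1 (PTU.sub h2 h1)).of_eq (fun p => by omega)
    · intro c i _
      rw [key]
      simp only [sz_un]
      exact ((maxLen_le_sum _).trans (sum_length_le_sz _)).trans (sz_drop_le _ _)
  exact PTF.of_eq h (fun c => by rw [key])

theorem sz_xw_le (K : PL) : sz (xw K) ≤ sz K := by
  unfold xw bottom
  refine (sz_take_le _ _).trans ((sz_tail_le _).trans ?_)
  cases h : K.find? (fun p => p.length - 1 == levN K) with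
  | none => simp
  | some p => exact sz_mem_le (List.mem_of_find?_eq_some h)

theorem sz_issue_le (m : ℕ) (st : St) (K : PL) : sz (issue m st K) ≤ sz st + (8 * sz K + 6) := by
  unfold issue
  split_ifs
  · obtain ⟨a, b⟩ := st
    have := sz_xw_le K
    simp only [sz_prod, sz_cons, sz_nil]
    omega
  · omega

theorem sz_addInput_le (m : ℕ) (st : St) (s : Word) :
    sz (addInput m st s) ≤ sz st + (8 * sz s + 6) := by
  unfold addInput
  split_ifs
  · obtain ⟨a, b⟩ := st
    simp only [sz_prod, sz_cons, sz_nil]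
    omega
  · omega

theorem ptf_level {S : γ → List Word} {m : γ → ℕ} {st : γ → St} (hS : PTF S) (hm : PTF m)
    (hs : PTF st) : PTF (fun c => level (S c) (m c) (st c)) := by
  have h1 : PTF (fun c => (((st c).1.map ext, (st c).2) : St)) :=
    PTF.prodMk (PTF.map (f := fun _ X => ext X) (ptf_fst hs) (ptf_ext PTF.snd)) (ptf_snd hs)
  have h2 : PTF (fun c => (st c).2.foldl (issue (m c)) (((st c).1.map ext, (st c).2) : St)) := by
    refine PTF.foldl_add (f := fun c st K => issue (m c) st K) (ptf_snd hs) ?_ h1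
      (G := fun c => 8 * sz (st c).2 + 6) (by have := (ptf_snd hs).sz; fun_prop) ?_
    · exact ptf_issue (PTF.comp hm PTF.fst) (ptf_fst PTF.snd) (ptf_snd PTF.snd)
    · intro c b a ha
      refine (sz_issue_le _ _ _).trans ?_
      have := sz_mem_le ha
      omega
  have h3 : PTF (fun c => (S c).foldl (addInput (m c))
      ((st c).2.foldl (issue (m c)) (((st c).1.map ext, (st c).2) : St))) := by
    refine PTF.foldl_add (f := fun c st K => addInput (m c) st K) hS ?_ h2
      (G := fun c => 8 * sz (S c) + 6) (by have := hS.sz; fun_prop) ?_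
    · exact ptf_addInput (PTF.comp hm PTF.fst) (ptf_fst PTF.snd) (ptf_snd PTF.snd)
    · intro c b a ha
      refine (sz_addInput_le _ _ _).trans ?_
      have := sz_mem_le ha
      omega
  have h4 := ptf_mergeAll (ptf_fst h3)
  have hself : PTF₂ (fun (_ : γ) (X : PL) => linkB X X) := ptf_linkB PTF.snd PTF.snd
  have h5 := PTF.filter (p := fun _ X => !linkB X X) h4 (PTF.not hself)
  have h6 := PTF.filter (p := fun _ X => linkB X X) h4 hself
  exact PTF.prodMk h5 (PTF.append (ptf_snd h3) h6)

/-- the process is poly-time, given the size bound -/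
theorem ptf_ringsOf (hb : ∀ S, SttBd S) {S : γ → List Word} (hS : PTF S) :
    PTF (fun c => ringsOf (S c)) := by
  have h : PTF (fun c => stt (S c) (maxLen (S c))) := by
    refine PTF.natRec (n := fun c => maxLen (S c)) (b := fun _ => (([], []) : St))
      (s := fun c i st => level (S c) (maxLen (S c) - i) st) (r := fun c i => stt (S c) i)
      (ptu_maxLen hS) (PTF.const _) ?_ (fun _ => rfl) (fun _ _ _ => rfl)
      (B := fun c => 2 * (sz (S c) * (4 * sz (S c) + 3)) + 1) (by have := hS.sz; fun_prop) ?_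
    · exact ptf_level (PTF.comp hS PTF.fst) (PTF.natSub (PTU.toPTF
        (ptu_maxLen (PTF.comp hS PTF.fst))) (ptf_fst PTF.snd)) (ptf_snd PTF.snd)
    · intro c i hi
      exact sz_stt_le (hb (S c)) hi
  exact ptf_snd h

end Crest.Agent.R287
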