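import Crest.Agent.R287.PWC
import Crest.Agent.R287.Core
import Crest.Agent.R287.PTBasics
import Crest.Agent.R287.VisitPT
import Crest.Agent.R287.AsmDefs
import Crest.Agent.R287.SttPT

-- ▼ part R287/Alg
section

/-!
# Row 287: the algorithm
-/

set_option autoImplicit false

namespace Crest.Agent.R287

/-- the algorithm -/
def alg (S : List Word) : Word := Asm.asm (wcsOf (ringsOf S))

end Crest.Agent.R287
end

-- ▼ part R287/AsmPT
section

/-!
# Row 287: the assembly is polynomial time
-/

set_option autoImplicit false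
set_option linter.unusedVariables false

namespace Crest.Agent.R287.Asm

open Crest.Agent.Lib.PT Crest.Agent.R287 Crest.Agent.R287.PTB

attribute [fun_prop] ptu_ov ptu_dist ptf_text ptu_cost ptu_ccost ptf_spliceAt ptf_assemble

variable {γ : Type} [PTCode γ]

@[fun_prop]
theorem ptf_tour {K : γ → WC} (hK : PTF K) : PTF (fun c => (K c).tour) := by
  unfold WC.tour; fun_prop

@[fun_prop]
theorem ptf_wt {K : γ → WC} (hK : PTF K) : PTF (fun c => (K c).wt) := by
  unfold WC.wt; fun_prop

@[fun_prop]
theorem ptf_lv {K : γ → WC} (hK : PTF K) : PTF (fun c => (K c).lv) := by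
  unfold WC.lv; fun_prop

@[fun_prop]
theorem ptf_num {K : γ → WC} (hK : PTF K) : PTF (fun c => (K c).num) := by
  unfold WC.num; fun_prop

@[fun_prop]
theorem ptf_hasPer {w : γ → ℕ} {v : γ → Word} (hw : PTF w) (hv : PTF v) :
    PTF (fun c => hasPer (w c) (v c)) := by
  unfold hasPer; fun_prop

@[fun_prop]
theorem ptf_wrap {K : γ → WC} (hK : PTF K) : PTF (fun c => (K c).wrap) := by
  unfold WC.wrap; fun_prop

@[fun_prop]
theorem ptf_overW {v : γ → Word} {K : γ → WC} (hv : PTF v) (hK : PTF K) :
    PTF (fun c => overW (v c) (K c)) := by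
  unfold overW; fun_prop

@[fun_prop]
theorem ptf_overC {A K : γ → WC} (hA : PTF A) (hK : PTF K) :
    PTF (fun c => overC (A c) (K c)) := by
  unfold overC; fun_prop

@[fun_prop]
theorem ptf_overS {A K : γ → WC} (hA : PTF A) (hK : PTF K) :
    PTF (fun c => overS (A c) (K c)) := by
  unfold overS; fun_prop

@[fun_prop]
theorem ptf_linked {A K : γ → WC} (hA : PTF A) (hK : PTF K) :
    PTF (fun c => linked (A c) (K c)) := by
  unfold linked; fun_prop

@[fun_prop]
theorem ptf_nearPair {A K : γ → WC} (hA : PTF A) (hK : PTF K) :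
    PTF (fun c => nearPair (A c) (K c)) := by
  unfold nearPair; fun_prop

@[fun_prop]
theorem ptf_near {A K : γ → WC} (hA : PTF A) (hK : PTF K) :
    PTF (fun c => near (A c) (K c)) := by
  unfold near; fun_prop

@[fun_prop]
theorem ptf_smaller {A K : γ → WC} (hA : PTF A) (hK : PTF K) :
    PTF (fun c => smaller (A c) (K c)) := by
  unfold smaller; fun_prop

@[fun_prop]
theorem ptf_partners {Cs : γ → List WC} {K : γ → WC} (hC : PTF Cs) (hK : PTF K) :
    PTF (fun c => partners (Cs c) (K c)) := by
  unfold partners; fun_prop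

@[fun_prop]
theorem ptf_isolated {Cs : γ → List WC} {K : γ → WC} (hC : PTF Cs) (hK : PTF K) :
    PTF (fun c => isolated (Cs c) (K c)) := by
  unfold isolated; fun_prop

@[fun_prop]
theorem ptf_locmin {Cs : γ → List WC} {K : γ → WC} (hC : PTF Cs) (hK : PTF K) :
    PTF (fun c => locmin (Cs c) (K c)) := by
  unfold locmin; fun_prop

@[fun_prop]
theorem ptf_ctr {Cs : γ → List WC} {K : γ → WC} (hC : PTF Cs) (hK : PTF K) :
    PTF (fun c => ctr (Cs c) (K c)) := by
  unfold ctr; fun_prop

@[fun_prop]
theorem ptf_leaves {Cs : γ → List WC} {K : γ → WC} (hC : PTF Cs) (hK : PTF K) :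
    PTF (fun c => leaves (Cs c) (K c)) := by
  unfold leaves; fun_prop

@[fun_prop]
theorem ptf_farLeaves {Cs : γ → List WC} {K : γ → WC} (hC : PTF Cs) (hK : PTF K) :
    PTF (fun c => farLeaves (Cs c) (K c)) := by
  unfold farLeaves; fun_prop

@[fun_prop]
theorem ptf_targets {Cs : γ → List WC} {K : γ → WC} (hC : PTF Cs) (hK : PTF K) :
    PTF (fun c => targets (Cs c) (K c)) := by
  unfold targets; fun_prop

@[fun_prop]
theorem ptf_hasTarget {Cs : γ → List WC} {K : γ → WC} (hC : PTF Cs) (hK : PTF K) :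
    PTF (fun c => hasTarget (Cs c) (K c)) := by
  unfold hasTarget; fun_prop

@[fun_prop]
theorem ptf_firstOver {Cs : γ → List WC} {K : γ → WC} (hC : PTF Cs) (hK : PTF K) :
    PTF (fun c => firstOver (Cs c) (K c)) := by
  unfold firstOver; fun_prop

@[fun_prop]
theorem ptf_hubLeaves {Cs : γ → List WC} {K : γ → WC} (hC : PTF Cs) (hK : PTF K) :
    PTF (fun c => hubLeaves (Cs c) (K c)) := by
  unfold hubLeaves; fun_prop

@[fun_prop]
theorem ptf_isCentre {Cs : γ → List WC} {K : γ → WC} (hC : PTF Cs) (hK : PTF K) :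
    PTF (fun c => isCentre (Cs c) (K c)) := by
  unfold isCentre; fun_prop

@[fun_prop]
theorem ptf_hubs {Cs : γ → List WC} (hC : PTF Cs) : PTF (fun c => hubs (Cs c)) := by
  unfold hubs; fun_prop

@[fun_prop]
theorem ptf_members {Cs : γ → List WC} (hC : PTF Cs) : PTF (fun c => members (Cs c)) := by
  unfold members; fun_prop

@[fun_prop]
theorem ptf_yOf {v : γ → Word} {K : γ → WC} (hv : PTF v) (hK : PTF K) :
    PTF (fun c => yOf (v c) (K c)) := by
  unfold yOf; fun_prop

@[fun_prop]
theorem ptf_ysOf {v : γ → Word} {K : γ → List WC} (hv : PTF v) (hK : PTF K) :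
    PTF (fun c => ysOf (v c) (K c)) := by
  unfold ysOf; fun_prop

@[fun_prop]
theorem ptf_starStep {s : γ → StarS} {v : γ → Word} (hs : PTF s) (hv : PTF v) :
    PTF (fun c => starStep (s c) (v c)) := by
  unfold starStep; fun_prop

theorem sz_inits_le (v : Word) : sz v.inits ≤ (sz v + 1) * (2 * sz v + 1) := by
  have h := sz_list_le (l := v.inits) (m := sz v) (by
    intro a ha
    obtain ⟨t, ht⟩ := (List.mem_inits a v).1 ha
    rw [← ht, sz_append]; omega)
  rw [List.length_inits] at h
  exact h.trans (Nat.mul_le_mul_right _ (by have := length_le_sz v; omega))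

theorem sz_starStep (s : StarS) (v : Word) :
    sz (starStep s v) ≤ sz s + (2 * ((sz v + 1) * (2 * sz v + 1)) + 2 * sz v) := by
  unfold starStep
  cases (s.2.2.filter (fun K => overW v K)).isEmpty with
  | true => simp
  | false =>
    have h1 : sz (ysOf v (s.2.2.filter (fun K => overW v K))) ≤ sz v.inits :=
      sz_sublist List.filter_sublist
    have h2 : sz (s.2.2.filter (fun K => !overW v K)) ≤ sz s.2.2 :=
      sz_sublist List.filter_sublist
    have h3 := sz_inits_le v
    simp only [cond_false, sz_prod, sz_append]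
    omega

@[fun_prop]
theorem ptf_starWalk {L : γ → List WC} {ws : γ → List Word} (hL : PTF L) (hw : PTF ws) :
    PTF (fun c => starWalk (L c) (ws c)) := by
  have h : PTF (fun c => (ws c).foldl starStep ([], [], L c)) := by
    refine PTF.foldl_add (f := fun (_ : γ) s v => starStep s v) hw (by fun_prop) (by fun_prop)
      (G := fun c => 2 * ((sz (ws c) + 1) * (2 * sz (ws c) + 1)) + 2 * sz (ws c))
      (by have := hw.sz; fun_prop) ?_
    intro c s v hv
    have h1 := sz_starStep s v
    have h2 : sz v ≤ sz (ws c) := sz_mem_le hv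
    have h3 : (sz v + 1) * (2 * sz v + 1) ≤ (sz (ws c) + 1) * (2 * sz (ws c) + 1) :=
      Nat.mul_le_mul (by omega) (by omega)
    omega
  unfold starWalk
  fun_prop

@[fun_prop]
theorem ptf_cands {A : γ → WC} {L : γ → List WC} (hA : PTF A) (hL : PTF L) :
    PTF (fun c => cands (A c) (L c)) := by
  unfold cands; fun_prop

@[fun_prop]
theorem ptf_wtSum {L : γ → List WC} (hL : PTF L) : PTF (fun c => wtSum (L c)) := by
  unfold wtSum; fun_prop

@[fun_prop]
theorem ptf_touches {r : γ → List Word} {K : γ → WC} (hr : PTF r) (hK : PTF K) :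
    PTF (fun c => touches (r c) (K c)) := by
  unfold touches; fun_prop

@[fun_prop]
theorem ptf_good {A : γ → WC} {L : γ → List WC} {r : γ → List Word} (hA : PTF A) (hL : PTF L)
    (hr : PTF r) : PTF (fun c => good (A c) (L c) (r c)) := by
  unfold good; fun_prop

@[fun_prop]
theorem ptf_hubRoute {h : γ → WC × List WC} (hh : PTF h) : PTF (fun c => hubRoute (h c)) := by
  unfold hubRoute; fun_prop

@[fun_prop]
theorem ptf_connector {Cs : γ → List WC} {K : γ → WC} (hC : PTF Cs) (hK : PTF K) :
    PTF (fun c => connector (Cs c) (K c)) := by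
  unfold connector; fun_prop

@[fun_prop]
theorem ptf_closedLists {Cs : γ → List WC} (hC : PTF Cs) : PTF (fun c => closedLists (Cs c)) := by
  unfold closedLists; fun_prop

/-- **The assembly is polynomial time.** -/
@[fun_prop]
theorem ptf_asm {Cs : γ → List WC} (hC : PTF Cs) : PTF (fun c => asm (Cs c)) := by
  unfold asm; fun_prop

end Crest.Agent.R287.Asm
end

-- ▼ part R287/MainPT

/-!
# Row 287: the algorithm is polynomial time
-/

set_option autoImplicit false

namespace Crest.Agent.R287

open Crest.Agent.Lib.PT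

variable {γ : Type} [PTCode γ]

theorem ptf_wcOf {P : γ → PL} {n : γ → ℕ} (hP : PTF P) (hn : PTF n) :
    PTF (fun c => wcOf (P c) (n c)) :=
  PTF.prodMk (ptf_nodes hP) (PTF.prodMk (PTU.toPTF (PTU.length hP))
    (PTF.prodMk (PTU.toPTF (ptu_levN hP)) hn))

theorem ptf_wcsOf {Ps : γ → List PL} (hP : PTF Ps) : PTF (fun c => wcsOf (Ps c)) := by
  unfold wcsOf
  exact PTF.map (f := fun (_ : γ) (q : PL × ℕ) => wcOf q.1 q.2)
    (PTB.ptf_zipIdx hP (PTF.const 0)) (ptf_wcOf (ptf_fst PTF.snd) (ptf_snd PTF.snd))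

/-- **The algorithm is polynomial time**, given the size bound of the process. -/
theorem ptf_alg (hb : ∀ S, SttBd S) : PTF alg :=
  Asm.ptf_asm (ptf_wcsOf (ptf_ringsOf hb PTF.id))

end Crest.Agent.R287
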