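import Crest.Agent.R287.AsmSame
import Crest.Agent.R287.AsmThm
import Crest.Agent.R287.Cost
import Crest.Agent.R287.LBDefs
import Crest.Agent.R287.RouteW
import Crest.Agent.R287.AsmDefs

-- ▼ part R287/AsmH2
section

/-!
Row 287: field `h2` of the assembly hypotheses from the star theorem (ring level data).
-/

set_option autoImplicit false

namespace Crest.Agent.R287.Asm

open Crest.Agent.R287.Star

/-- the route up to the bottom of `V` touches all components of the same text below it -/
theorem same_good' {V : WC} {RV : Ring} (hlV : (V.lv : ℤ) = RV.lev)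
    (htV : ∀ v, v ∈ V.tour ↔ ∃ i j, RV.Vis i j ∧ v = win RV.κ i j)
    {L : List WC} (hlen : V.lv ≤ wtSum (V :: L))
    (hL : ∀ K ∈ L, ∃ R : Ring, (∀ v, v ∈ K.tour ↔ ∃ i j, R.Vis i j ∧ v = win R.κ i j) ∧
      ∃ c, (∀ x, RV.κ x = R.κ (x + c)) ∧ ∀ a b, RV.Vis a b → Over RV R a b c) :
    ∃ r ∈ cands V L, good V L r = true := by
  obtain ⟨i, _, _, hi⟩ := RV.exists_lev
  have hv : RV.Vis i (RV.F (i - 1)) := ⟨le_refl _, RV.mono (by omega)⟩
  have hF := RV.Fgt (i - 1)
  have hlen' : (win RV.κ i (RV.F (i - 1))).length = V.lv := by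
    rw [length_win]; omega
  refine exists_good_inits (v := win RV.κ i (RV.F (i - 1))) ((htV _).2 ⟨i, _, hv, rfl⟩)
    (by rw [hlen']; exact hlen) ?_
  intro K hK
  obtain ⟨R, ht, c, hc, hall⟩ := hL K hK
  have ho := hall i _ hv
  refine ⟨win R.κ (i + c) (R.F (i + c - 1)), (ht _).2 ⟨i + c, _, ⟨le_refl _, R.mono (by omega)⟩, rfl⟩,
    ?_⟩
  have e : win R.κ (i + c) (R.F (i + c - 1)) = win RV.κ i (R.F (i + c - 1) - c) := by
    rw [win_eq_iff _ _ (by ring)]
    intro n _ _
    rw [hc]; congr 1; ring
  rw [e]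
  apply win_prefix_win
  have := ho.2.2
  rw [show i - 1 + c = i + c - 1 by ring] at this
  exact this

theorem ring_wrap {K : WC} {R : Ring} (hw : K.wt = R.w) (hl : (K.lv : ℤ) = R.lev)
    (h : K.wrap = true) : R.Wrap := by
  unfold WC.wrap at h
  rw [decide_eq_true_iff] at h
  show (R.w : ℤ) < R.lev
  omega

theorem lv_le_length {K : WC} {R : Ring} (hl : (K.lv : ℤ) = R.lev)
    (ht : ∀ v, v ∈ K.tour ↔ ∃ i j, R.Vis i j ∧ v = win R.κ i j) {v : Word} (hv : v ∈ K.tour) :
    K.lv ≤ v.length := by
  obtain ⟨i, j, hvis, rfl⟩ := (ht v).1 hv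
  have h1 := R.lev_le i
  have h2 := hvis.1
  rw [length_win]
  omega

theorem wlen_of_ring {K : WC} {R : Ring} (hw : K.wt = R.w) (hl : (K.lv : ℤ) = R.lev)
    (ht : ∀ v, v ∈ K.tour ↔ ∃ i j, R.Vis i j ∧ v = win R.κ i j) (h : K.wrap = true)
    {v : Word} (hv : v ∈ K.tour) : K.wt < v.length := by
  have h1 := lv_le_length hl ht hv
  unfold WC.wrap at h
  rw [decide_eq_true_iff] at h
  omega

theorem wper_of_ring {K : WC} {R : Ring} (hw : K.wt = R.w) (hl : (K.lv : ℤ) = R.lev)
    (ht : ∀ v, v ∈ K.tour ↔ ∃ i j, R.Vis i j ∧ v = win R.κ i j) (h : K.wrap = true)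
    {v : Word} (hv : v ∈ K.tour) : hasPer K.wt v = true := by
  obtain ⟨i, j, hvis, rfl⟩ := (ht v).1 hv
  rw [hw]
  apply Mix.hasPer_win
  have h1 := Mix.wrap_lt (ring_wrap hw hl h) i
  have h2 := hvis.1
  omega

/-- **field `h2` of the assembly hypotheses**, from the star theorem `hstar` -/
theorem h2_of_rings (Cs : List WC) (nodup : (Cs.map WC.num).Nodup) (R : WC → Ring)
    (hw : ∀ K ∈ Cs, K.wt = (R K).w) (hl : ∀ K ∈ Cs, (K.lv : ℤ) = (R K).lev)
    (ht : ∀ K ∈ Cs, ∀ v, v ∈ K.tour ↔ ∃ i j, (R K).Vis i j ∧ v = win (R K).κ i j)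
    (hstar : ∀ V ∈ Cs, ∀ L : List WC, L ≠ [] → (∀ K ∈ L, K ∈ Cs) → L.Nodup →
      (∀ K ∈ L, K.wrap = true ∧ overC V K = true ∧ near K V = false ∧
        ∀ c, ¬ ∀ x, (R V).κ x = (R K).κ (x + c)) → ∃ r ∈ cands V L, good V L r = true) :
    ∀ A ∈ Cs, A.wrap = true → ∀ L : List WC, L ≠ [] → (∀ K ∈ L, K ∈ Cs) → L.Nodup →
    (∀ K ∈ L, linked K A = true ∧ near K A = false) →
    (∀ K ∈ L, ∀ K' ∈ L, linked K K' = false) → ∃ r ∈ cands A L, good A L r = true := by
  intro A hA wA L hL0 hLC hLn hL hLL
  -- a short vertex of `A` over `K`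
  have hshort : ∀ K ∈ L, K.wrap = true ∧ overS A K = true := by
    intro K hK
    obtain ⟨h1, h2⟩ := hL K hK
    rw [linked_iff] at h1
    refine ⟨h1.1, ?_⟩
    rcases h1.2.2.2 with h3 | h3
    · exact h3
    · exfalso
      rw [overS_iff] at h3
      obtain ⟨v, hv, hov, hlv⟩ := h3
      rw [overW_iff] at hov
      obtain ⟨-, y, hy, hyv⟩ := hov
      have : near K A = true := by
        rw [near_iff]
        refine ⟨v, hv, y, hy, ?_⟩
        have h4 := wlen_of_ring (hw K (hLC K hK)) (hl K (hLC K hK)) (ht K (hLC K hK)) h1.1 hv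
        have h5 := wlen_of_ring (hw A hA) (hl A hA) (ht A hA) wA hy
        exact near_word hyv (wper_of_ring (hw K (hLC K hK)) (hl K (hLC K hK)) (ht K (hLC K hK))
          h1.1 hv) (by omega) (by omega)
      rw [h2] at this
      exact absurd this (by simp)
  have hwrap : ∀ K ∈ L, (R K).Wrap := fun K hK =>
    ring_wrap (hw K (hLC K hK)) (hl K (hLC K hK)) (hshort K hK).1
  have hoverC : ∀ K ∈ L, overC A K = true := by
    intro K hK
    have h1 := (hshort K hK).2
    rw [overS_iff] at h1
    obtain ⟨v, hv, hov, -⟩ := h1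
    rw [overC_iff]
    exact ⟨v, hv, hov⟩
  have hover : ∀ K : {K // K ∈ L}, ∃ a b c, Over (R A) (R K.1) a b c := by
    rintro ⟨K, hK⟩
    have h1 := hoverC K hK
    rw [overC_iff] at h1
    obtain ⟨v, hv, hov⟩ := h1
    obtain ⟨a, b, hvis, rfl⟩ := (ht A hA v).1 hv
    obtain ⟨c, hc⟩ := Mix.over_of_overW (hw K (hLC K hK)) (hwrap K hK) (ht K (hLC K hK)) hvis hov
    exact ⟨a, b, c, hc⟩
  have hno : ∀ (K : {K // K ∈ L}) a b c, Over (R A) (R K.1) a b c → ¬ (R K.1).Vis (a + c) (b + c) := by
    rintro ⟨K, hK⟩ a b c ho hvis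
    have h1 : near K A = true := by
      apply near_of_common (v := win (R A).κ a b)
      · rw [ht K (hLC K hK)]
        refine ⟨a + c, b + c, hvis, ?_⟩
        rw [win_eq_iff _ _ (by ring)]
        intro n h0 h1
        rw [ho.2.1 (a + n) (by omega) (by omega)]
        congr 1; ring
      · rw [ht A hA]
        exact ⟨a, b, ho.1, rfl⟩
    rw [(hL K hK).2] at h1
    exact absurd h1 (by simp)
  have hns : ∀ K K' : {K // K ∈ L}, K ≠ K' → ¬ Mix.Short (R K.1) (R K'.1) := by
    rintro ⟨K, hK⟩ ⟨K', hK'⟩ hne hs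
    have hne' : K.num ≠ K'.num := by
      intro e
      apply hne
      have := List.inj_on_of_nodup_map nodup (hLC K hK) (hLC K' hK') e
      simp [this]
    have h1 : overS K' K = true :=
      (Mix.overS_iff (hw K' (hLC K' hK')) (hw K (hLC K hK)) (hwrap K hK) (ht K' (hLC K' hK'))
        (ht K (hLC K hK))).2 hs
    have h2 : linked K K' = true := by
      unfold linked
      rw [(hshort K hK).1, (hshort K' hK').1, h1]
      simp [hne']
    rw [hLL K hK K' hK'] at h2
    exact absurd h2 (by simp)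
  rcases Mix.mixed (R A) (fun K : {K // K ∈ L} => R K.1) (fun K => hwrap K.1 K.2) hover hno hns with
    h | h
  · apply hstar A hA L hL0 hLC hLn
    intro K hK
    exact ⟨(hshort K hK).1, hoverC K hK, (hL K hK).2, fun c => h ⟨K, hK⟩ c⟩
  · have hlen : A.lv ≤ wtSum (A :: L) := by
      obtain ⟨K, L', rfl⟩ := List.exists_cons_of_ne_nil hL0
      have h1 := (hshort K (by simp)).2
      rw [overS_iff] at h1
      obtain ⟨v, hv, -, hlt⟩ := h1
      have h2 := lv_le_length (hl A hA) (ht A hA) hv
      simp only [wtSum, List.map_cons, List.sum_cons]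
      omega
    apply same_good' (hl A hA) (ht A hA) hlen
    intro K hK
    obtain ⟨c, h1, h2⟩ := h ⟨K, hK⟩
    exact ⟨R K, ht K (hLC K hK), c, h1, fun a b hv => (h2 a b hv).1⟩

end Crest.Agent.R287.Asm
end

-- ▼ part R287/CostIso
section

/-!
# Row 287: cost side — isolated wraps (ring level)

`FarOver K V d a c`: `V` visits `[a,c)`, the text of `K` shifted by `d` agrees there, and `K` is more
than `w_K` below.  `InPhase K V d`: the texts are equal after shifting `K` by `d`.
-/

set_option autoImplicit false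

namespace Crest.Agent.R287

/-- in coordinates of `V`: `[a,c)` is visited by `V`, `K` shifted by `d` agrees there and is more than
`w_K` below -/
structure FarOver (K V : Ring) (d a c : ℤ) : Prop where
  vis : V.Vis a c
  ag : ∀ x, a ≤ x → x < c → K.κ (x + d) = V.κ x
  far : K.F (a + d) - d + K.w < c

/-- texts in phase -/
def InPhase (K V : Ring) (d : ℤ) : Prop := ∀ x, K.κ (x + d) = V.κ x

/-- (R1) a server of the isolated candidate is near or far over it -/
theorem farOver_of_server {K V : Ring} {z i j t : ℤ} (hbot : K.F (z - 1) = z + K.lev)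
    (hi : i ≤ z) (hj : z + (K.lev - K.w) ≤ j)
    (hwin : win V.κ t (t + (j - i)) = win K.κ i j) (hvis : V.Vis t (t + (j - i)))
    (hn : ¬ Near K V) : FarOver K V (i - t) t (t + (j - i)) := by
  have h0 : V.F (t - 1) ≤ t + (j - i) := hvis.1
  have h1 := V.le_F t
  have hag : ∀ x, t ≤ x → x < t + (j - i) → (K.shift (i - t)).κ x = V.κ x := by
    intro x hx1 hx2
    have := (win_eq_iff V.κ K.κ (show t + (j - i) - t = j - i by ring)).mp hwin (x - t)
      (by omega) (by omega)
    have e1 : t + (x - t) = x := by ring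
    have e2 : i + (x - t) = x + (i - t) := by ring
    rw [e1, e2] at this
    exact this.symm
  have hn' : ¬ Near (K.shift (i - t)) V := fun h => hn ((near_shift_left _).mp h)
  rcases far_of_not_near hn' hvis.1 hvis.2 hag with h | h
  · exfalso
    simp only [Ring.shift_F, Ring.shift_w] at h
    have e3 : t - 1 + (i - t) = i - 1 := by ring
    rw [e3] at h
    have : K.F (i - 1) ≤ K.F (z - 1) := Ring.F_le (by omega)
    omega
  · simp only [Ring.shift_F, Ring.shift_w] at h
    exact ⟨hvis, hag, h⟩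


/-- (R2) -/
theorem FarOver.inPhase {K V : Ring} {d a c : ℤ} (h : FarOver K V d a c)
    (hl : ¬ K.Linked V) : InPhase K V d := by
  by_contra hp
  apply hl
  have hK := K.wpos'
  refine ⟨a + d, a, c - a, ?_, ?_, ?_, fun hr => hp fun x => ?_⟩
  · rw [win_eq_iff _ _ (by ring)]
    intro n h0 h1
    have := h.ag (a + n) (by omega) (by omega)
    rw [← this]; congr 1; ring
  · unfold Ring.Touch
    have h1 := h.far
    have h2 : K.F (a + d - 1) ≤ K.F (a + d) := Ring.F_le (by omega)
    omega
  · unfold Ring.Touch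
    have h1 := h.vis.1
    omega
  · have := hr (x - a)
    have e1 : a + (x - a) = x := by ring
    have e2 : a + d + (x - a) = x + d := by ring
    rw [e1, e2] at this
    exact this

/-- left propagation for `FarOver` -/
theorem FarOver.left {K V : Ring} {d a c s : ℤ} (h : FarOver K V d a c) (hn : ¬ Near K V)
    (hs : s ≤ a) (hag : ∀ x, s ≤ x → x < c → K.κ (x + d) = V.κ x) :
    K.F (s + d) - d + K.w < V.F (s - 1) := by
  have hn' : ¬ Near (K.shift d) V := fun h => hn ((near_shift_left _).mp h)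
  have := deep_left hn' (s := s) (a - s).toNat a c (by omega) h.vis.1 h.vis.2 hag
    (by simp only [Ring.shift_F, Ring.shift_w]; exact h.far)
  simpa only [Ring.shift_F, Ring.shift_w] using this

/-- (R3) -/
theorem FarOver.all {K V : Ring} {d a c : ℤ} (h : FarOver K V d a c) (hn : ¬ Near K V)
    (hp : InPhase K V d) (i : ℤ) : K.F (i + d) - d + K.w < V.F (i - 1) := by
  have hK := K.wpos'
  have hV := V.wpos'
  obtain ⟨n, hn1⟩ : ∃ n : ℕ, i - n * (K.w * V.w) ≤ a := by
    refine ⟨(i - a).toNat, ?_⟩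
    have h1 : (1 : ℤ) ≤ K.w * V.w := by nlinarith
    rcases le_total (i - a) 0 with h2 | h2
    · have : (i - a).toNat = 0 := by omega
      rw [this]; simp; omega
    · have : (((i - a).toNat : ℕ) : ℤ) = i - a := by omega
      rw [this]; nlinarith
  have key := h.left hn hn1 (fun x _ _ => hp x)
  have e1 : K.F (i - n * (K.w * V.w) + d) = K.F (i + d) - n * (K.w * V.w) := by
    have := K.Fper' (-(n * V.w)) (i + d)
    have e : i + d + -(n * V.w) * K.w = i - n * (K.w * V.w) + d := by ring
    rw [e] at this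
    rw [this]; ring
  have e2 : V.F (i - n * (K.w * V.w) - 1) = V.F (i - 1) - n * (K.w * V.w) := by
    have := V.Fper' (-(n * K.w)) (i - 1)
    have e : i - 1 + -(n * K.w) * V.w = i - n * (K.w * V.w) - 1 := by ring
    rw [e] at this
    rw [this]; ring
  rw [e1, e2] at key
  omega

/-- (R3') the level of the server is much larger -/
theorem FarOver.lev_lt {K V : Ring} {d a c : ℤ} (h : FarOver K V d a c) (hn : ¬ Near K V)
    (hp : InPhase K V d) : K.lev + K.w < V.lev := by
  obtain ⟨i, _, _, hi⟩ := V.exists_lev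
  have h1 := h.all hn hp i
  have h2 := K.lev_le (i + d)
  have h3 : K.F (i + d - 1) ≤ K.F (i + d) := Ring.F_le (by omega)
  omega

/-- (R4) two wraps in phase with the same text are not linked -/
theorem not_linked_of_inPhase {K V V' : Ring} {d d' : ℤ} (hV : V.Wrap)
    (h : InPhase K V d) (h' : InPhase K V' d') : ¬ V.Linked V' := by
  rintro ⟨s, t, n, hwin, h1, h2, hne⟩
  apply hne
  have hlt := hV.lt s
  unfold Ring.Touch at h1
  have e : ∀ r, V'.κ (t + r) = V.κ (t + (d' - d) + r) := by
    intro r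
    rw [← h' (t + r), ← h (t + (d' - d) + r)]
    congr 1; ring
  intro r
  rw [e]
  refine Ring.κ_eq_of_window (fun m hm0 hm1 => ?_) r
  rw [← e]
  exact (win_eq_iff V.κ V'.κ (by ring)).mp hwin m hm0 (by omega)

/-- a wrap is not linked with a ring in phase with it -/
theorem not_linked_of_inPhase' {V V' : Ring} {d : ℤ} (hV : V.Wrap) (h : InPhase V V' d) :
    ¬ V.Linked V' :=
  not_linked_of_inPhase (K := V) (d := 0) hV (fun x => by rw [add_zero]) h

theorem not_linked_self {V : Ring} (hV : V.Wrap) : ¬ V.Linked V :=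
  not_linked_of_inPhase' (d := 0) hV (fun x => by rw [add_zero])





/-- (R7) **isolated wraps** (ring level form of (H4)) -/
theorem h4_ring {ι : Type*} (R : ι → Ring) (K : ι) (z : ℤ)
    (hbot : (R K).F (z - 1) = z + (R K).lev)
    (hiso : ∀ c, c ≠ K → (R c).Wrap → ¬ (R K).Linked (R c))
    (hcert : (∃ c, VisU R K z ((R K).lev - (R K).w) c ∧ c ≠ K ∧
        (¬ (R c).Wrap ∨ (R c).lev < (R K).lev)) ∨
      ∃ c c', VisU R K z ((R K).lev - (R K).w) c ∧ VisU R K z ((R K).lev - (R K).w) c' ∧
        (R c).Wrap ∧ (R c').Wrap ∧ (R c).Linked (R c')) :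
    (∃ c, c ≠ K ∧ Near (R K) (R c) ∧
      (¬ (R c).Wrap ∨ ((R c).Wrap ∧ ∃ c', c' ≠ c ∧ (R c').Wrap ∧ (R c).Linked (R c')) ∨
        (R c).lev < (R K).lev)) ∨
    ∃ c, ¬ (R c).Wrap ∧ ¬ Near (R K) (R c) ∧ ∃ d a b, FarOver (R K) (R c) d a b := by
  have hfo : ∀ c, VisU R K z ((R K).lev - (R K).w) c → ¬ Near (R K) (R c) →
      ∃ d a b, FarOver (R K) (R c) d a b := by
    rintro c ⟨i, j, t, hi, hj, hwin, hvis⟩ hn
    exact ⟨_, _, _, farOver_of_server hbot hi hj hwin hvis hn⟩
  rcases hcert with ⟨c, hc, hcK, hcw⟩ | ⟨c, c', hc, hc', hw, hw', hl⟩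
  · by_cases hn : Near (R K) (R c)
    · left
      refine ⟨c, hcK, hn, ?_⟩
      rcases hcw with h | h
      · exact Or.inl h
      · exact Or.inr (Or.inr h)
    · by_cases hwc : (R c).Wrap
      · exfalso
        rcases hcw with h | h
        · exact h hwc
        · obtain ⟨d, a, b, hf⟩ := hfo c hc hn
          have hp := hf.inPhase (hiso c hcK hwc)
          have := hf.lev_lt hn hp
          have := (R K).wpos'
          omega
      · right
        exact ⟨c, hwc, hn, hfo c hc hn⟩
  · have hcc : c ≠ c' := by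
      rintro rfl
      exact not_linked_self hw hl
    have hcK : c ≠ K := by
      rintro rfl
      exact hiso c' hcc.symm hw' hl
    have hcK' : c' ≠ K := by
      rintro rfl
      exact hiso c hcK hw hl.symm
    left
    by_cases hn : Near (R K) (R c)
    · exact ⟨c, hcK, hn, Or.inr (Or.inl ⟨hw, c', hcc.symm, hw', hl⟩)⟩
    by_cases hn' : Near (R K) (R c')
    · exact ⟨c', hcK', hn', Or.inr (Or.inl ⟨hw', c, hcc, hw, hl.symm⟩)⟩
    exfalso
    obtain ⟨d, a, b, hf⟩ := hfo c hc hn
    obtain ⟨d', a', b', hf'⟩ := hfo c' hc' hn'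
    exact not_linked_of_inPhase hw (hf.inPhase (hiso c hcK hw)) (hf'.inPhase (hiso c' hcK' hw')) hl

end Crest.Agent.R287
end

-- ▼ part R287/StarW

/-!
Row 287: word level star lemma for the assembly program of `AsmDefs`.
-/

set_option autoImplicit false

namespace Crest.Agent.R287

namespace Star

/-! ### pair versions of the star lemma -/


theorem wrap_lt {K : Ring} (h : K.Wrap) (s : ℤ) : s + K.w < K.F (s - 1) := by
  have h1 := K.lev_le s
  have h2 : ((K.w : ℤ)) < K.lev := h
  omega

/-- chain property for two rings below `A` -/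
theorem chain_pair {A K K' : Ring} (hwrap' : K'.Wrap) {a b c a' b' c' : ℤ}
    (ho : Over A K a b c) (ho' : Over A K' a' b' c')
    (hfar : K.F (a - 1 + c) - c + K.w < b) (hlt : a + b < a' + b')
    (hnot : ¬ Over A K' a b c') :
    K.F (a - 1 + c) - c ≤ K'.F (a' - 1 + c') - c' := by
  have hab := Vis.le_of_sum_le ho.1 ho'.1 hlt.le
  rcases eq_or_lt_of_le hab.1 with heq | hlt'
  · -- same column
    by_contra hcon
    push Not at hcon
    apply hnot
    refine ⟨ho.1, ?_, ?_⟩
    · intro x hx1 hx2
      exact ho'.2.1 x (by omega) (by omega)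
    · rw [heq]
      have := ho.2.2
      omega
  · by_cases hX : ∀ x, K.κ (x + c) = K'.κ (x + c')
    · by_contra hcon
      push Not at hcon
      apply hnot
      have h1 : K'.F (a - 1 + c') ≤ K'.F (a' - 1 + c') := K'.mono (by omega)
      refine ⟨ho.1, ?_, ?_⟩
      · intro x hx1 hx2
        rw [ho.2.1 x hx1 hx2, hX]
      · have := ho.2.2
        omega
    · have h1 : b - a' < K.w + K'.w := by
        by_contra hcon
        push Not at hcon
        apply hX
        apply fineWilf (f := fun x => K.κ (x + c)) (g := fun x => K'.κ (x + c'))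
          K.wpos K'.wpos ?_ ?_ (a := a') (b := b) (by linarith)
        · intro x hx1 hx2
          have e1 := ho.2.1 x (by omega) hx2
          have e2 := ho'.2.1 x hx1 (by omega)
          rw [← e1, ← e2]
        · intro s
          have := K.κper (s + c)
          rw [← this]; congr 1; ring
        · intro s
          have := K'.κper (s + c')
          rw [← this]; congr 1; ring
      have h3 := wrap_lt hwrap' (a' + c')
      rw [show a' + c' - 1 = a' - 1 + c' by ring] at h3
      omega

/-- length bound, one vertex -/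
theorem length_single {A K : Ring} {a b c : ℤ} (ho : Over A K a b c)
    (htext : ¬ ∀ x, A.κ x = K.κ (x + c)) : b - a < A.w + K.w := by
  by_contra hcon
  push Not at hcon
  apply htext
  apply fineWilf (f := A.κ) (g := fun x => K.κ (x + c))
    A.wpos K.wpos A.κper ?_ (a := a) (b := b) (by linarith) ho.2.1
  intro s
  have := K.κper (s + c)
  rw [← this]; congr 1; ring

/-- length bound, two vertices -/
theorem length_pair {A K K₀ : Ring} {a₀ b₀ c₀ a b c : ℤ}
    (h₀ : Over A K₀ a₀ b₀ c₀) (hfar₀ : K₀.F (a₀ - 1 + c₀) - c₀ + K₀.w < b₀)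
    (hpred : ∀ a' b', a' + b' + 1 = a₀ + b₀ → ¬ Over A K₀ a' b' c₀)
    (ho : Over A K a b c) (hlt : a + b < a₀ + b₀ + 2 * A.w) :
    b - a₀ ≤ A.w + (K.w + K₀.w) := by
  have hs := h₀.shift
  have h1 := Vis.le_of_sum_le ho.1 hs.1 (by linarith)
  have hw0 : (0 : ℤ) ≤ K₀.w := by positivity
  have hw1 : (0 : ℤ) ≤ K.w := by positivity
  by_cases hsmall : b < a₀ + A.w
  · linarith
  push Not at hsmall
  by_cases hX : ∀ x, K.κ (x + c) = K₀.κ (x + (c₀ - A.w))
  · exfalso
    obtain ⟨a', b', hv', hs'⟩ : ∃ a' b', A.Vis a' b' ∧ a' + b' + 1 = a₀ + b₀ + 2 * A.w := by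
      by_cases hb : A.F (a₀ + A.w - 1) < b₀ + A.w
      · exact ⟨a₀ + A.w, b₀ + A.w - 1, ⟨by omega, by have := hs.1.2; omega⟩, by ring⟩
      · have hb' : A.F (a₀ + A.w - 1) = b₀ + A.w := le_antisymm hs.1.1 (not_lt.1 hb)
        exact ⟨a₀ + A.w - 1, b₀ + A.w, ⟨by rw [← hb']; exact A.mono (by omega), by rw [hb']⟩,
          by ring⟩
    have h2 := Vis.le_of_sum_le ho.1 hv' (by linarith)
    have h3 := Vis.le_of_sum_le hv' hs.1 (by linarith)
    have h4 : Over A K₀ a' b' (c₀ - A.w) := by
      refine ⟨hv', ?_, ?_⟩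
      · intro x hx1 hx2
        by_cases hx : x < b
        · rw [ho.2.1 x (by omega) hx, hX]
        · exact hs.2.1 x (by omega) (by omega)
      · have hm := K₀.mono (show a' - 1 + (c₀ - A.w) ≤ a₀ - 1 + c₀ by omega)
        omega
    have h5 := h4.unshift'
    apply hpred _ _ ?_ (by simpa using h5)
    linarith
  · have h2 : b - (a₀ + A.w) < K.w + K₀.w := by
      by_contra hcon
      push Not at hcon
      apply hX
      apply fineWilf (f := fun x => K.κ (x + c)) (g := fun x => K₀.κ (x + (c₀ - A.w)))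
        K.wpos K₀.wpos ?_ ?_ (a := a₀ + A.w) (b := b) (by linarith)
      · intro x hx1 hx2
        have e1 := ho.2.1 x (by omega) hx2
        have e2 := hs.2.1 x hx1 (by omega)
        rw [← e1, ← e2]
      · intro s
        have := K.κper (s + c)
        rw [← this]; congr 1; ring
      · intro s
        have := K₀.κper (s + (c₀ - A.w))
        rw [← this]; congr 1; ring
    linarith

/-! ### the path of a ring -/

theorem exists_vis (A : Ring) (τ : ℤ) : ∃ a b, A.Vis a b ∧ a + b = τ := by
  have hg : ∀ a, 2 * a ≤ A.F (a - 1) + a := by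
    intro a
    have := A.Fgt (a - 1)
    omega
  obtain ⟨B, hB⟩ := A.exists_bound
  have h1 : ∃ a, A.F (a - 1) + a ≤ τ := by
    refine ⟨(τ - B) / 2, ?_⟩
    have := hB ((τ - B) / 2 - 1)
    omega
  have h2 : ∃ ub : ℤ, ∀ a, A.F (a - 1) + a ≤ τ → a ≤ ub := by
    refine ⟨τ / 2, fun a ha => ?_⟩
    have := hg a
    omega
  obtain ⟨a, ha, hmax⟩ := Int.exists_greatest_of_bdd h2 h1
  refine ⟨a, τ - a, ⟨by omega, ?_⟩, by ring⟩
  by_contra hcon
  push Not at hcon
  have := hmax (a + 1) (by rw [add_sub_cancel_right]; omega)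
  omega

/-- the vertex number `τ` on the path of the ring -/
noncomputable def pt (A : Ring) (τ : ℤ) : ℤ × ℤ :=
  ((exists_vis A τ).choose, (exists_vis A τ).choose_spec.choose)

theorem pt_vis (A : Ring) (τ : ℤ) : A.Vis (pt A τ).1 (pt A τ).2 :=
  (exists_vis A τ).choose_spec.choose_spec.1

theorem pt_sum (A : Ring) (τ : ℤ) : (pt A τ).1 + (pt A τ).2 = τ :=
  (exists_vis A τ).choose_spec.choose_spec.2

theorem pt_eq {A : Ring} {a b : ℤ} (h : A.Vis a b) : pt A (a + b) = (a, b) := by
  have h1 := pt_vis A (a + b)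
  have h2 := pt_sum A (a + b)
  have h3 := Vis.le_of_sum_le h h1 h2.ge
  have h4 := Vis.le_of_sum_le h1 h h2.le
  exact Prod.ext (le_antisymm h4.1 h3.1) (le_antisymm h4.2 h3.2)

theorem pt_eq' {A : Ring} {a b τ : ℤ} (h : A.Vis a b) (hs : a + b = τ) : pt A τ = (a, b) := by
  rw [← hs]; exact pt_eq h

theorem pt_shift (A : Ring) (τ : ℤ) (k : ℤ) :
    pt A (τ + k * (2 * A.w)) = ((pt A τ).1 + k * A.w, (pt A τ).2 + k * A.w) := by
  apply pt_eq'
  · exact (A.Vis_per k _ _).2 (pt_vis A τ)
  · have := pt_sum A τ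
    linarith

theorem pt_le (A : Ring) (τ : ℤ) : (pt A τ).1 ≤ (pt A τ).2 := by
  have h := pt_vis A τ
  have := A.Fgt ((pt A τ).1 - 1)
  have := h.1
  omega

theorem pt_mono (A : Ring) {τ τ' : ℤ} (h : τ ≤ τ') :
    (pt A τ).1 ≤ (pt A τ').1 ∧ (pt A τ).2 ≤ (pt A τ').2 :=
  Vis.le_of_sum_le (pt_vis A τ) (pt_vis A τ') (by rw [pt_sum, pt_sum]; exact h)

/-- word of the vertex number `τ` -/
noncomputable def ptw (A : Ring) (τ : ℤ) : Word := win A.κ (pt A τ).1 (pt A τ).2

theorem ptw_shift (A : Ring) (τ : ℤ) (k : ℤ) : ptw A (τ + k * (2 * A.w)) = ptw A τ := by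
  unfold ptw
  rw [pt_shift]
  exact A.win_per' k _ _

/-- the words of the vertices number `τ, …, τ + n - 1` -/
noncomputable def pathList (A : Ring) (τ : ℤ) (n : ℕ) : List Word :=
  (List.range n).map (fun t : ℕ => ptw A (τ + t))


theorem pathList_succ (A : Ring) (τ : ℤ) (n : ℕ) :
    pathList A τ (n + 1) = ptw A τ :: pathList A (τ + 1) n := by
  unfold pathList
  rw [List.range_succ_eq_map, List.map_cons, List.map_map]
  congr 1
  · simp
  · apply List.map_congr_left
    intro t _
    simp only [Function.comp]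
    congr 1
    push_cast
    ring

@[simp] theorem length_pathList (A : Ring) (τ : ℤ) (n : ℕ) : (pathList A τ n).length = n := by
  simp [pathList]

theorem pathList_add (A : Ring) (τ : ℤ) (m n : ℕ) :
    pathList A τ (m + n) = pathList A τ m ++ pathList A (τ + m) n := by
  unfold pathList
  rw [List.range_add, List.map_append, List.map_map]
  congr 1
  apply List.map_congr_left
  intro t _
  simp only [Function.comp]
  congr 1
  push_cast
  ring

theorem pathList_shift (A : Ring) (τ : ℤ) (n : ℕ) (k : ℤ) :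
    pathList A (τ + k * (2 * A.w)) n = pathList A τ n := by
  unfold pathList
  apply List.map_congr_left
  intro t _
  have : τ + k * (2 * A.w) + t = (τ + t) + k * (2 * A.w) := by ring
  rw [this, ptw_shift]

theorem pathList_rotate (A : Ring) (τ : ℤ) (t : ℕ) (ht : t ≤ 2 * A.w) :
    (pathList A τ (2 * A.w)).drop t ++ (pathList A τ (2 * A.w)).take t =
      pathList A (τ + t) (2 * A.w) := by
  obtain ⟨m, hm⟩ := Nat.exists_eq_add_of_le ht
  have h1 : pathList A τ (2 * A.w) = pathList A τ t ++ pathList A (τ + t) m := by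
    rw [hm, pathList_add]
  rw [h1, List.drop_left' (by simp), List.take_left' (by simp)]
  have h2 : pathList A (τ + t) (2 * A.w) = pathList A (τ + t) m ++ pathList A (τ + t + m) t := by
    rw [hm, Nat.add_comm t m, pathList_add]
  rw [h2]
  congr 1
  have h3 : τ + t + m = τ + 1 * (2 * A.w) := by
    have : (2 * A.w : ℤ) = t + m := by exact_mod_cast hm
    rw [this]; ring
  rw [h3, pathList_shift]

theorem exists_rotate (A : Ring) (τ τ₀ : ℤ) : ∃ t : ℕ, t < 2 * A.w ∧
    (pathList A τ (2 * A.w)).drop t ++ (pathList A τ (2 * A.w)).take t =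
      pathList A τ₀ (2 * A.w) := by
  have hw : (0 : ℤ) < 2 * A.w := by have := A.wpos; positivity
  have h0 := Int.emod_nonneg (τ₀ - τ) hw.ne'
  have h1 := Int.emod_lt_of_pos (τ₀ - τ) hw
  have e := Int.emod_add_mul_ediv (τ₀ - τ) (2 * A.w)
  refine ⟨((τ₀ - τ) % (2 * A.w)).toNat, by omega, ?_⟩
  rw [pathList_rotate A τ _ (by omega)]
  have h2 : (((τ₀ - τ) % (2 * A.w)).toNat : ℤ) = (τ₀ - τ) % (2 * A.w) := Int.toNat_of_nonneg h0
  rw [h2]
  have h3 : τ₀ = τ + (τ₀ - τ) % (2 * A.w) + ((τ₀ - τ) / (2 * A.w)) * (2 * A.w) := by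
    have := mul_comm (2 * (A.w : ℤ)) ((τ₀ - τ) / (2 * A.w))
    linarith
  conv_rhs => rw [h3, pathList_shift]


/-! ### words and rings -/

theorem win_drop (κ : ℤ → ℕ) {i j : ℤ} (n : ℕ) : (win κ i j).drop n = win κ (i + n) j := by
  by_cases h : i + n ≤ j
  · rw [win_append κ (i := i) (j := i + n) (by omega) h, List.drop_left' (by simp)]
  · rw [win_eq_nil κ (i := i + n) (by omega), List.drop_eq_nil_iff]
    simp; omega

theorem win_take (κ : ℤ → ℕ) {i j : ℤ} (n : ℕ) (h : i + n ≤ j) : (win κ i j).take n = win κ i (i + n) := by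
  rw [win_append κ (i := i) (j := i + n) (by omega) h, List.take_left' (by simp)]

end Star

open Asm Crest.Agent.R287.Star

/-- the word data `K` represents the ring `R` -/
structure RepW (K : WC) (R : Ring) : Prop where
  wt : K.wt = R.w
  lv : (K.lv : ℤ) = R.lev
  mem : ∀ v, v ∈ K.tour ↔ ∃ i j, R.Vis i j ∧ v = win R.κ i j

namespace Star

theorem hasPer_win (R : Ring) (i j : ℤ) : hasPer R.w (win R.κ i j) = true := by
  unfold hasPer
  rw [List.isPrefixOf_iff_prefix, win_drop]
  have : win R.κ (i + R.w) j = win R.κ i (j - R.w) := by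
    have := R.win_per i (j - R.w)
    rw [sub_add_cancel] at this
    exact this
  rw [this]
  exact win_prefix_win _ (by omega)

theorem win_text {A R : Ring} {a b c : ℤ} (h : ∀ x, a ≤ x → x < b → A.κ x = R.κ (x + c)) {b' : ℤ}
    (hb : b' ≤ b) : win A.κ a b' = win R.κ (a + c) (b' + c) := by
  rw [win_eq_iff _ _ (by ring)]
  intro n hn hn'
  rw [h _ (by omega) (by omega)]
  congr 1; ring

theorem overW_of_over {A R : Ring} {K : WC} (hK : RepW K R) {a b c : ℤ} (h : Over A R a b c) :
    overW (win A.κ a b) K = true := by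
  unfold overW
  rw [Bool.and_eq_true]
  constructor
  · rw [hK.wt, win_text h.2.1 (le_refl _)]
    exact hasPer_win R _ _
  · rw [List.any_eq_true]
    refine ⟨win R.κ (a + c) (R.F (a + c - 1)), ?_, ?_⟩
    · rw [hK.mem]
      exact ⟨_, _, ⟨le_refl _, R.mono (by omega)⟩, rfl⟩
    · rw [List.isPrefixOf_iff_prefix, win_text h.2.1 (le_refl _)]
      apply win_prefix_win
      have := h.2.2
      rw [show a + c - 1 = a - 1 + c by ring]
      omega

theorem inits_pairwise (v : Word) : v.inits.Pairwise (fun a b => a.length < b.length) := by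
  induction v with
  | nil => simp
  | cons a v ih =>
    rw [List.inits_cons, List.pairwise_cons]
    constructor
    · intro b hb
      obtain ⟨c, _, rfl⟩ := List.mem_map.1 hb
      simp
    · rw [List.pairwise_map]
      exact ih.imp (fun h => by simpa using h)

theorem yOf_spec {v : Word} {K : WC} (h : ∃ y ∈ K.tour, y <+: v) :
    ∃ y, yOf v K = some y ∧ y ∈ K.tour ∧ y <+: v ∧ ∀ y' ∈ K.tour, y' <+: v → y.length ≤ y'.length := by
  obtain ⟨y0, hy0, hy0v⟩ := h
  have hsome : (yOf v K).isSome = true := by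
    unfold yOf
    rw [List.find?_isSome]
    exact ⟨y0, by rw [List.mem_inits]; exact hy0v, by simpa using hy0⟩
  obtain ⟨y, hy⟩ := Option.isSome_iff_exists.1 hsome
  refine ⟨y, hy, ?_⟩
  unfold yOf at hy
  rw [List.find?_eq_some_iff_append] at hy
  obtain ⟨h1, as, bs, h2, h3⟩ := hy
  have hyv : y <+: v := by rw [← List.mem_inits, h2]; simp
  refine ⟨by simpa using h1, hyv, ?_⟩
  intro y' hy' hy'v
  have hp := inits_pairwise v
  rw [h2, List.pairwise_append] at hp
  have hmem : y' ∈ v.inits := by rw [List.mem_inits]; exact hy'v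
  rw [h2, List.mem_append, List.mem_cons] at hmem
  rcases hmem with h | h | h
  · exfalso
    have := h3 y' h
    simp [hy'] at this
  · rw [h]
  · have := (List.pairwise_cons.1 hp.2.1).1 y' h
    omega

theorem over_of_overW {A R : Ring} {K : WC} (hK : RepW K R) (hwrap : R.Wrap) {a b : ℤ}
    (hv : A.Vis a b) (hab : a ≤ b) (h : overW (win A.κ a b) K = true) :
    ∃ c, Over A R a b c ∧ yOf (win A.κ a b) K = some (win A.κ a (R.F (a - 1 + c) - c)) := by
  unfold overW at h
  rw [Bool.and_eq_true, List.any_eq_true] at h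
  obtain ⟨hper, y0, hy0, hy0v⟩ := h
  rw [List.isPrefixOf_iff_prefix] at hy0v
  obtain ⟨y, hyOf, hyt, hyv, hmin⟩ := yOf_spec ⟨y0, hy0, hy0v⟩
  obtain ⟨i, j, hvis, hyw⟩ := (hK.mem y).1 hyt
  have hlen := hyv.length_le
  rw [length_win] at hlen
  have hylen : y.length = (j - i).toNat := by rw [hyw, length_win]
  have hwl := wrap_lt hwrap i
  have hij : i + R.w < j := by have := hvis.1; omega
  unfold hasPer at hper
  rw [List.isPrefixOf_iff_prefix, hK.wt] at hper
  -- agreement
  have hA : ∀ n : ℕ, (n : ℤ) < b - a → A.κ (a + n) = R.κ (i + n) := by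
    intro n
    induction n using Nat.strong_induction_on with
    | _ n ih =>
      intro hn
      by_cases hny : (n : ℤ) < j - i
      · have e1 : (win A.κ a b)[n]? = some (A.κ (a + n)) := win_getElem? _ hn
        have e2 : (win R.κ i j)[n]? = some (R.κ (i + n)) := win_getElem? _ hny
        obtain ⟨t, ht⟩ := hyv
        rw [← ht, List.getElem?_append_left (by rw [hylen]; omega), hyw, e2] at e1
        exact (Option.some.inj e1).symm
      · have hnw : R.w ≤ n := by omega
        have e1 : ((win A.κ a b).drop R.w)[n - R.w]? = some (A.κ (a + n)) := by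
          rw [List.getElem?_drop]
          have : R.w + (n - R.w) = n := by omega
          rw [this]
          exact win_getElem? _ hn
        have e2 : (win A.κ a b)[n - R.w]? = some (A.κ (a + ((n - R.w : ℕ) : ℤ))) :=
          win_getElem? _ (by omega)
        have hlt2 : n - R.w < ((win A.κ a b).drop R.w).length := by
          rw [List.length_drop, length_win]; omega
        obtain ⟨t, ht⟩ := hper
        have e3 : (win A.κ a b)[n - R.w]? = ((win A.κ a b).drop R.w)[n - R.w]? := by
          conv_lhs => rw [← ht]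
          rw [List.getElem?_append_left hlt2]
        rw [e1, e2] at e3
        have e4 := Option.some.inj e3
        rw [← e4, ih (n - R.w) (by have := R.wpos; omega) (by omega)]
        have e5 := R.κper (i + ((n - R.w : ℕ) : ℤ))
        rw [← e5]
        congr 1
        omega
  have hFj : R.F (i - 1) = j := by
    apply le_antisymm hvis.1
    by_contra hcon
    push Not at hcon
    have h1 : win R.κ i (R.F (i - 1)) ∈ K.tour := by
      rw [hK.mem]; exact ⟨_, _, ⟨le_refl _, R.mono (by omega)⟩, rfl⟩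
    have h2 : win R.κ i (R.F (i - 1)) <+: win A.κ a b := by
      refine List.IsPrefix.trans ?_ hyv
      rw [hyw]
      exact win_prefix_win _ hcon.le
    have h3 := hmin _ h1 h2
    rw [length_win, hylen] at h3
    omega
  refine ⟨i - a, ⟨hv, ?_, ?_⟩, ?_⟩
  · intro x hx1 hx2
    have := hA (x - a).toNat (by omega)
    have e : (((x - a).toNat : ℕ) : ℤ) = x - a := by omega
    rw [e] at this
    rw [show a + (x - a) = x by ring] at this
    rw [this]; congr 1; ring
  · rw [show a - 1 + (i - a) = i - 1 by ring, hFj]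
    omega
  · rw [hyOf, show a - 1 + (i - a) = i - 1 by ring, hFj]
    congr 1
    rw [hyw, win_eq_iff _ _ (by ring)]
    intro n hn hn'
    have := hA n.toNat (by omega)
    have e : ((n.toNat : ℕ) : ℤ) = n := by omega
    rw [e] at this
    exact this.symm

theorem far_of_not_near {A R : Ring} {K A' : WC} (hK : RepW K R) (hA : RepW A' A)
    (hnear : near K A' = false) {a b c : ℤ} (h : Over A R a b c) :
    R.F (a - 1 + c) - c + R.w < b := by
  by_contra hcon
  push Not at hcon
  have hn : near K A' = true := by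
    unfold near nearPair
    rw [List.find?_isSome]
    refine ⟨(win R.κ (a + c) (R.F (a + c - 1)), win A.κ a b), ?_, ?_⟩
    · rw [List.mem_flatMap]
      refine ⟨win R.κ (a + c) (R.F (a + c - 1)), (hK.mem _).2
        ⟨_, _, ⟨le_refl _, R.mono (by omega)⟩, rfl⟩, ?_⟩
      rw [List.mem_map]
      exact ⟨_, (hA.mem _).2 ⟨_, _, h.1, rfl⟩, rfl⟩
    · rw [decide_eq_true_iff, hK.wt]
      have hFb : R.F (a + c - 1) ≤ b + c := by
        have := h.2.2
        rw [show a + c - 1 = a - 1 + c by ring]
        omega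
      have := R.Fgt (a + c - 1)
      rw [win_text h.2.1 (le_refl _)]
      have h1 := near_connector (y := win R.κ (a + c) (R.F (a + c - 1)))
        (v := win R.κ (a + c) (b + c)) (w := R.w) (win_prefix_win _ hFb) ?_ ?_
      · simp only
        omega
      · have := hasPer_win R (a + c) (b + c)
        unfold hasPer at this
        rwa [List.isPrefixOf_iff_prefix] at this
      · rw [length_win, length_win]
        have e : a - 1 + c = a + c - 1 := by ring
        rw [e] at hcon
        omega
  rw [hnear] at hn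
  exact Bool.noConfusion hn


/-! ### the star walk -/

/-- the words added by the star walk -/
def walkYs : List WC → List Word → List Word
  | _, [] => []
  | L, v :: ws => ysOf v (L.filter (fun K => overW v K)) ++
      walkYs (L.filter (fun K => !overW v K)) ws

/-- the last centre word of the star walk -/
def walkLast : Word → List WC → List Word → Word
  | l, _, [] => l
  | l, L, v :: ws => walkLast (bif (L.filter (fun K => overW v K)).isEmpty then l else v)
      (L.filter (fun K => !overW v K)) ws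

theorem foldl_starStep (ws : List Word) (E : List Word) (l : Word) (L : List WC) :
    (ws.foldl starStep (E, l, L)).1 = E ++ walkYs L ws ∧
      (ws.foldl starStep (E, l, L)).2.1 = walkLast l L ws := by
  induction ws generalizing E l L with
  | nil => simp [walkYs, walkLast]
  | cons v ws ih =>
    rw [List.foldl_cons]
    by_cases h : (L.filter (fun K => overW v K)).isEmpty = true
    · have h0 : L.filter (fun K => overW v K) = [] := List.isEmpty_iff.1 h
      have h1 : L.filter (fun K => !overW v K) = L := by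
        rw [List.filter_eq_self]
        intro K hK
        rw [List.filter_eq_nil_iff] at h0
        simpa using h0 K hK
      have h2 : starStep (E, l, L) v = (E, l, L) := by
        unfold starStep
        simp only [h, cond_true]
      rw [h2]
      have h3 : ysOf v [] = [] := by
        unfold ysOf
        rw [List.filter_eq_nil_iff]
        intro y _
        simp
      obtain ⟨i1, i2⟩ := ih E l L
      constructor
      · rw [i1, walkYs, h0, h1, h3]; simp
      · rw [i2, walkLast, h0, h1]; simp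
    · have h2 : starStep (E, l, L) v = (E ++ ysOf v (L.filter (fun K => overW v K)), v,
          L.filter (fun K => !overW v K)) := by
        unfold starStep
        simp only [h, cond_false]
      rw [h2]
      obtain ⟨i1, i2⟩ := ih (E ++ ysOf v (L.filter (fun K => overW v K))) v
        (L.filter (fun K => !overW v K))
      constructor
      · rw [i1, walkYs, List.append_assoc]
      · rw [i2, walkLast]
        simp [h]

theorem starWalk_eq (L : List WC) (ws : List Word) :
    starWalk L ws = [] :: (walkYs L ws ++ [walkLast [] L ws]) := by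
  obtain ⟨h1, h2⟩ := foldl_starStep ws [] [] L
  unfold starWalk
  simp only [h1, h2, List.nil_append]

/-- data of the star situation -/
structure StarHyp (A : Ring) (R : WC → Ring) (K : WC) : Prop where
  rep : RepW K (R K)
  wrap : (R K).Wrap
  far : ∀ a b c, Over A (R K) a b c → (R K).F (a - 1 + c) - c + (R K).w < b

/-- `K` is over at the vertex number `τ` (in some phase) -/
def OverT (A : Ring) (R : WC → Ring) (K : WC) (τ : ℤ) : Prop :=
  ∃ c, Over A (R K) (pt A τ).1 (pt A τ).2 c

theorem overT_iff {A : Ring} {R : WC → Ring} {K : WC} (h : StarHyp A R K) (τ : ℤ) :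
    overW (ptw A τ) K = true ↔ OverT A R K τ := by
  constructor
  · intro h'
    obtain ⟨c, hc, _⟩ := over_of_overW h.rep h.wrap (pt_vis A τ) (pt_le A τ) h'
    exact ⟨c, hc⟩
  · rintro ⟨c, hc⟩
    exact overW_of_over h.rep hc

theorem walk_spec {A : Ring} {R : WC → Ring} (n : ℕ) : ∀ (τ : ℤ) (L : List WC),
    (∀ K ∈ L, StarHyp A R K) →
    ∃ E : List (ℤ × ℤ), walkYs L (pathList A τ n) = E.map (fun p => win A.κ p.1 p.2) ∧
      E.Pairwise (fun p q => p.1 ≤ q.1 ∧ p.2 ≤ q.2) ∧
      (∀ p ∈ E, ∃ K ∈ L, ∃ τ' c, τ ≤ τ' ∧ τ' < τ + n ∧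
        Over A (R K) (pt A τ').1 (pt A τ').2 c ∧
        p = ((pt A τ').1, (R K).F ((pt A τ').1 - 1 + c) - c) ∧
        ∀ σ, τ ≤ σ → σ < τ' → ¬ OverT A R K σ) ∧
      (∀ K ∈ L, (∃ τ', τ ≤ τ' ∧ τ' < τ + n ∧ OverT A R K τ') →
        ∃ p ∈ E, win A.κ p.1 p.2 ∈ K.tour) ∧
      (∀ l, (walkLast l L (pathList A τ n) = l ∧ E = []) ∨
        ∃ τl, τ ≤ τl ∧ τl < τ + n ∧ walkLast l L (pathList A τ n) = ptw A τl ∧
          (∀ p ∈ E, p.1 ≤ (pt A τl).1 ∧ p.2 ≤ (pt A τl).2) ∧
          ∃ K ∈ L, OverT A R K τl ∧ ∀ σ, τ ≤ σ → σ < τl → ¬ OverT A R K σ) := by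
  induction n with
  | zero =>
    intro τ L hL
    refine ⟨[], rfl, List.Pairwise.nil, by simp, ?_, ?_⟩
    · rintro K _ ⟨τ', h1, h2, _⟩
      exfalso; push_cast at h2; omega
    · intro l; left; exact ⟨rfl, rfl⟩
  | succ n ih =>
    intro τ L hL
    set H := L.filter (fun K => overW (ptw A τ) K) with hH
    set L' := L.filter (fun K => !overW (ptw A τ) K) with hL'
    have hL'mem : ∀ K, K ∈ L' ↔ K ∈ L ∧ ¬ OverT A R K τ := by
      intro K
      rw [hL', List.mem_filter]
      constructor
      · rintro ⟨h1, h2⟩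
        refine ⟨h1, fun h3 => ?_⟩
        rw [← overT_iff (hL K h1)] at h3
        simp [h3] at h2
      · rintro ⟨h1, h2⟩
        refine ⟨h1, ?_⟩
        rw [← overT_iff (hL K h1)] at h2
        simpa using h2
    have hHmem : ∀ K, K ∈ H ↔ K ∈ L ∧ OverT A R K τ := by
      intro K
      rw [hH, List.mem_filter]
      constructor
      · rintro ⟨h1, h2⟩
        exact ⟨h1, (overT_iff (hL K h1) τ).1 h2⟩
      · rintro ⟨h1, h2⟩
        exact ⟨h1, (overT_iff (hL K h1) τ).2 h2⟩
    obtain ⟨E', e1, e2, e3, e4, e5⟩ := ih (τ + 1) L' (fun K hK => hL K ((hL'mem K).1 hK).1)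
    -- head entries
    set a := (pt A τ).1 with ha
    set b := (pt A τ).2 with hb
    have hab : a ≤ b := pt_le A τ
    have hvis : A.Vis a b := pt_vis A τ
    set E0 : List (ℤ × ℤ) := (ysOf (ptw A τ) H).map (fun y => (a, a + (y.length : ℤ))) with hE0
    have hy : ∀ y ∈ ysOf (ptw A τ) H, y <+: ptw A τ ∧ ∃ K ∈ H, yOf (ptw A τ) K = some y := by
      intro y hy
      unfold ysOf at hy
      rw [List.mem_filter, List.mem_inits, List.any_eq_true] at hy
      obtain ⟨h1, K, h2, h3⟩ := hy
      exact ⟨h1, K, h2, by simpa using h3⟩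
    have hywin : ∀ y, y <+: ptw A τ → win A.κ a (a + (y.length : ℤ)) = y := by
      intro y hy
      have hlen := hy.length_le
      unfold ptw at hy hlen
      rw [length_win] at hlen
      rw [List.prefix_iff_eq_take] at hy
      rw [← win_take A.κ (i := a) (j := b) y.length (by omega)]
      exact hy.symm
    have hE0map : ysOf (ptw A τ) H = E0.map (fun p => win A.κ p.1 p.2) := by
      rw [hE0, List.map_map]
      conv_lhs => rw [← List.map_id (ysOf (ptw A τ) H)]
      apply List.map_congr_left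
      intro y hy'
      simp only [Function.comp, id]
      exact (hywin y (hy y hy').1).symm
    have hE0spec : ∀ p ∈ E0, ∃ K ∈ H, ∃ c, Over A (R K) a b c ∧
        p = (a, (R K).F (a - 1 + c) - c) := by
      intro p hp
      rw [hE0, List.mem_map] at hp
      obtain ⟨y, hy1, rfl⟩ := hp
      obtain ⟨hyp, K, hKH, hyK⟩ := hy y hy1
      have hKL := (hHmem K).1 hKH
      obtain ⟨c, hc1, hc2⟩ := over_of_overW (hL K hKL.1).rep (hL K hKL.1).wrap hvis hab
        ((overT_iff (hL K hKL.1) τ).2 hKL.2)
      refine ⟨K, hKH, c, hc1, ?_⟩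
      have h1 : yOf (ptw A τ) K = some (win A.κ a ((R K).F (a - 1 + c) - c)) := hc2
      rw [h1] at hyK
      have h2 := Option.some.inj hyK
      rw [← h2, length_win]
      have := wrap_lt (hL K hKL.1).wrap (a + c)
      rw [show a + c - 1 = a - 1 + c by ring] at this
      ext
      · rfl
      · simp only; omega
    refine ⟨E0 ++ E', ?_, ?_, ?_, ?_, ?_⟩
    · rw [pathList_succ, walkYs, List.map_append, ← hE0map, e1]
    · rw [List.pairwise_append]
      refine ⟨?_, e2, ?_⟩
      · rw [hE0, List.pairwise_map]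
        have h1 : (ysOf (ptw A τ) H).Pairwise (fun a b => a.length < b.length) := by
          unfold ysOf
          exact (inits_pairwise _).filter _
        exact h1.imp (fun h => ⟨le_refl _, by omega⟩)
      · intro p hp q hq
        obtain ⟨K, hK, c, hc, rfl⟩ := hE0spec p hp
        obtain ⟨K', hK', τ', c', h1, h2, h3, rfl, h5⟩ := e3 q hq
        have hKL := (hHmem K).1 hK
        have hK'L := (hL'mem K').1 hK'
        refine ⟨(pt_mono A (show τ ≤ τ' by omega)).1, ?_⟩
        refine chain_pair (hL K' hK'L.1).wrap hc h3 ((hL K hKL.1).far _ _ _ hc) ?_ ?_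
        · have h7 := pt_sum A τ
          have h8 := pt_sum A τ'
          omega
        · intro hcon
          exact hK'L.2 ⟨c', hcon⟩
    · intro p hp
      rw [List.mem_append] at hp
      rcases hp with hp | hp
      · obtain ⟨K, hK, c, hc, rfl⟩ := hE0spec p hp
        refine ⟨K, ((hHmem K).1 hK).1, τ, c, le_refl _, by push_cast; omega, hc, rfl, ?_⟩
        intro σ h1 h2; omega
      · obtain ⟨K, hK, τ', c, h1, h2, h3, h4, h5⟩ := e3 p hp
        refine ⟨K, ((hL'mem K).1 hK).1, τ', c, by omega, by push_cast; omega, h3, h4, ?_⟩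
        intro σ h6 h7
        rcases eq_or_lt_of_le h6 with rfl | h8
        · exact ((hL'mem K).1 hK).2
        · exact h5 σ (by omega) h7
    · rintro K hK ⟨τ', h1, h2, h3⟩
      by_cases h4 : OverT A R K τ
      · have hKH := (hHmem K).2 ⟨hK, h4⟩
        obtain ⟨c, hc1, hc2⟩ := over_of_overW (hL K hK).rep (hL K hK).wrap hvis hab
          ((overT_iff (hL K hK) τ).2 h4)
        have h5 : yOf (ptw A τ) K = some (win A.κ a ((R K).F (a - 1 + c) - c)) := hc2
        have hpre : win A.κ a ((R K).F (a - 1 + c) - c) <+: ptw A τ := by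
          unfold ptw
          exact win_prefix_win _ hc1.2.2
        have h6 : win A.κ a ((R K).F (a - 1 + c) - c) ∈ ysOf (ptw A τ) H := by
          unfold ysOf
          rw [List.mem_filter, List.mem_inits, List.any_eq_true]
          exact ⟨hpre, K, hKH, by simp [h5]⟩
        refine ⟨(a, a + ((win A.κ a ((R K).F (a - 1 + c) - c)).length : ℤ)), ?_, ?_⟩
        · rw [List.mem_append]; left
          rw [hE0, List.mem_map]
          exact ⟨_, h6, rfl⟩
        · simp only
          rw [hywin _ hpre]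
          unfold yOf at h5
          have := List.find?_some h5
          simpa using this
      · rcases eq_or_lt_of_le h1 with rfl | h5
        · exact absurd h3 h4
        · obtain ⟨p, hp, hp'⟩ := e4 K ((hL'mem K).2 ⟨hK, h4⟩) ⟨τ', by omega, by push_cast at h2; omega, h3⟩
          exact ⟨p, List.mem_append.2 (Or.inr hp), hp'⟩
    · intro l
      by_cases hemp : H.isEmpty = true
      · have h0 : H = [] := List.isEmpty_iff.1 hemp
        have hE0nil : E0 = [] := by
          rw [hE0, h0]
          have : ysOf (ptw A τ) [] = [] := by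
            unfold ysOf; rw [List.filter_eq_nil_iff]; intro y _; simp
          rw [this]; rfl
        have hwl : walkLast l L (pathList A τ (n + 1)) = walkLast l L' (pathList A (τ + 1) n) := by
          rw [pathList_succ, walkLast, ← hH, ← hL', hemp, cond_true]
        rcases e5 l with ⟨h1, h2⟩ | ⟨τl, h1, h2, h3, h4, K, hK, h5, h6⟩
        · left
          rw [hwl, h1, hE0nil, h2]
          exact ⟨rfl, rfl⟩
        · right
          refine ⟨τl, by omega, by push_cast; omega, by rw [hwl, h3], ?_, K, ((hL'mem K).1 hK).1, h5, ?_⟩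
          · rw [hE0nil, List.nil_append]; exact h4
          · intro σ h7 h8
            rcases eq_or_lt_of_le h7 with rfl | h9
            · exact ((hL'mem K).1 hK).2
            · exact h6 σ (by omega) h8
      · have hne : H ≠ [] := by simpa using hemp
        obtain ⟨K0, hK0⟩ := List.exists_mem_of_ne_nil _ hne
        have hK0L := (hHmem K0).1 hK0
        have hwl : walkLast l L (pathList A τ (n + 1)) =
            walkLast (ptw A τ) L' (pathList A (τ + 1) n) := by
          rw [pathList_succ, walkLast, ← hH, ← hL']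
          simp [hemp]
        have hE0le : ∀ p ∈ E0, p.1 ≤ a ∧ p.2 ≤ b := by
          intro p hp
          obtain ⟨K, hK, c, hc, rfl⟩ := hE0spec p hp
          exact ⟨le_refl _, hc.2.2⟩
        right
        rcases e5 (ptw A τ) with ⟨h1, h2⟩ | ⟨τl, h1, h2, h3, h4, K, hK, h5, h6⟩
        · refine ⟨τ, le_refl _, by push_cast; omega, by rw [hwl, h1], ?_, K0, hK0L.1, hK0L.2, ?_⟩
          · rw [h2, List.append_nil]; exact hE0le
          · intro σ h7 h8; omega
        · refine ⟨τl, by omega, by push_cast; omega, by rw [hwl, h3], ?_, K, ((hL'mem K).1 hK).1, h5, ?_⟩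
          · intro p hp
            rw [List.mem_append] at hp
            rcases hp with hp | hp
            · have h7 := pt_mono A (show τ ≤ τl by omega)
              have h8 := hE0le p hp
              exact ⟨h8.1.trans h7.1, h8.2.trans h7.2⟩
            · exact h4 p hp
          · intro σ h7 h8
            rcases eq_or_lt_of_le h7 with rfl | h9
            · exact ((hL'mem K).1 hK).2
            · exact h6 σ (by omega) h8



theorem le_wtSum {L : List WC} {K : WC} (h : K ∈ L) : K.wt ≤ wtSum L := by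
  unfold wtSum
  exact List.single_le_sum (fun _ _ => Nat.zero_le _) _ (List.mem_map.2 ⟨K, h, rfl⟩)

theorem add_le_wtSum {L : List WC} {K K' : WC} (h : K ∈ L) (h' : K' ∈ L) (hne : K ≠ K') :
    K.wt + K'.wt ≤ wtSum L := by
  induction L with
  | nil => simp at h
  | cons M L ih =>
    have hs : wtSum (M :: L) = M.wt + wtSum L := by simp [wtSum]
    rw [hs]
    rcases List.mem_cons.1 h with rfl | h1
    · rcases List.mem_cons.1 h' with rfl | h2
      · exact absurd rfl hne
      · have := le_wtSum h2; omega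
    · rcases List.mem_cons.1 h' with rfl | h2
      · have := le_wtSum h1; omega
      · have := ih h1 h2; omega

theorem wtSum_cons (A : WC) (L : List WC) : wtSum (A :: L) = A.wt + wtSum L := by simp [wtSum]

/-- the star walk from a good start is a good route -/
theorem star_good_start {A' : WC} {A : Ring} (hA : RepW A' A) {L : List WC} {R : WC → Ring}
    (hL : ∀ K ∈ L, StarHyp A R K)
    (hover : ∀ K ∈ L, ∃ a b c, Over A (R K) a b c)
    (htext : ∀ K ∈ L, ∀ c, ¬ ∀ x, A.κ x = (R K).κ (x + c))
    {K₀ : WC} (hK₀ : K₀ ∈ L) {τ₀ : ℤ} {c₀ : ℤ} (h₀ : Over A (R K₀) (pt A τ₀).1 (pt A τ₀).2 c₀)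
    (hpred : ∀ a' b', a' + b' + 1 = τ₀ → ¬ Over A (R K₀) a' b' c₀) :
    good A' L (starWalk L (pathList A τ₀ (2 * A.w))) = true := by
  obtain ⟨E, e1, e2, e3, e4, e5⟩ := walk_spec (A := A) (R := R) (2 * A.w) τ₀ L hL
  have hAw : (0 : ℤ) < A.w := by exact_mod_cast A.wpos
  -- every K is hit
  have hhit : ∀ K ∈ L, ∃ p ∈ E, win A.κ p.1 p.2 ∈ K.tour := by
    intro K hK
    apply e4 K hK
    obtain ⟨a, b, c, hab, hge, hmin⟩ := exists_first (hover K hK) τ₀
    refine ⟨a + b, hge, ?_, ?_⟩
    · by_contra hcon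
      push Not at hcon
      have := hmin _ _ _ hab.unshift' (by push_cast at hcon; linarith)
      linarith
    · refine ⟨c, ?_⟩
      rw [pt_eq hab.1]; exact hab
  have hEne : E ≠ [] := by
    rintro rfl
    obtain ⟨p, hp, _⟩ := hhit K₀ hK₀
    simp at hp
  rcases e5 [] with ⟨_, h2⟩ | ⟨τl, h1, h2, h3, h4, K, hK, h5, h6⟩
  · exact absurd h2 hEne
  obtain ⟨p, E', hE⟩ := List.exists_cons_of_ne_nil hEne
  have hwalk : starWalk L (pathList A τ₀ (2 * A.w)) =
      [] :: (p :: (E' ++ [pt A τl])).map (fun q => win A.κ q.1 q.2) := by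
    rw [starWalk_eq, e1, h3, hE]
    simp [ptw]
  have hle : ∀ q ∈ p :: (E' ++ [pt A τl]), q.1 ≤ q.2 := by
    intro q hq
    have hq' : q ∈ E ∨ q = pt A τl := by
      rw [hE]
      rw [List.mem_cons, List.mem_append, List.mem_singleton] at hq
      rcases hq with h | h | h
      · left; simp [h]
      · left; simp [h]
      · right; exact h
    rcases hq' with h | h
    · obtain ⟨K, hK, τ', c, _, _, h7, rfl, _⟩ := e3 q h
      have := wrap_lt (hL K hK).wrap ((pt A τ').1 + c)
      rw [show (pt A τ').1 + c - 1 = (pt A τ').1 - 1 + c by ring] at this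
      simp only
      omega
    · rw [h]; exact pt_le A τl
  have hpw : (p :: (E' ++ [pt A τl])).Pairwise (fun p q => p.1 ≤ q.1 ∧ p.2 ≤ q.2) := by
    have : p :: (E' ++ [pt A τl]) = E ++ [pt A τl] := by rw [hE]; rfl
    rw [this, List.pairwise_append]
    refine ⟨e2, List.pairwise_singleton _ _, ?_⟩
    intro x hx y hy
    rw [List.mem_singleton] at hy
    rw [hy]; exact h4 x hx
  have hcost := ccost_route A.κ (E' ++ [pt A τl]) p hpw.isChain hle
  have hlast : ((p :: (E' ++ [pt A τl])).getLast (by simp)) = pt A τl := by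
    rw [List.getLast_cons (by simp), List.getLast_append_singleton]
  rw [hlast, ← hwalk] at hcost
  have hp1 : (pt A τ₀).1 ≤ p.1 := by
    obtain ⟨K, hK, τ', c, h7, _, _, h8, _⟩ := e3 p (by rw [hE]; simp)
    rw [h8]; exact (pt_mono A h7).1
  have hbound : (pt A τl).2 - (pt A τ₀).1 ≤ A.w + wtSum L := by
    obtain ⟨c, hc⟩ := h5
    rcases eq_or_lt_of_le h1 with heq | hlt
    · rw [← heq] at hc ⊢
      have h8 := length_single hc (htext K hK c)
      have h9 := le_wtSum hK
      have h10 := (hL K hK).rep.wt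
      omega
    · have hne : K ≠ K₀ := by
        rintro rfl
        exact h6 τ₀ (le_refl _) hlt ⟨c₀, h₀⟩
      have h8 := length_pair h₀ ((hL K₀ hK₀).far _ _ _ h₀)
        (by intro a' b' hs; rw [pt_sum] at hs; exact hpred a' b' hs) hc
        (by rw [pt_sum, pt_sum]; push_cast at h2; exact h2)
      have h9 := add_le_wtSum hK hK₀ hne
      have h10 := (hL K hK).rep.wt
      have h11 := (hL K₀ hK₀).rep.wt
      omega
  unfold good
  rw [Bool.and_eq_true, Bool.and_eq_true]
  refine ⟨⟨?_, ?_⟩, ?_⟩
  · rw [hwalk]; simp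
  · rw [decide_eq_true_iff, wtSum_cons, hA.wt]
    omega
  · rw [List.all_eq_true]
    intro M hM
    unfold touches
    rw [List.any_eq_true]
    rcases List.mem_cons.1 hM with rfl | hM
    · refine ⟨ptw A τl, ?_, ?_⟩
      · rw [hwalk]
        apply List.mem_cons_of_mem
        rw [List.mem_map]
        exact ⟨pt A τl, by simp, rfl⟩
      · rw [decide_eq_true_iff, hA.mem]
        exact ⟨_, _, pt_vis A τl, rfl⟩
    · obtain ⟨q, hq, hq'⟩ := hhit M hM
      refine ⟨win A.κ q.1 q.2, ?_, ?_⟩
      · rw [hwalk]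
        apply List.mem_cons_of_mem
        rw [List.mem_map]
        refine ⟨q, ?_, rfl⟩
        rw [hE] at hq
        rw [List.mem_cons] at hq ⊢
        rcases hq with h | h
        · left; exact h
        · right; simp [h]
      · rw [decide_eq_true_iff]; exact hq'

/-- **star fact**: a good star walk exists -/
theorem star_good {A' : WC} {A : Ring} (hA : RepW A' A) {τ : ℤ}
    (htour : A'.tour = pathList A τ (2 * A.w)) {L : List WC} (hne : L ≠ []) {R : WC → Ring}
    (hrep : ∀ K ∈ L, RepW K (R K)) (hwrap : ∀ K ∈ L, (R K).Wrap)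
    (hover : ∀ K ∈ L, overC A' K = true) (hnear : ∀ K ∈ L, near K A' = false)
    (htext : ∀ K ∈ L, ∀ c, ¬ ∀ x, A.κ x = (R K).κ (x + c)) :
    ∃ t, t < A'.tour.length ∧
      good A' L (starWalk L (A'.tour.drop t ++ A'.tour.take t)) = true := by
  have hL : ∀ K ∈ L, StarHyp A R K := fun K hK =>
    ⟨hrep K hK, hwrap K hK, fun a b c h => far_of_not_near (hrep K hK) hA (hnear K hK) h⟩
  have hover' : ∀ K ∈ L, ∃ a b c, Over A (R K) a b c := by
    intro K hK
    have h := hover K hK
    unfold overC at h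
    rw [List.any_eq_true] at h
    obtain ⟨v, hv, hov⟩ := h
    obtain ⟨i, j, hvis, rfl⟩ := (hA.mem v).1 hv
    have hij : i ≤ j := by
      have := A.Fgt (i - 1); have := hvis.1; omega
    obtain ⟨c, hc, _⟩ := over_of_overW (hrep K hK) (hwrap K hK) hvis hij hov
    exact ⟨i, j, c, hc⟩
  obtain ⟨K₀, hK₀⟩ := List.exists_mem_of_ne_nil _ hne
  obtain ⟨a, b, c, habc⟩ := hover' K₀ hK₀
  obtain ⟨a₀, b₀, h1, h2⟩ := exists_start habc (htext K₀ hK₀ c)
  obtain ⟨t, ht, ht'⟩ := exists_rotate A τ (a₀ + b₀)
  refine ⟨t, by rw [htour]; simpa using ht, ?_⟩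
  rw [htour, ht']
  exact star_good_start hA hL hover' htext hK₀ (c₀ := c) (by rw [pt_eq h1.1]; exact h1) h2

end Star

end Crest.Agent.R287
private theorem rz_3d6d14f4b9 : type_of% @_root_.Crest.Agent.R287.Star.walkLast.eq_def := @_root_.Crest.Agent.R287.Star.walkLast.eq_def -- L500
private theorem rz_c0ce0627af : type_of% @_root_.Crest.Agent.R287.Star.walkLast.eq_1 := @_root_.Crest.Agent.R287.Star.walkLast.eq_1 -- L500
private theorem rz_f62a77d76a : type_of% @_root_.Crest.Agent.R287.Star.walkYs.eq_def := @_root_.Crest.Agent.R287.Star.walkYs.eq_def -- L494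
private theorem rz_3091fdb562 : type_of% @_root_.Crest.Agent.R287.Star.walkYs.eq_1 := @_root_.Crest.Agent.R287.Star.walkYs.eq_1 -- L494
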