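import Crest.Agent.R287.AsmThm
import Crest.Agent.R287.PWC
import Crest.Agent.R287.AsmMix
import Crest.Agent.R287.CandB
import Crest.Agent.R287.StarW_Mg
import Crest.Agent.R287.AsmSame
import Crest.Agent.R287.CoreMerge
import Crest.Agent.R287.SttPT
import Crest.Agent.R287.Core
import Crest.Agent.R287.SpecCand
import Crest.Agent.R287.Codec
import Crest.Agent.R287.MainPT
import Crest.Agent.R287.InvCount_Mg

-- ▼ part R287/MainAsm
section

/-!
Row 287: the assembly hypotheses for the components of a list of P-lists, and the two correctness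
facts of the final program from the process facts.
-/

set_option autoImplicit false

namespace Crest.Agent.R287

open Asm

/-- the geometric facts `H2`, `H3`, `H4` for a family of components -/
structure GeoHyp (Cs : List WC) : Prop where
  h2 : ∀ A ∈ Cs, A.wrap = true → ∀ L : List WC, L ≠ [] → (∀ K ∈ L, K ∈ Cs) → L.Nodup →
    (∀ K ∈ L, linked K A = true ∧ near K A = false) →
    (∀ K ∈ L, ∀ K' ∈ L, linked K K' = false) → ∃ r ∈ cands A L, good A L r = true
  h3 : ∀ V ∈ Cs, V.wrap = false → ∀ L : List WC, (∀ K ∈ L, K ∈ Cs) → L.Nodup →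
    (∀ K ∈ L, K.wrap = true ∧ isolated Cs K = true ∧ overC V K = true ∧ near K V = false) →
    ∃ r ∈ cands V L, good V L r = true
  h4 : ∀ K ∈ Cs, K.wrap = true → isolated Cs K = true →
    hasTarget Cs K = true ∨ ∃ V ∈ Cs, V.wrap = false ∧ overC V K = true

theorem asmHyp_wcsOf {Ps : List PL} (hR : ∀ P ∈ Ps, IsPRing P) (hg : GeoHyp (wcsOf Ps)) :
    AsmHyp (wcsOf Ps) where
  nodup := wcsOf_nodup Ps
  cc := by
    intro K hK
    obtain ⟨n, hn, rfl⟩ := mem_wcsOf.mp hK
    exact ccost_nodes (hR _ (List.getElem_mem hn))
  wlen := by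
    intro K hK hw v hv
    obtain ⟨n, hn, rfl⟩ := mem_wcsOf.mp hK
    exact wrap_lt_of_mem_nodes (hR _ (List.getElem_mem hn)) hw hv
  wper := by
    intro K hK hw v hv
    obtain ⟨n, hn, rfl⟩ := mem_wcsOf.mp hK
    exact hasPer_of_mem_nodes (hR _ (List.getElem_mem hn)) hv
  h2 := hg.h2
  h3 := hg.h3
  h4 := hg.h4

/-- words of the P-lists are nodes -/
theorem mem_nodes_of_mem' {P : PL} (hR : IsPRing P) {p : Word} (hp : p ∈ P) : p ∈ nodes P := by
  rw [mem_nodes hR, mem_visWords hR]
  obtain ⟨k, hk, rfl⟩ := List.getElem_of_mem hp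
  refine ⟨k, ?_, ?_⟩
  · have := pz_step' hR k
    rw [pz_nat hk, List.getD_eq_getElem?_getD, List.getElem?_eq_getElem hk] at this
    simpa using this
  · rw [pz_nat hk, List.getD_eq_getElem?_getD, List.getElem?_eq_getElem hk]
    simp

theorem asm_wcsOf_spec {Ps : List PL} (hR : ∀ P ∈ Ps, IsPRing P) (hg : GeoHyp (wcsOf Ps)) :
    (∀ P ∈ Ps, ∀ p ∈ P, p <:+: asm (wcsOf Ps)) ∧
      (asm (wcsOf Ps)).length ≤ 2 * (Ps.map List.length).sum := by
  obtain ⟨h1, h2⟩ := asm_spec (asmHyp_wcsOf hR hg)
  rw [wcsOf_wtSum] at h2
  refine ⟨fun P hP p hp => ?_, h2⟩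
  obtain ⟨n, hn, rfl⟩ := List.getElem_of_mem hP
  exact h1 _ (mem_wcsOf.mpr ⟨n, hn, rfl⟩) p (mem_nodes_of_mem' (hR _ (List.getElem_mem hn)) hp)

/-- correctness of the final program from the process facts -/
theorem main_correct
    (hR : ∀ S : List Word, ∀ P ∈ ringsOf S, IsPRing P)
    (hcov : ∀ S : List Word, ∀ s ∈ S, s ≠ [] → ∃ P ∈ ringsOf S, ∃ p ∈ P, s <:+: p)
    (hlb : ∀ (S : List Word) (T : Word), (∀ s ∈ S, s <:+: T) →
      ((ringsOf S).map List.length).sum ≤ T.length)
    (hg : ∀ S : List Word, GeoHyp (wcsOf (ringsOf S))) :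
    (∀ S : List Word, ∀ s ∈ S, s <:+: asm (wcsOf (ringsOf S))) ∧
    (∀ (S : List Word) (T : Word), (∀ s ∈ S, s <:+: T) →
      (asm (wcsOf (ringsOf S))).length ≤ 2 * T.length) := by
  constructor
  · intro S s hs
    by_cases h0 : s = []
    · subst h0; exact List.nil_infix
    · obtain ⟨P, hP, p, hp, hsp⟩ := hcov S s hs h0
      exact hsp.trans ((asm_wcsOf_spec (hR S) (hg S)).1 P hP p hp)
  · intro S T hT
    have h1 := (asm_wcsOf_spec (hR S) (hg S)).2
    have h2 := hlb S T hT
    omega

end Crest.Agent.R287
end

-- ▼ part R287/AsmH4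
section

/-!
Row 287: field (H4) of `AsmHyp` for the components of a list of P-rings without candidate: an
isolated wrap has a near target or some non-wrapping component visits a word over it.
-/

set_option autoImplicit false

namespace Crest.Agent.R287

open Asm

theorem asm_h4 (Ps : List PL) (hP : ∀ P ∈ Ps, IsPRing P)
    (hc : ∀ K ∈ Ps, candB Ps K = false) :
    ∀ K ∈ wcsOf Ps, K.wrap = true → isolated (wcsOf Ps) K = true →
      hasTarget (wcsOf Ps) K = true ∨ ∃ V ∈ wcsOf Ps, V.wrap = false ∧ overC V K = true := by
  intro K hK hw hiso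
  obtain ⟨n, hn, rfl⟩ := mem_wcsOf.1 hK
  set P : Fin Ps.length → PL := fun c => Ps[c] with hPdef
  have hPP : ∀ c, IsPRing (P c) := fun c => hP _ (List.getElem_mem _)
  set R : Fin Ps.length → Ring := fun c => toRing (P c) (hPP c) with hR
  set k : Fin Ps.length := ⟨n, hn⟩ with hk
  have hmem : ∀ c : Fin Ps.length, wcOf (P c) c ∈ wcsOf Ps := fun c =>
    mem_wcsOf.2 ⟨c, c.2, rfl⟩
  have hK' : wcOf Ps[n] n = wcOf (P k) k := rfl
  rw [hK'] at hiso hw ⊢
  have hwr : wrapB (P k) = true := hw
  obtain ⟨z, hz1, hz2⟩ := exists_bottom (hPP k)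
  have hbot : (R k).F (z - 1) = z + (R k).lev := by
    rw [hz1, lev_toRing (hPP k)]
  have htour : ∀ c v, v ∈ (wcOf (P c) c).tour ↔ ∃ i j, (R c).Vis i j ∧ v = win (R c).κ i j :=
    fun c v => mem_nodes_win (hPP c) v
  have hwrapiff : ∀ c, (wcOf (P c) c).wrap = true ↔ (R c).Wrap := fun c => wrapB_iff (hPP c)
  have hlv : ∀ c, ((wcOf (P c) c).lv : ℤ) = (R c).lev := fun c => (lev_toRing (hPP c)).symm
  have hlink : ∀ c c', c ≠ c' → (R c).Wrap → (R c').Wrap → (R c).Linked (R c') →
      linked (wcOf (P c) c) (wcOf (P c') c') = true := by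
    intro c c' hne h1 h2 hl
    refine Mix.linked_of_ring (RA := R c') (RK := R c) rfl rfl (hlv c') (hlv c) h2 h1 (htour c')
      (htour c) ?_ hl
    intro h
    apply hne
    exact Fin.ext h
  have hiso' : ∀ c, c ≠ k → (R c).Wrap → ¬ (R k).Linked (R c) := by
    intro c hck hcw hl
    have h1 := hlink k c (Ne.symm hck) ((hwrapiff k).1 hw) hcw hl
    rw [isolated_iff.1 hiso _ (hmem c)] at h1
    exact absurd h1 (by simp)
  have hfam : ∀ A ∈ Ps, ∃ c, P c = A := by
    intro A hA
    obtain ⟨m, hm, rfl⟩ := List.getElem_of_mem hA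
    exact ⟨⟨m, hm⟩, rfl⟩
  have hcert := of_candB_eq_false' P hPP Ps hfam k hwr (hc _ (List.getElem_mem _)) hz2
  have hcert' : (∃ c, VisU R k z ((R k).lev - (R k).w) c ∧ c ≠ k ∧
        (¬ (R c).Wrap ∨ (R c).lev < (R k).lev)) ∨
      ∃ c c', VisU R k z ((R k).lev - (R k).w) c ∧ VisU R k z ((R k).lev - (R k).w) c' ∧
        (R c).Wrap ∧ (R c').Wrap ∧ (R c).Linked (R c') := by
    rcases hcert with ⟨c, h1, h2⟩ | ⟨c, c', h1, h2, h3, h4, h5⟩
    · left
      refine ⟨c, h1, ?_, h2⟩
      rintro rfl
      rcases h2 with h2 | h2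
      · exact h2 ((hwrapiff _).1 hw)
      · exact lt_irrefl _ h2
    · right
      exact ⟨c, c', h1, h2, h4.1, h5.1, h3⟩
  have hnear : ∀ c, Near (R k) (R c) → near (wcOf (P k) k) (wcOf (P c) c) = true := fun c h =>
    (asm_near_iff (hPP k) (hPP c) _ _).2 h
  rcases h4_ring R k z hbot hiso' hcert' with ⟨c, hck, hn, hcc⟩ | ⟨c, hcw, -, d, a, b, hf⟩
  · left
    unfold hasTarget targets
    rw [hiso, cond_true, List.any_eq_true]
    refine ⟨wcOf (P c) c, ?_, hnear c hn⟩
    rw [List.mem_filter]
    refine ⟨hmem c, ?_⟩
    rw [Bool.and_eq_true, decide_eq_true_iff]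
    refine ⟨?_, ?_⟩
    · intro h
      apply hck
      exact Fin.ext h
    · rw [Bool.or_eq_true, Bool.or_eq_true, Bool.not_eq_true', Bool.not_eq_true',
        decide_eq_true_iff]
      rcases hcc with h | ⟨h, c', hc', hw', hl⟩ | h
      · left; left
        rw [← Bool.not_eq_true, hwrapiff]; exact h
      · left; right
        rw [not_isolated_iff]
        exact ⟨wcOf (P c') c', hmem c', hlink c c' (Ne.symm hc') h hw' hl⟩
      · right
        have h1 := hlv c
        have h2 := hlv k
        omega
  · right
    refine ⟨wcOf (P c) c, hmem c, ?_, ?_⟩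
    · rw [← Bool.not_eq_true, hwrapiff]; exact hcw
    · rw [overC_iff]
      refine ⟨win (R c).κ a b, (htour c _).2 ⟨a, b, hf.vis, rfl⟩, ?_⟩
      apply Mix.overW_of_over (K := wcOf (P k) k) (R := R k) rfl ((hwrapiff k).1 hw) (htour k)
        (c := d)
      refine ⟨hf.vis, fun x hx hx' => (hf.ag x hx hx').symm, ?_⟩
      have h1 := hf.far
      have h2 : (R k).F (a - 1 + d) ≤ (R k).F (a + d) := (R k).mono (by omega)
      omega

end Crest.Agent.R287
end

-- ▼ part R287/StarN
section

/-!
Row 287: the list `nodes P` is the path of the ring in path order; the star fact in the form needed by the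
assembly.
-/

set_option autoImplicit false

namespace Crest.Agent.R287

open Asm Crest.Agent.R287.Star

namespace Star

variable {P : PL} (h : IsPRing P)

/-- the column `i` -/
theorem column_eq_pathList (i : ℤ) : column (pz P (i - 1)) (pz P i) =
    pathList (toRing P h) (i + (toRing P h).F (i - 1))
      ((toRing P h).F i - (toRing P h).F (i - 1) + 1).toNat := by
  set A := toRing P h with hA
  have hp1 := List.length_pos_iff.mpr (h.2.1 _ (pz_mem h.1 (i - 1)))
  have hstep := (pz_step' h i).length_le
  rw [List.length_tail] at hstep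
  have hF1 : A.F (i - 1) = i - 1 + (pz P (i - 1)).length := toRing_F h (i - 1)
  have hF2 : A.F i = i + (pz P i).length := toRing_F h i
  unfold column pathList
  have hn : (pz P i).length + 1 - ((pz P (i - 1)).length - 1) = (A.F i - A.F (i - 1) + 1).toNat := by
    omega
  rw [hn]
  apply List.map_congr_left
  intro k hk
  rw [List.mem_range] at hk
  have hvis : A.Vis i (A.F (i - 1) + k) := ⟨by omega, by omega⟩
  have hpt : pt A (i + A.F (i - 1) + k) = (i, A.F (i - 1) + k) := pt_eq' hvis (by ring)
  unfold ptw
  rw [hpt]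
  simp only
  rw [pz_eq_win h i, ← hA, win_take A.κ (i := i) (j := A.F i) _ (by omega)]
  congr 1
  omega

theorem columns_eq_pathList (n : ℕ) :
    ((List.range n).map (fun k : ℕ => (pz P ((k : ℤ) - 1), pz P k))).flatMap
      (fun pq => column pq.1 pq.2) =
    pathList (toRing P h) ((toRing P h).F (-1))
      ((n : ℤ) + (toRing P h).F ((n : ℤ) - 1) - (toRing P h).F (-1)).toNat := by
  set A := toRing P h with hA
  induction n with
  | zero =>
    simp [pathList]
  | succ n ih =>
    rw [List.range_succ, List.map_append, List.flatMap_append, ih, List.map_singleton,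
      List.flatMap_singleton]
    have hm1 := A.mono (show (-1 : ℤ) ≤ (n : ℤ) - 1 by omega)
    have hm2 := A.mono (show (n : ℤ) - 1 ≤ (n : ℤ) by omega)
    have e1 : ((((n + 1 : ℕ) : ℤ)) + A.F (((n + 1 : ℕ) : ℤ) - 1) - A.F (-1)).toNat =
        ((n : ℤ) + A.F ((n : ℤ) - 1) - A.F (-1)).toNat + (A.F n - A.F ((n : ℤ) - 1) + 1).toNat := by
      have : (((n + 1 : ℕ) : ℤ) - 1) = (n : ℤ) := by push_cast; ring
      rw [this]
      push_cast
      omega
    rw [e1, pathList_add]
    congr 1
    rw [column_eq_pathList h]
    congr 1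
    rw [Int.toNat_of_nonneg (by omega)]
    ring

theorem nodes_eq_pathList : nodes P =
    pathList (toRing P h) ((toRing P h).F (-1)) (2 * (toRing P h).w) := by
  set A := toRing P h with hA
  have hz : (lastW P :: P).zip P = cycPairs P := by
    unfold cycPairs lastW
    apply List.ext_getElem
    · simp only [List.length_zip, List.length_cons, List.length_dropLast]
      omega
    · intro n h1 h2
      simp only [List.getElem_zip]
      congr 1
      cases n with
      | zero => rfl
      | succ m =>
        simp only [List.getElem_cons_succ]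
        rw [List.getElem_dropLast]
  unfold nodes
  rw [hz, cycPairs_eq, columns_eq_pathList h, ← hA]
  congr 1
  have hw : (A.w : ℤ) = P.length := rfl
  have h1 := A.Fper (-1)
  rw [← hw]
  rw [show (-1 : ℤ) + A.w = A.w - 1 by ring] at h1
  rw [h1]
  omega

theorem repW_wcOf (n : ℕ) : RepW (wcOf P n) (toRing P h) where
  wt := rfl
  lv := by rw [wcOf_lv, ← lev_toRing h]
  mem := fun v => mem_nodes_win h v

theorem path_wcOf (n : ℕ) : ∃ τ, (wcOf P n).tour = pathList (toRing P h) τ (2 * (toRing P h).w) :=
  ⟨_, nodes_eq_pathList h⟩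

/-- **star fact** in the form of the assembly hypotheses -/
theorem star_cands {V : WC} {A : Ring} (hA : RepW V A)
    (hpath : ∃ τ, V.tour = pathList A τ (2 * A.w)) {L : List WC} (hne : L ≠ []) {R : WC → Ring}
    (hrep : ∀ K ∈ L, RepW K (R K)) (hwrap : ∀ K ∈ L, K.wrap = true)
    (hover : ∀ K ∈ L, overC V K = true) (hnear : ∀ K ∈ L, near K V = false)
    (htext : ∀ K ∈ L, ∀ c, ¬ ∀ x, A.κ x = (R K).κ (x + c)) :
    ∃ r ∈ cands V L, good V L r = true := by
  obtain ⟨τ, hτ⟩ := hpath
  have hw : ∀ K ∈ L, (R K).Wrap := by
    intro K hK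
    have h1 := hwrap K hK
    unfold WC.wrap at h1
    rw [decide_eq_true_iff] at h1
    have h2 := (hrep K hK).wt
    have h3 := (hrep K hK).lv
    unfold Ring.Wrap
    omega
  obtain ⟨t, ht, hg⟩ := star_good hA hτ hne hrep hw hover hnear htext
  refine ⟨_, ?_, hg⟩
  unfold cands
  rw [List.mem_append]
  right
  rw [List.mem_map]
  exact ⟨t, List.mem_range.2 ht, rfl⟩

end Star

end Crest.Agent.R287
end

-- ▼ part R287/GeoGlue
section

/-!
Row 287: the geometric facts `H2`, `H3`, `H4` for the components of a list of P-lists without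
candidate.
-/

set_option autoImplicit false

namespace Crest.Agent.R287

open Asm

/-- a dummy P-list -/
theorem isPRing_dummy : IsPRing [[0]] := by
  refine ⟨by simp, by simp, by simp⟩

open Classical in
/-- the ring of a component -/
noncomputable def ringWC (Ps : List PL) (K : WC) : Ring :=
  if h : IsPRing (Ps.getD K.num []) then toRing _ h else toRing _ isPRing_dummy

theorem ringWC_wcOf {Ps : List PL} {n : ℕ} (hn : n < Ps.length) (h : IsPRing Ps[n]) :
    ringWC Ps (wcOf Ps[n] n) = toRing Ps[n] h := by
  have e : Ps.getD (wcOf Ps[n] n).num [] = Ps[n] := by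
    rw [wcOf_num, List.getD_eq_getElem?_getD, List.getElem?_eq_getElem hn]; rfl
  unfold ringWC
  have h' : IsPRing (Ps.getD (wcOf Ps[n] n).num []) := by rw [e]; exact h
  rw [dif_pos h']
  congr 1

theorem geoHyp_wcsOf (Ps : List PL) (hP : ∀ P ∈ Ps, IsPRing P)
    (hc : ∀ K ∈ Ps, candB Ps K = false) : GeoHyp (wcsOf Ps) := by
  have hrep : ∀ K ∈ wcsOf Ps, RepW K (ringWC Ps K) := by
    intro K hK
    obtain ⟨n, hn, rfl⟩ := mem_wcsOf.1 hK
    have h := hP _ (List.getElem_mem hn)
    rw [ringWC_wcOf hn h]
    exact Star.repW_wcOf h n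
  have hpath : ∀ K ∈ wcsOf Ps, ∃ τ, K.tour = Star.pathList (ringWC Ps K) τ (2 * (ringWC Ps K).w) := by
    intro K hK
    obtain ⟨n, hn, rfl⟩ := mem_wcsOf.1 hK
    have h := hP _ (List.getElem_mem hn)
    rw [ringWC_wcOf hn h]
    exact Star.path_wcOf h n
  have hstar : ∀ V ∈ wcsOf Ps, ∀ L : List WC, L ≠ [] → (∀ K ∈ L, K ∈ wcsOf Ps) → L.Nodup →
      (∀ K ∈ L, K.wrap = true ∧ overC V K = true ∧ near K V = false ∧
        ∀ c, ¬ ∀ x, (ringWC Ps V).κ x = (ringWC Ps K).κ (x + c)) →
      ∃ r ∈ cands V L, good V L r = true := by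
    intro V hV L hne hL _ h
    exact Star.star_cands (hrep V hV) (hpath V hV) hne (fun K hK => hrep K (hL K hK))
      (fun K hK => (h K hK).1) (fun K hK => (h K hK).2.1) (fun K hK => (h K hK).2.2.1)
      (fun K hK => (h K hK).2.2.2)
  exact
    { h2 := h2_of_rings (wcsOf Ps) (wcsOf_nodup Ps) (ringWC Ps) (fun K hK => (hrep K hK).wt)
        (fun K hK => (hrep K hK).lv) (fun K hK => (hrep K hK).mem) hstar
      h3 := h3_of_rings (wcsOf Ps) (wcsOf_nodup Ps) (ringWC Ps) (fun K hK => (hrep K hK).wt)
        (fun K hK => (hrep K hK).lv) (fun K hK => (hrep K hK).mem) hstar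
      h4 := asm_h4 Ps hP hc }

end Crest.Agent.R287
end

-- ▼ part R287/InvSize
section

/-!
# Row 287: size bounds for the states of the one-pass process

Potential: (number of words) + `m` times (number of open chains) + pending demands + pending inputs.
-/

set_option autoImplicit false

namespace Crest.Agent.R287

namespace Sz

/-- number of words of a state -/
def nw (st : St) : ℕ := (st.1 ++ st.2).flatten.length

/-- pending demand of a ring before level `m` -/
def pend (m : ℕ) (K : PL) : ℕ := if levN K ≤ m + K.length then levN K - K.length else 0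

/-- pending inputs before level `m` -/
def pendIn (S : List Word) (m : ℕ) : ℕ := ((S.map List.length).filter (fun n => n ≤ m)).sum

/-- the potential before level `m` -/
def pot (S : List Word) (m : ℕ) (st : St) : ℕ :=
  nw st + m * st.1.length + (st.2.map (pend m)).sum + pendIn S m

theorem nw_eq (st : St) : nw st = st.1.flatten.length + st.2.flatten.length := by
  unfold nw
  rw [List.flatten_append, List.length_append]

theorem pend_le (m : ℕ) (K : PL) : pend m K ≤ m := by
  unfold pend; split_ifs <;> omega

theorem pend_succ (m : ℕ) (K : PL) :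
    pend m K + (if levN K = m + 1 + K.length then m + 1 else 0) ≤ pend (m + 1) K := by
  unfold pend; split_ifs <;> omega

theorem pendIn_succ (S : List Word) (m : ℕ) :
    pendIn S m + (S.countP (fun s => s.length = m + 1)) * (m + 1) ≤ pendIn S (m + 1) := by
  unfold pendIn
  induction S with
  | nil => simp
  | cons s S ih =>
    simp only [List.map_cons, List.filter_cons, List.countP_cons, decide_eq_true_eq]
    by_cases h1 : s.length ≤ m
    · have h2 : s.length ≤ m + 1 := by omega
      have h3 : ¬ s.length = m + 1 := by omega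
      simp only [h1, h2, h3, if_true, if_false, List.sum_cons, Nat.add_zero]
      omega
    · by_cases h3 : s.length = m + 1
      · have h4 : ¬ m + 1 ≤ m := by omega
        simp only [h3, h4, if_true, if_false, List.sum_cons, le_refl]
        rw [Nat.add_mul]
        omega
      · have h2 : ¬ s.length ≤ m + 1 := by omega
        simp only [h1, h2, h3, if_false, Nat.add_zero]
        omega

theorem flatten_ext_length (l : List PL) :
    (l.map ext).flatten.length = l.flatten.length + l.length := by
  induction l with
  | nil => rfl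
  | cons X l ih =>
    simp only [List.map_cons, List.flatten_cons, List.length_append, List.length_cons, ih, ext,
      List.length_nil]
    omega

/-- effect of the issues on `nw + m * #opens` -/
theorem issue_fold (m : ℕ) (R : List PL) (st : St) :
    nw (R.foldl (issue (m + 1)) st) + m * (R.foldl (issue (m + 1)) st).1.length ≤
      nw st + m * st.1.length + (R.map (fun K => if levN K = m + 1 + K.length then m + 1 else 0)).sum ∧
    (R.foldl (issue (m + 1)) st).2 = st.2 := by
  induction R generalizing st with
  | nil => simp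
  | cons K R ih =>
    simp only [List.foldl_cons, List.map_cons, List.sum_cons]
    obtain ⟨h1, h2⟩ := ih (issue (m + 1) st K)
    have h3 : nw (issue (m + 1) st K) + m * (issue (m + 1) st K).1.length ≤
        nw st + m * st.1.length + (if levN K = m + 1 + K.length then m + 1 else 0) ∧
        (issue (m + 1) st K).2 = st.2 := by
      unfold issue
      split_ifs with h h' h'
      · refine ⟨?_, rfl⟩
        rw [nw_eq, nw_eq]
        simp only [List.flatten_cons, List.length_append, List.length_cons, List.length_nil]
        rw [Nat.mul_add]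
        omega
      · exfalso
        simp only [Bool.and_eq_true, decide_eq_true_eq] at h
        exact h' h.1
      · exact ⟨by omega, rfl⟩
      · exact ⟨by omega, rfl⟩
    refine ⟨?_, h2.trans h3.2⟩
    have := h3.1
    omega

theorem addInput_fold (m : ℕ) (S : List Word) (st : St) :
    nw (S.foldl (addInput (m + 1)) st) + m * (S.foldl (addInput (m + 1)) st).1.length ≤
      nw st + m * st.1.length + (S.countP (fun s => s.length = m + 1)) * (m + 1) ∧
    (S.foldl (addInput (m + 1)) st).2 = st.2 := by
  induction S generalizing st with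
  | nil => simp
  | cons s S ih =>
    simp only [List.foldl_cons, List.countP_cons, decide_eq_true_eq]
    obtain ⟨h1, h2⟩ := ih (addInput (m + 1) st s)
    have h3 : nw (addInput (m + 1) st s) + m * (addInput (m + 1) st s).1.length ≤
        nw st + m * st.1.length + (if s.length = m + 1 then 1 else 0) * (m + 1) ∧
        (addInput (m + 1) st s).2 = st.2 := by
      unfold addInput
      split_ifs with h h' h'
      · refine ⟨?_, rfl⟩
        rw [nw_eq, nw_eq]
        simp only [List.flatten_cons, List.length_append, List.length_cons, List.length_nil]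
        rw [Nat.mul_add]
        omega
      · exfalso
        simp only [Bool.and_eq_true, decide_eq_true_eq] at h
        exact h' h.1
      · exact ⟨by omega, rfl⟩
      · exact ⟨by omega, rfl⟩
    refine ⟨?_, h2.trans h3.2⟩
    have := h3.1
    rw [Nat.add_mul]
    omega

theorem insertOpen_length (X : PL) (acc : List PL) : (insertOpen X acc).length ≤ acc.length + 1 := by
  unfold insertOpen pick
  simp only [List.length_cons]
  have h1 := List.length_eraseP_le (l := acc) (p := fun Y => linkB X Y)
  have h2 := List.length_eraseP_le (l := acc.eraseP (fun Y => linkB X Y))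
    (p := fun Z => linkB Z (X ++ (acc.find? (fun Y => linkB X Y)).getD []))
  omega

theorem mergeAll_length (l : List PL) : (mergeAll l).length ≤ l.length := by
  unfold mergeAll
  induction l with
  | nil => simp
  | cons X l ih =>
    rw [List.foldr_cons, List.length_cons]
    have := insertOpen_length X (List.foldr insertOpen [] l)
    omega

theorem close_length (l : List PL) :
    (l.filter (fun X => !linkB X X)).flatten.length + (l.filter (fun X => linkB X X)).flatten.length =
      l.flatten.length := by
  induction l with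
  | nil => rfl
  | cons X l ih =>
    by_cases h : linkB X X = true
    · simp [h]; simp at ih; omega
    · simp only [Bool.not_eq_true] at h
      simp [h]; simp at ih; omega

theorem close_count (l : List PL) (m : ℕ) :
    m * (l.filter (fun X => !linkB X X)).length +
      ((l.filter (fun X => linkB X X)).map (pend m)).sum ≤ m * l.length := by
  induction l with
  | nil => simp
  | cons X l ih =>
    have hp := pend_le m X
    by_cases h : linkB X X = true
    · simp only [h, List.filter_cons, Bool.not_true, if_true, List.map_cons, List.sum_cons,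
        List.length_cons, Nat.mul_add, Bool.false_eq_true, if_false] at ih ⊢
      omega
    · simp only [Bool.not_eq_true] at h
      simp only [h, List.filter_cons, Bool.not_false, if_true, List.length_cons, Nat.mul_add,
        Bool.false_eq_true, if_false] at ih ⊢
      omega

/-- the potential does not increase -/
theorem pot_level (S : List Word) (m : ℕ) (st : St) :
    pot S m (level S (m + 1) st) ≤ pot S (m + 1) st := by
  set st1 : St := (st.1.map ext, st.2) with hst1
  set st2 : St := st1.2.foldl (issue (m + 1)) st1 with hst2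
  set st3 : St := S.foldl (addInput (m + 1)) st2 with hst3
  set op := mergeAll st3.1 with hop
  have hlev : level S (m + 1) st = (op.filter (fun X => !linkB X X),
    st3.2 ++ op.filter (fun X => linkB X X)) := rfl
  obtain ⟨a1, a2⟩ := issue_fold m st1.2 st1
  obtain ⟨b1, b2⟩ := addInput_fold m S st2
  rw [← hst2] at a1 a2
  rw [← hst3] at b1 b2
  have e2 : st3.2 = st.2 := by rw [b2, a2]
  have c1 : nw st1 = nw st + st.1.length := by
    rw [nw_eq, nw_eq, hst1]
    simp only [flatten_ext_length]
    omega
  have c2 : st1.1.length = st.1.length := by rw [hst1]; simp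
  have c3 : st1.2 = st.2 := rfl
  have d1 : op.flatten.length = st3.1.flatten.length := (mergeAll_flatten st3.1).length_eq
  have d2 : op.length ≤ st3.1.length := mergeAll_length _
  have d3 := close_length op
  have d4 := close_count op m
  have f1 := pendIn_succ S m
  have f2 : (st.2.map (pend m)).sum +
      (st.2.map (fun K => if levN K = m + 1 + K.length then m + 1 else 0)).sum ≤
      (st.2.map (pend (m + 1))).sum := by
    induction st.2 with
    | nil => simp
    | cons K R ih =>
      have := pend_succ m K
      simp only [List.map_cons, List.sum_cons]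
      omega
  unfold pot
  rw [hlev, nw_eq]
  simp only [List.map_append, List.sum_append, List.flatten_append, List.length_append]
  rw [e2]
  rw [nw_eq st3, e2] at b1
  rw [c3] at a1
  rw [c1, c2] at a1
  have d5 : m * op.length ≤ m * st3.1.length := Nat.mul_le_mul_left m d2
  have g : (m + 1) * st.1.length = m * st.1.length + st.1.length := by ring
  rw [g]
  omega

theorem pot_stt (S : List Word) (i : ℕ) (hi : i ≤ maxLen S) :
    pot S (maxLen S - i) (stt S i) ≤ (S.map List.length).sum := by
  induction i with
  | zero =>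
    unfold pot
    simp only [stt, nw, pendIn, List.append_nil, List.flatten_nil, List.length_nil, Nat.mul_zero,
      List.map_nil, List.sum_nil, Nat.zero_add, Nat.sub_zero]
    generalize maxLen S = N
    induction S with
    | nil => simp
    | cons s S ih =>
      simp only [List.map_cons, List.filter_cons, List.sum_cons]
      split_ifs
      · simp only [List.sum_cons]
        have := ih (Nat.zero_le _)
        omega
      · have := ih (Nat.zero_le _)
        omega
  | succ i ih =>
    have h1 := ih (by omega)
    have h2 : maxLen S - i = (maxLen S - (i + 1)) + 1 := by omega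
    have h3 : stt S (i + 1) = level S (maxLen S - i) (stt S i) := rfl
    rw [h3, h2]
    have h4 := pot_level S (maxLen S - (i + 1)) (stt S i)
    rw [h2] at h1
    omega

/-! ### the words are factors of the inputs -/

/-- structural part of the bound -/
def Good (S : List Word) (st : St) : Prop :=
  ∀ X ∈ st.1 ++ st.2, X ≠ [] ∧ ∀ p ∈ X, ∃ s ∈ S, p <:+: s

theorem lastW_mem' {X : PL} (h : X ≠ []) : lastW X ∈ X := by
  unfold lastW
  rw [List.getLastD_eq_getLast?, List.getLast?_eq_some_getLast h]
  exact List.getLast_mem h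

theorem good_ext {S : List Word} {st : St} (h : Good S st) : Good S (st.1.map ext, st.2) := by
  intro X hX
  rcases List.mem_append.1 hX with hX | hX
  · obtain ⟨Y, hY, rfl⟩ := List.mem_map.1 hX
    obtain ⟨h1, h2⟩ := h Y (List.mem_append_left _ hY)
    refine ⟨by simp [ext], ?_⟩
    intro p hp
    unfold ext at hp
    rcases List.mem_append.1 hp with hp | hp
    · exact h2 p hp
    · simp only [List.mem_singleton] at hp
      obtain ⟨s, hs, hs'⟩ := h2 _ (lastW_mem' h1)
      exact ⟨s, hs, hp ▸ (List.tail_suffix _).isInfix.trans hs'⟩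
  · exact h X (List.mem_append_right _ hX)

theorem good_issue {S : List Word} {m : ℕ} {st : St} (h : Good S st) {K : PL} (hK : K ∈ st.2) :
    Good S (issue m st K) := by
  unfold issue
  split_ifs
  · intro X hX
    simp only [List.cons_append, List.mem_cons] at hX
    rcases hX with rfl | hX
    · refine ⟨by simp, ?_⟩
      intro p hp
      simp only [List.mem_singleton] at hp
      subst hp
      obtain ⟨h1, h2⟩ := h K (List.mem_append_right _ hK)
      unfold xw bottom
      cases hf : K.find? (fun p => p.length - 1 == levN K) with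
      | none =>
        obtain ⟨s, hs, -⟩ := h2 _ (lastW_mem' h1)
        exact ⟨s, hs, by simp⟩
      | some q =>
        obtain ⟨s, hs, hs'⟩ := h2 q (List.mem_of_find?_eq_some hf)
        refine ⟨s, hs, ?_⟩
        simp only [Option.getD_some]
        exact ((List.take_prefix _ _).isInfix.trans (List.tail_suffix _).isInfix).trans hs'
    · exact h X hX
  · exact h

theorem good_issue_fold {S : List Word} {m : ℕ} (R : List PL) {st : St} (h : Good S st)
    (hR : ∀ K ∈ R, K ∈ st.2) : Good S (R.foldl (issue m) st) := by
  induction R generalizing st with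
  | nil => exact h
  | cons K R ih =>
    rw [List.foldl_cons]
    apply ih (good_issue h (hR K List.mem_cons_self))
    intro K' hK'
    have h2 : (issue m st K).2 = st.2 := by unfold issue; split_ifs <;> rfl
    rw [h2]
    exact hR K' (List.mem_cons_of_mem _ hK')

theorem good_addInput {S : List Word} {m : ℕ} {st : St} (h : Good S st) {s : Word} (hs : s ∈ S) :
    Good S (addInput m st s) := by
  unfold addInput
  split_ifs
  · intro X hX
    simp only [List.cons_append, List.mem_cons] at hX
    rcases hX with rfl | hX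
    · refine ⟨by simp, ?_⟩
      intro p hp
      simp only [List.mem_singleton] at hp
      exact ⟨s, hs, hp ▸ List.infix_refl _⟩
    · exact h X hX
  · exact h

theorem good_addInput_fold {S : List Word} {m : ℕ} (S' : List Word) {st : St} (h : Good S st)
    (hS : ∀ s ∈ S', s ∈ S) : Good S (S'.foldl (addInput m) st) := by
  induction S' generalizing st with
  | nil => exact h
  | cons s S' ih =>
    rw [List.foldl_cons]
    exact ih (good_addInput h (hS s List.mem_cons_self)) (fun t ht => hS t (List.mem_cons_of_mem _ ht))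

theorem good_merge {S : List Word} {st : St} (h : Good S st) :
    Good S ((mergeAll st.1).filter (fun X => !linkB X X),
      st.2 ++ (mergeAll st.1).filter (fun X => linkB X X)) := by
  have key : ∀ X ∈ mergeAll st.1, X ≠ [] ∧ ∀ p ∈ X, ∃ s ∈ S, p <:+: s := by
    intro X hX
    refine ⟨mergeAll_ne_nil (fun Y hY => (h Y (List.mem_append_left _ hY)).1) X hX, ?_⟩
    intro p hp
    have h1 : p ∈ (mergeAll st.1).flatten := List.mem_flatten.2 ⟨X, hX, hp⟩
    have h2 : p ∈ st.1.flatten := (mergeAll_flatten st.1).mem_iff.1 h1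
    obtain ⟨Y, hY, hpY⟩ := List.mem_flatten.1 h2
    exact (h Y (List.mem_append_left _ hY)).2 p hpY
  intro X hX
  simp only [List.mem_append, List.mem_filter] at hX
  rcases hX with ⟨hX, -⟩ | hX | ⟨hX, -⟩
  · exact key X hX
  · exact h X (List.mem_append_right _ hX)
  · exact key X hX

theorem good_level {S : List Word} {m : ℕ} {st : St} (h : Good S st) : Good S (level S m st) := by
  unfold level
  apply good_merge
  apply good_addInput_fold S _ (fun s hs => hs)
  exact good_issue_fold _ (good_ext h) (fun K hK => hK)

theorem good_stt (S : List Word) (i : ℕ) : Good S (stt S i) := by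
  induction i with
  | zero => intro X hX; simp [stt] at hX
  | succ i ih => exact good_level ih

end Sz

/-- **(D)** size bound for all states -/
theorem sttBd (S : List Word) : SttBd S := by
  intro i hi
  refine ⟨?_, Sz.good_stt S i⟩
  have h1 := Sz.pot_stt S i hi
  unfold Sz.pot Sz.nw at h1
  omega

end Crest.Agent.R287
end

-- ▼ part R287/InvFinal
section

/-!
# Row 287: evolution of the one-pass process, no candidate is left

`Evo m st st'`: closed rings persist, and every open chain of `st` is a block of an open chain of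
`st'` or of a closed ring of `st'` whose last word has length `≤ m`.
-/

set_option autoImplicit false

namespace Crest.Agent.R287.IFin

theorem lastW_append {X Y : PL} (h : Y ≠ []) : lastW (X ++ Y) = lastW Y := by
  unfold lastW
  cases Y with
  | nil => exact absurd rfl h
  | cons a l =>
    rw [List.getLastD_eq_getLast?, List.getLastD_eq_getLast?, List.getLast?_append]
    simp [List.getLast?_cons]

theorem lastW_mem {X : PL} (h : X ≠ []) : lastW X ∈ X := by
  unfold lastW
  rw [List.getLastD_eq_getLast?, List.getLast?_eq_some_getLast h]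
  exact List.getLast_mem h

/-- `X` is a block of `Z`; the word before the block (if any) has length `≤ m` -/
def Blk (m : ℕ) (X Z : PL) : Prop :=
  ∃ pre post, Z = pre ++ X ++ post ∧ (pre = [] ∨ (lastW pre).length ≤ m)

theorem Blk.refl (m : ℕ) (X : PL) : Blk m X X := ⟨[], [], by simp, Or.inl rfl⟩

theorem Blk.trans {m : ℕ} {X Y Z : PL} (h : Blk m X Y) (h' : Blk m Y Z) : Blk m X Z := by
  obtain ⟨p, q, rfl, hp⟩ := h
  obtain ⟨p', q', rfl, hp'⟩ := h'
  refine ⟨p' ++ p, q ++ q', by simp, ?_⟩
  by_cases hpe : p = []
  · subst hpe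
    simpa using hp'
  · right
    rw [lastW_append hpe]
    exact hp.resolve_left hpe

theorem blk_ext (m : ℕ) (X : PL) : Blk m X (ext X) := ⟨[], [(lastW X).tail], by simp [ext], Or.inl rfl⟩

/-! ### merging -/

theorem pick_fst (p : PL → Bool) (acc : List PL) :
    ((pick p acc).1 = [] ∧ (pick p acc).2 = acc) ∨
    ((pick p acc).1 ∈ acc ∧ p (pick p acc).1 = true ∧
      ∃ A B, acc = A ++ (pick p acc).1 :: B ∧ (pick p acc).2 = A ++ B) := by
  unfold pick
  cases hf : acc.find? p with
  | none =>
    left
    refine ⟨rfl, ?_⟩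
    rw [List.find?_eq_none] at hf
    exact List.eraseP_of_forall_not (fun a ha => by simpa using hf a ha)
  | some Y =>
    right
    have h1 := List.mem_of_find?_eq_some hf
    have h2 := List.find?_some hf
    refine ⟨h1, h2, ?_⟩
    simp only [Option.getD_some]
    rw [List.find?_eq_some_iff_append] at hf
    obtain ⟨_, A, B, rfl, hA⟩ := hf
    refine ⟨A, B, rfl, ?_⟩
    rw [List.eraseP_append_right _ (fun a ha => by simpa using hA a ha)]
    simp [h2]

theorem pick_mem (p : PL → Bool) (acc : List PL) {Z : PL} (hZ : Z ∈ acc) :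
    Z = (pick p acc).1 ∨ Z ∈ (pick p acc).2 := by
  rcases pick_fst p acc with ⟨_, h2⟩ | ⟨_, _, A, B, h3, h4⟩
  · right; rw [h2]; exact hZ
  · rw [h3] at hZ
    rw [h4]
    simp only [List.mem_append, List.mem_cons] at hZ ⊢
    tauto

theorem pick_snd_subset (p : PL → Bool) (acc : List PL) {Z : PL} (hZ : Z ∈ (pick p acc).2) :
    Z ∈ acc := by
  rcases pick_fst p acc with ⟨_, h2⟩ | ⟨_, _, A, B, h3, h4⟩
  · rwa [h2] at hZ
  · rw [h4] at hZ
    rw [h3]
    simp only [List.mem_append, List.mem_cons] at hZ ⊢
    tauto

/-- facts about `mergeAll` needed for the evolution -/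
theorem mergeAll_spec (m : ℕ) (l : List PL) (hl : ∀ X ∈ l, X ≠ [] ∧ (lastW X).length ≤ m) :
    (∀ Z ∈ mergeAll l, Z ≠ [] ∧ (lastW Z).length ≤ m ∧ ∃ Y ∈ l, lastW Z = lastW Y) ∧
    ∀ X ∈ l, ∃ Z ∈ mergeAll l, Blk m X Z := by
  induction l with
  | nil => simp [mergeAll]
  | cons X l ih =>
    have hX := hl X (by simp)
    obtain ⟨ih1, ih2⟩ := ih (fun Y hY => hl Y (by simp [hY]))
    have hmc : mergeAll (X :: l) = insertOpen X (mergeAll l) := rfl
    rw [hmc]
    set acc := mergeAll l with hacc
    unfold insertOpen
    simp only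
    set r := pick (fun Y => linkB X Y) acc with hr
    set q := pick (fun Z => linkB Z (X ++ r.1)) r.2 with hq
    have hX1 : X ++ r.1 ≠ [] := by simp [hX.1]
    -- last of the new member
    have hr1 : r.1 = [] ∨ r.1 ∈ acc := by
      rcases pick_fst (fun Y => linkB X Y) acc with h | h
      · left; exact h.1
      · right; exact h.1
    have hr2 : ∀ Z ∈ r.2, Z ∈ acc := fun Z hZ => pick_snd_subset _ _ hZ
    have hq1 : q.1 = [] ∨ q.1 ∈ acc := by
      rcases pick_fst (fun Z => linkB Z (X ++ r.1)) r.2 with h | h
      · left; exact h.1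
      · right; exact hr2 _ h.1
    have hq2 : ∀ Z ∈ q.2, Z ∈ acc := fun Z hZ => hr2 _ (pick_snd_subset _ _ hZ)
    have hlastX1 : (lastW (X ++ r.1)).length ≤ m ∧ ∃ Y ∈ X :: l, lastW (X ++ r.1) = lastW Y := by
      by_cases hre : r.1 = []
      · rw [hre, List.append_nil]
        exact ⟨hX.2, X, by simp, rfl⟩
      · rw [lastW_append hre]
        obtain ⟨_, h2, Y, hY, h3⟩ := ih1 _ (hr1.resolve_left hre)
        exact ⟨h2, Y, by simp [hY], h3⟩
    constructor
    · intro Z hZ
      rw [List.mem_cons] at hZ
      rcases hZ with rfl | hZ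
      · refine ⟨by simp [hX.1], ?_⟩
        rw [lastW_append hX1]
        exact hlastX1
      · obtain ⟨h1, h2, Y, hY, h3⟩ := ih1 Z (hq2 Z hZ)
        exact ⟨h1, h2, Y, by simp [hY], h3⟩
    · intro Y hY
      rw [List.mem_cons] at hY
      have hnew : ∀ W, (W = X ∨ W = r.1 ∨ W = q.1) → Blk m W (q.1 ++ (X ++ r.1)) := by
        intro W hW
        have hqlast : q.1 = [] ∨ (lastW q.1).length ≤ m := by
          rcases hq1 with h | h
          · exact Or.inl h
          · exact Or.inr (ih1 _ h).2.1
        rcases hW with rfl | rfl | rfl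
        · exact ⟨q.1, r.1, by simp, hqlast⟩
        · refine ⟨q.1 ++ X, [], by simp, ?_⟩
          right
          rw [lastW_append hX.1]
          exact hX.2
        · exact ⟨[], X ++ r.1, by simp, Or.inl rfl⟩
      rcases hY with rfl | hY
      · exact ⟨q.1 ++ (Y ++ r.1), by simp, hnew Y (Or.inl rfl)⟩
      · obtain ⟨Z, hZ, hYZ⟩ := ih2 Y hY
        rcases pick_mem (fun Y => linkB X Y) acc hZ with h | h
        · exact ⟨_, List.mem_cons_self, hYZ.trans (hnew Z (Or.inr (Or.inl h)))⟩
        · rcases pick_mem (fun Z => linkB Z (X ++ r.1)) r.2 h with h' | h'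
          · exact ⟨_, List.mem_cons_self, hYZ.trans (hnew Z (Or.inr (Or.inr h')))⟩
          · exact ⟨Z, by simp only [List.mem_cons]; right; exact h', hYZ⟩

/-! ### evolution -/

/-- all open chains are nonempty and their last words have length `n` -/
def LastInv (n : ℕ) (st : St) : Prop := ∀ X ∈ st.1, X ≠ [] ∧ (lastW X).length = n

/-- evolution relation -/
structure Evo (m : ℕ) (st st' : St) : Prop where
  rings : ∀ P ∈ st.2, P ∈ st'.2
  opens : ∀ X ∈ st.1, (∃ Z ∈ st'.1, Blk m X Z) ∨
    ∃ V ∈ st'.2, Blk m X V ∧ V ≠ [] ∧ (lastW V).length ≤ m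

theorem Evo.refl (m : ℕ) (st : St) : Evo m st st :=
  ⟨fun _ h => h, fun X hX => Or.inl ⟨X, hX, Blk.refl m X⟩⟩

theorem Evo.trans {m : ℕ} {st st' st'' : St} (h : Evo m st st') (h' : Evo m st' st'') :
    Evo m st st'' := by
  refine ⟨fun P hP => h'.rings _ (h.rings _ hP), fun X hX => ?_⟩
  rcases h.opens X hX with ⟨Z, hZ, hXZ⟩ | ⟨V, hV, hXV, hl⟩
  · rcases h'.opens Z hZ with ⟨Z', hZ', hZZ'⟩ | ⟨V, hV, hZV, hl⟩
    · exact Or.inl ⟨Z', hZ', hXZ.trans hZZ'⟩
    · exact Or.inr ⟨V, hV, hXZ.trans hZV, hl⟩
  · exact Or.inr ⟨V, h'.rings _ hV, hXV, hl⟩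

theorem evo_ext (m : ℕ) (st : St) : Evo m st (st.1.map ext, st.2) :=
  ⟨fun _ h => h, fun X hX => Or.inl ⟨ext X, List.mem_map_of_mem hX, blk_ext m X⟩⟩

theorem evo_issue (m m' : ℕ) (st : St) (K : PL) : Evo m st (issue m' st K) := by
  unfold issue
  split_ifs
  · exact ⟨fun _ h => h, fun X hX => Or.inl ⟨X, List.mem_cons_of_mem _ hX, Blk.refl m X⟩⟩
  · exact Evo.refl m st

theorem evo_addInput (m m' : ℕ) (st : St) (s : Word) : Evo m st (addInput m' st s) := by
  unfold addInput
  split_ifs
  · exact ⟨fun _ h => h, fun X hX => Or.inl ⟨X, List.mem_cons_of_mem _ hX, Blk.refl m X⟩⟩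
  · exact Evo.refl m st

theorem evo_foldl {α : Type*} (m : ℕ) (f : St → α → St) (hf : ∀ st a, Evo m st (f st a))
    (l : List α) (st : St) : Evo m st (l.foldl f st) := by
  induction l generalizing st with
  | nil => exact Evo.refl m st
  | cons a l ih => exact (hf st a).trans (ih _)

theorem issue_snd (m : ℕ) (st : St) (K : PL) : (issue m st K).2 = st.2 := by
  unfold issue; split_ifs <;> rfl

theorem addInput_snd (m : ℕ) (st : St) (s : Word) : (addInput m st s).2 = st.2 := by
  unfold addInput; split_ifs <;> rfl

theorem foldl_snd {α : Type*} (f : St → α → St) (hf : ∀ st a, (f st a).2 = st.2)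
    (l : List α) (st : St) : (l.foldl f st).2 = st.2 := by
  induction l generalizing st with
  | nil => rfl
  | cons a l ih => rw [List.foldl_cons, ih, hf]

/-! ### lengths -/

theorem foldr_min_le (l : List ℕ) (b : ℕ) : l.foldr min b ≤ b ∧ ∀ a ∈ l, l.foldr min b ≤ a := by
  induction l with
  | nil => simp
  | cons c l ih =>
    simp only [List.foldr_cons]
    refine ⟨(min_le_right _ _).trans ih.1, ?_⟩
    intro a ha
    rw [List.mem_cons] at ha
    rcases ha with rfl | ha
    · exact min_le_left _ _
    · exact (min_le_right _ _).trans (ih.2 a ha)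

theorem foldr_min_mem (l : List ℕ) (b : ℕ) : l.foldr min b = b ∨ l.foldr min b ∈ l := by
  induction l with
  | nil => simp
  | cons c l ih =>
    simp only [List.foldr_cons]
    rcases min_choice c (l.foldr min b) with h | h
    · right; rw [h]; simp
    · rw [h]
      rcases ih with h' | h'
      · left; exact h'
      · right; simp [h']

theorem levN_le {P : PL} {p : Word} (hp : p ∈ P) : levN P ≤ p.length - 1 := by
  unfold levN
  exact (foldr_min_le _ _).2 _ (List.mem_map_of_mem (f := fun p : Word => p.length - 1) hp)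

theorem exists_levN {P : PL} (hP : P ≠ []) (h1 : 1 ≤ levN P) :
    ∃ p ∈ P, p.length - 1 = levN P := by
  rcases foldr_min_mem (P.map fun p => p.length - 1) (headW P).length with h | h
  · exfalso
    cases P with
    | nil => exact hP rfl
    | cons a l =>
      have h2 : levN (a :: l) = (headW (a :: l)).length := h
      have h3 := levN_le (P := a :: l) (p := a) (by simp)
      simp only [headW, List.headD_cons] at h2
      omega
  · rw [List.mem_map] at h
    obtain ⟨p, hp, h2⟩ := h
    exact ⟨p, hp, h2⟩

theorem length_bottom {P : PL} (hP : P ≠ []) (h1 : 1 ≤ levN P) : (bottom P).length = levN P := by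
  obtain ⟨p, hp, h2⟩ := exists_levN hP h1
  unfold bottom
  cases hf : P.find? fun p => p.length - 1 == levN P with
  | none =>
    rw [List.find?_eq_none] at hf
    exact absurd (by simpa using h2) (hf p hp)
  | some q =>
    have h3 := List.find?_some hf
    simp only [beq_iff_eq] at h3
    simp only [Option.getD_some, List.length_tail]
    exact h3

theorem length_xw {P : PL} {m : ℕ} (hm : 1 ≤ m) (h : levN P = m + P.length) :
    (xw P).length = m := by
  have hP : P ≠ [] := by
    rintro rfl
    simp [levN, headW] at h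
    omega
  unfold xw
  rw [List.length_take, length_bottom hP (by omega)]
  omega

theorem lastInv_ext {n : ℕ} {st : St} (h : LastInv (n + 1) st) : LastInv n (st.1.map ext, st.2) := by
  intro X hX
  rw [List.mem_map] at hX
  obtain ⟨Y, hY, rfl⟩ := hX
  obtain ⟨h1, h2⟩ := h Y hY
  refine ⟨by simp [ext], ?_⟩
  unfold ext
  rw [lastW_append (by simp)]
  simp [lastW] at h2 ⊢
  omega

theorem lastInv_issue {m : ℕ} (hm : 1 ≤ m) {st : St} (h : LastInv m st) (K : PL) :
    LastInv m (issue m st K) := by
  unfold issue
  split_ifs with hc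
  · intro X hX
    rw [List.mem_cons] at hX
    rcases hX with rfl | hX
    · simp only [Bool.and_eq_true, decide_eq_true_eq] at hc
      exact ⟨by simp, by simpa [lastW] using length_xw hm hc.1⟩
    · exact h X hX
  · exact h

theorem lastInv_addInput {m : ℕ} {st : St} (h : LastInv m st) (s : Word) :
    LastInv m (addInput m st s) := by
  unfold addInput
  split_ifs with hc
  · intro X hX
    rw [List.mem_cons] at hX
    rcases hX with rfl | hX
    · simp only [Bool.and_eq_true, decide_eq_true_eq] at hc
      exact ⟨by simp, by simpa [lastW] using hc.1⟩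
    · exact h X hX
  · exact h

theorem lastInv_foldl {α : Type*} {m : ℕ} (f : St → α → St)
    (hf : ∀ st a, LastInv m st → LastInv m (f st a))
    (l : List α) (st : St) (h : LastInv m st) : LastInv m (l.foldl f st) := by
  induction l generalizing st with
  | nil => exact h
  | cons a l ih => exact ih _ (hf st a h)

/-- the state inside level `m` after the extension of the open chains -/
def stExt (st : St) : St := (st.1.map ext, st.2)
/-- the state inside level `m` after issuing -/
def stIss (m : ℕ) (st : St) : St := (stExt st).2.foldl (issue m) (stExt st)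
/-- the state inside level `m` after adding the inputs -/
def stInp (S : List Word) (m : ℕ) (st : St) : St := S.foldl (addInput m) (stIss m st)
/-- the merged open chains -/
def stOp (S : List Word) (m : ℕ) (st : St) : List PL := mergeAll (stInp S m st).1

theorem level_eq (S : List Word) (m : ℕ) (st : St) :
    level S m st = ((stOp S m st).filter (fun X => !linkB X X),
      (stInp S m st).2 ++ (stOp S m st).filter (fun X => linkB X X)) := rfl

theorem stInp_snd (S : List Word) (m : ℕ) (st : St) : (stInp S m st).2 = st.2 := by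
  unfold stInp stIss
  rw [foldl_snd _ (addInput_snd m), foldl_snd _ (issue_snd m)]
  rfl

theorem lastInv_stInp {m : ℕ} (hm : 1 ≤ m) (S : List Word) {st : St} (h : LastInv (m + 1) st) :
    LastInv m (stInp S m st) :=
  lastInv_foldl _ (fun _ s h => lastInv_addInput h s) _ _
    (lastInv_foldl _ (fun _ K h => lastInv_issue hm h K) _ _ (lastInv_ext h))

theorem evo_close {m m' : ℕ} (hm : m' ≤ m) (S : List Word) (st : St)
    (h : LastInv m' (stInp S m' st)) : Evo m (stInp S m' st) (level S m' st) := by
  have hspec := mergeAll_spec m (stInp S m' st).1 (fun X hX => ⟨(h X hX).1, by rw [(h X hX).2]; exact hm⟩)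
  rw [level_eq]
  refine ⟨fun P hP => List.mem_append_left _ hP, fun X hX => ?_⟩
  obtain ⟨Z, hZ, hXZ⟩ := hspec.2 X hX
  by_cases hl : linkB Z Z = true
  · right
    exact ⟨Z, List.mem_append_right _ (List.mem_filter.mpr ⟨hZ, hl⟩), hXZ, (hspec.1 Z hZ).1,
      (hspec.1 Z hZ).2.1⟩
  · left
    exact ⟨Z, List.mem_filter.mpr ⟨hZ, by simpa using hl⟩, hXZ⟩

theorem lastInv_level {m : ℕ} (hm : 1 ≤ m) (S : List Word) {st : St} (h : LastInv (m + 1) st) :
    LastInv m (level S m st) := by
  have h1 := lastInv_stInp hm S h
  have hspec := mergeAll_spec m (stInp S m st).1 (fun X hX => ⟨(h1 X hX).1, (h1 X hX).2.le⟩)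
  rw [level_eq]
  intro X hX
  simp only [List.mem_filter] at hX
  obtain ⟨h2, _, Y, hY, h3⟩ := hspec.1 X hX.1
  exact ⟨h2, by rw [h3]; exact (h1 Y hY).2⟩

theorem evo_level_mid {m m' : ℕ} (hm' : 1 ≤ m') (hm : m' ≤ m) (S : List Word) (st : St)
    (h : LastInv (m' + 1) st) : Evo m st (level S m' st) := by
  have h1 : Evo m st (stInp S m' st) :=
    ((evo_ext m st).trans (evo_foldl m _ (fun st K => evo_issue m m' st K) _ _)).trans
      (evo_foldl m _ (fun st s => evo_addInput m m' st s) _ _)
  exact h1.trans (evo_close hm S st (lastInv_stInp hm' S h))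

/-- rings created at level `m` have level `< m` -/
theorem ring_level {m : ℕ} (hm : 1 ≤ m) (S : List Word) {st : St} (h : LastInv (m + 1) st) {P : PL}
    (hP : P ∈ (level S m st).2) : P ∈ st.2 ∨ levN P < m := by
  have h1 := lastInv_stInp hm S h
  have hspec := mergeAll_spec m (stInp S m st).1 (fun X hX => ⟨(h1 X hX).1, (h1 X hX).2.le⟩)
  rw [level_eq] at hP
  simp only [List.mem_append, List.mem_filter] at hP
  rcases hP with hP | ⟨hP, _⟩
  · left; rwa [stInp_snd] at hP
  · right
    obtain ⟨h2, h3, _⟩ := hspec.1 P hP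
    have := levN_le (lastW_mem h2)
    omega

/-! ### the states `stt` -/

theorem lastInv_stt (S : List Word) : ∀ i, i ≤ maxLen S → LastInv (maxLen S - i + 1) (stt S i) := by
  intro i
  induction i with
  | zero => intro _ X hX; simp [stt] at hX
  | succ i ih =>
    intro hi
    have e : maxLen S - (i + 1) + 1 = maxLen S - i := by omega
    rw [e]
    exact lastInv_level (by omega) S (ih (by omega))

theorem evo_stt (S : List Word) (m : ℕ) (i : ℕ) (hi : maxLen S - i ≤ m) :
    ∀ j, i ≤ j → j ≤ maxLen S → Evo m (stt S i) (stt S j) := by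
  intro j hij
  induction j, hij using Nat.le_induction with
  | base => intro _; exact Evo.refl _ _
  | succ j hij ih =>
    intro hj
    exact (ih (by omega)).trans (evo_level_mid (by omega) (by omega) S _ (lastInv_stt S j (by omega)))

theorem ring_stt (S : List Word) (K : PL) (i : ℕ) (hi : maxLen S - i ≤ levN K) :
    ∀ j, i ≤ j → j ≤ maxLen S → K ∈ (stt S j).2 → K ∈ (stt S i).2 := by
  intro j hij
  induction j, hij using Nat.le_induction with
  | base => intro _ h; exact h
  | succ j hij ih =>
    intro hj hK
    rcases ring_level (by omega) S (lastInv_stt S j (by omega)) hK with h | h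
    · exact ih (by omega) h
    · omega

/-! ### vertices of blocks -/

theorem mem_column' (p q v : Word) : v ∈ column p q ↔ v <+: q ∧ p.length - 1 ≤ v.length := by
  unfold column
  simp only [List.mem_map, List.mem_range]
  constructor
  · rintro ⟨k, hk, rfl⟩
    refine ⟨List.take_prefix _ _, ?_⟩
    rw [List.length_take]
    omega
  · rintro ⟨h1, h2⟩
    have h3 := h1.length_le
    refine ⟨v.length - (p.length - 1), by omega, ?_⟩
    have e : p.length - 1 + (v.length - (p.length - 1)) = v.length := by omega
    rw [e]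
    exact (List.prefix_iff_eq_take.mp h1).symm

theorem mem_nodes (P : PL) (v : Word) :
    v ∈ nodes P ↔ ∃ (s : ℕ) (p q : Word), (lastW P :: P)[s]? = some p ∧ P[s]? = some q ∧
      v <+: q ∧ p.length - 1 ≤ v.length := by
  unfold nodes
  simp only [List.mem_flatMap]
  constructor
  · rintro ⟨⟨p, q⟩, hpq, hv⟩
    rw [List.mem_iff_getElem?] at hpq
    obtain ⟨s, hs⟩ := hpq
    rw [List.getElem?_zip_eq_some] at hs
    rw [mem_column'] at hv
    exact ⟨s, p, q, hs.1, hs.2, hv⟩
  · rintro ⟨s, p, q, hp, hq, h1, h2⟩
    refine ⟨(p, q), ?_, (mem_column' _ _ _).mpr ⟨h1, h2⟩⟩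
    rw [List.mem_iff_getElem?]
    exact ⟨s, List.getElem?_zip_eq_some.mpr ⟨hp, hq⟩⟩

theorem length_lt_of_mem_closure {t q : Word} {m : ℕ} (ht : t.length < m)
    (hq : q ∈ t.tails.dropLast) : q.length < m := by
  have h1 : q ∈ t.tails := List.mem_of_mem_dropLast hq
  rw [List.mem_tails] at h1
  have := h1.length_le
  omega

/-- the vertices of length `≥ m` of `closeR X` are vertices of every ring containing `X` -/
theorem nodes_block {m : ℕ} (hm : 1 ≤ m) {X V : PL} (hX : (lastW X).length ≤ m)
    (hXV : Blk m X V) (hV : (lastW V).length ≤ m) {v : Word} (hv : v ∈ nodes (closeR X))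
    (hl : m ≤ v.length) : v ∈ nodes V := by
  rw [mem_nodes] at hv ⊢
  obtain ⟨s, p, q, hp, hq, h1, h2⟩ := hv
  obtain ⟨pre, post, rfl, hpre⟩ := hXV
  have hsX : s < X.length := by
    by_contra hc
    have hmem : q ∈ (lastW X).tail.tails.dropLast := by
      unfold closeR at hq
      rw [List.getElem?_append_right (by omega)] at hq
      exact List.mem_of_getElem? hq
    have h3 := length_lt_of_mem_closure (t := (lastW X).tail) (m := m)
      (by rw [List.length_tail]; omega) hmem
    have h4 := h1.length_le
    omega
  have hXs : X[s]? = some q := by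
    unfold closeR at hq
    rwa [List.getElem?_append_left hsX] at hq
  have hq' : (pre ++ X ++ post)[pre.length + s]? = some q := by
    rw [List.append_assoc, List.getElem?_append_right (by omega)]
    rw [Nat.add_sub_cancel_left, List.getElem?_append_left hsX]
    exact hXs
  cases s with
  | zero =>
    rcases List.eq_nil_or_concat' pre with rfl | ⟨pre', a, rfl⟩
    · exact ⟨0, lastW ([] ++ X ++ post), q, by simp, by simpa using hq', h1, by omega⟩
    · refine ⟨(pre' ++ [a]).length + 0, a, q, ?_, hq', h1, ?_⟩
      · have hlen : (pre' ++ [a]).length + 0 = pre'.length + 1 := by simp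
        rw [hlen, List.getElem?_cons_succ, List.append_assoc, List.append_assoc,
          List.getElem?_append_right (by omega)]
        simp
      · have h5 : (lastW (pre' ++ [a])).length ≤ m := hpre.resolve_left (by simp)
        rw [lastW_append (by simp)] at h5
        simp only [lastW, List.getLastD_eq_getLast?, List.getLast?_singleton, Option.getD_some] at h5
        omega
  | succ s =>
    refine ⟨pre.length + (s + 1), p, q, ?_, hq', h1, h2⟩
    rw [List.getElem?_cons_succ] at hp
    unfold closeR at hp
    rw [List.getElem?_append_left (by omega)] at hp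
    have e : pre.length + (s + 1) = (pre.length + s) + 1 := by omega
    rw [e, List.getElem?_cons_succ, List.append_assoc, List.getElem?_append_right (by omega),
      Nat.add_sub_cancel_left, List.getElem?_append_left (by omega)]
    exact hp

/-! ### no candidate is left -/

theorem length_of_inU {z v : Word} {w : ℕ} (h : inU z w v = true) : z.length - w ≤ v.length := by
  unfold inU at h
  rw [List.any_eq_true] at h
  obtain ⟨r, _, h2⟩ := h
  simp only [Bool.and_eq_true, decide_eq_true_eq] at h2
  omega

theorem visU_iff (K A : PL) :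
    visU K A = true ↔ ∃ v ∈ nodes A, inU (bottom K) K.length v = true := by
  unfold visU
  rw [List.any_eq_true]

theorem candB_iff (fam : List PL) (K : PL) : candB fam K = true ↔ wrapB K = true ∧
    (∀ A ∈ fam, visU K A = true → wrapB A = true ∧ levN K ≤ levN A) ∧
    (∀ A ∈ fam, visU K A = true → ∀ B ∈ fam, visU K B = true → linkedB A B = false) := by
  unfold candB
  simp only [Bool.and_eq_true, List.all_eq_true, Bool.or_eq_true, Bool.not_eq_true',
    decide_eq_true_eq, List.mem_filter]
  constructor
  · rintro ⟨⟨h1, h2⟩, h3⟩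
    refine ⟨h1, fun A hA hv => ?_, fun A hA hv B hB hv' => h3 A ⟨hA, hv⟩ B ⟨hB, hv'⟩⟩
    rcases h2 A hA with h | h
    · rw [hv] at h; exact absurd h (by simp)
    · exact h
  · rintro ⟨h1, h2, h3⟩
    refine ⟨⟨h1, fun A hA => ?_⟩, fun A hA B hB => h3 A hA.1 hA.2 B hB.1 hB.2⟩
    by_cases hv : visU K A = true
    · exact Or.inr (h2 A hA hv)
    · left; simpa using hv

/-- transfer of the candidate condition from the final family to a state -/
theorem candB_of_final {m : ℕ} (hm : 1 ≤ m) {st : St} {F : List PL} {K : PL}
    (hK : levN K = m + K.length) (hlast : LastInv m st)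
    (hrings : ∀ P ∈ st.2, P ∈ F)
    (hopens : ∀ X ∈ st.1, ∃ V ∈ F, Blk m X V ∧ V ≠ [] ∧ (lastW V).length ≤ m)
    (h : candB F K = true) : candB (famS st) K = true := by
  rw [candB_iff] at h ⊢
  obtain ⟨h1, h2, h3⟩ := h
  have hKne : K ≠ [] := by
    rintro rfl
    simp [levN, headW] at hK
    omega
  have hbot := length_bottom hKne (by omega)
  have key : ∀ A ∈ famS st, visU K A = true → A ∈ F := by
    intro A hA hv
    unfold famS at hA
    rw [List.mem_append, List.mem_map] at hA
    rcases hA with hA | ⟨X, hX, rfl⟩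
    · exact hrings A hA
    · exfalso
      rw [visU_iff] at hv
      obtain ⟨v, hv, hu⟩ := hv
      have hlen := length_of_inU hu
      rw [hbot] at hlen
      obtain ⟨V, hV, hXV, hne, hl⟩ := hopens X hX
      have hvV := nodes_block hm (hlast X hX).2.le hXV hl hv (by omega)
      have := (h2 V hV ((visU_iff K V).mpr ⟨v, hvV, hu⟩)).2
      have h5 := levN_le (lastW_mem hne)
      omega
  exact ⟨h1, fun A hA hv => h2 A (key A hA hv) hv,
    fun A hA hv B hB hv' => h3 A (key A hA hv) hv B (key B hB hv') hv'⟩

theorem lastW_singleton (x : Word) : lastW [x] = x := by simp [lastW]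

theorem self_mem_nodes_closeR {x : Word} : x ∈ nodes (closeR [x]) := by
  rw [mem_nodes]
  refine ⟨0, lastW (closeR [x]), x, by simp, by simp [closeR], List.prefix_refl _, ?_⟩
  unfold closeR
  rw [lastW_singleton]
  by_cases h : x.tail.tails.dropLast = []
  · rw [h, List.append_nil, lastW_singleton]
    omega
  · rw [lastW_append h]
    have h1 := lastW_mem h
    have h2 := List.mem_of_mem_dropLast h1
    rw [List.mem_tails] at h2
    have h3 := h2.length_le
    rw [List.length_tail] at h3
    omega

/-- at the end there are no open chains -/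
theorem opens_final_nil (S : List Word) : (stt S (maxLen S)).1 = [] := by
  by_contra hc
  obtain ⟨X, hX⟩ := List.exists_mem_of_ne_nil _ hc
  have h1 := lastInv_stt S (maxLen S) le_rfl X hX
  have h2 : linkB X X = true := by
    unfold linkB
    have : (lastW X).tail = [] := by
      rw [← List.length_eq_zero_iff, List.length_tail]
      omega
    rw [this]
    simp
  cases hL : maxLen S with
  | zero =>
    rw [hL] at hX
    simp [stt] at hX
  | succ n =>
    rw [hL] at hX
    have h3 : X ∈ (level S (maxLen S - n) (stt S n)).1 := hX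
    rw [level_eq] at h3
    simp only [List.mem_filter, Bool.not_eq_true'] at h3
    rw [h2] at h3
    exact absurd h3.2 (by simp)

/-- **no candidate is left**.  `hU`: the issued word of a wrapping ring belongs to `U`. -/
theorem no_cand_of (S : List Word) (K : PL) (hK : K ∈ ringsOf S)
    (hU : wrapB K = true → inU (bottom K) K.length (xw K) = true) :
    candB (ringsOf S) K = false := by
  by_contra hc
  have hcand : candB (ringsOf S) K = true := by simpa using hc
  have hw : wrapB K = true := ((candB_iff _ _).mp hcand).1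
  have hw' : K.length < levN K := by simpa [wrapB] using hw
  have hKne : K ≠ [] := by
    rintro rfl
    simp [levN, headW] at hw'
  -- the level of the demand
  obtain ⟨m, hm⟩ : ∃ m, levN K = m + K.length := ⟨levN K - K.length, by omega⟩
  have hm1 : 1 ≤ m := by omega
  have hKpos : 0 < K.length := List.length_pos_iff.mpr hKne
  -- `levN K < maxLen S`
  have hmax : levN K < maxLen S := by
    by_contra hcm
    have := ring_stt S K 0 (by omega) (maxLen S) (Nat.zero_le _) le_rfl hK
    simp [stt] at this
  -- the state before level `m`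
  set i := maxLen S - m with hi
  have hi' : maxLen S - i = m := by omega
  have hKi : K ∈ (stt S i).2 :=
    ring_stt S K i (by omega) (maxLen S) (by omega) le_rfl hK
  have hlastI : LastInv (m + 1) (stt S i) := by
    have := lastInv_stt S i (by omega)
    rwa [hi'] at this
  -- later evolution
  have hev : ∀ st, Evo m st (level S m (stt S i)) →
      (∀ P ∈ st.2, P ∈ ringsOf S) ∧
      (∀ X ∈ st.1, ∃ V ∈ ringsOf S, Blk m X V ∧ V ≠ [] ∧ (lastW V).length ≤ m) := by
    intro st hst
    have h1 : level S m (stt S i) = stt S (i + 1) := by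
      show _ = level S (maxLen S - i) (stt S i)
      rw [hi']
    rw [h1] at hst
    have h2 := hst.trans (evo_stt S m (i + 1) (by omega) (maxLen S) (by omega) le_rfl)
    refine ⟨h2.rings, fun X hX => ?_⟩
    rcases h2.opens X hX with ⟨Z, hZ, _⟩ | h
    · rw [opens_final_nil] at hZ
      exact absurd hZ (by simp)
    · exact h
  -- the fold over the rings
  obtain ⟨A, B, hAB⟩ := List.append_of_mem hKi
  set stK := A.foldl (issue m) (stExt (stt S i)) with hstK
  have hIss : stIss m (stt S i) = B.foldl (issue m) (issue m stK K) := by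
    unfold stIss
    have : (stExt (stt S i)).2 = A ++ K :: B := hAB
    rw [this, List.foldl_append, List.foldl_cons]
  have hlastK : LastInv m stK :=
    lastInv_foldl _ (fun _ K h => lastInv_issue hm1 h K) _ _ (lastInv_ext hlastI)
  have hevIss : Evo m (stIss m (stt S i)) (level S m (stt S i)) := by
    refine Evo.trans (evo_foldl m _ (fun st s => evo_addInput m m st s) S _) ?_
    exact evo_close le_rfl S _ (lastInv_stInp hm1 S hlastI)
  have hev2 : Evo m (issue m stK K) (level S m (stt S i)) := by
    have := evo_foldl m _ (fun st K => evo_issue m m st K) B (issue m stK K)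
    rw [← hIss] at this
    exact this.trans hevIss
  have hev1 : Evo m stK (level S m (stt S i)) := (evo_issue m m stK K).trans hev2
  obtain ⟨hr1, ho1⟩ := hev _ hev1
  have hcK : candB (famS stK) K = true := candB_of_final hm1 hm hlastK hr1 ho1 hcand
  -- so it was issued
  have hiss : issue m stK K = ([xw K] :: stK.1, stK.2) := by
    unfold issue
    rw [if_pos]
    simp [hm, hcK]
  rw [hiss] at hev2
  obtain ⟨_, ho2⟩ := hev _ hev2
  obtain ⟨V, hV, hXV, hne, hl⟩ := ho2 [xw K] (by simp)
  have hxl := length_xw hm1 hm
  have hxV : xw K ∈ nodes V :=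
    nodes_block hm1 (by simp [lastW, hxl]) hXV hl self_mem_nodes_closeR (by omega)
  have := (((candB_iff _ _).mp hcand).2.1 V hV ((visU_iff K V).mpr ⟨xw K, hxV, hU hw⟩)).2
  have h5 := levN_le (lastW_mem hne)
  omega

end Crest.Agent.R287.IFin
end

-- ▼ part R287/InUxw
section

/-! Row 287: the issued word is in `U(x_K)`. -/

set_option autoImplicit false

namespace Crest.Agent.R287

theorem inU_xw {K : PL} (hK : IsPRing K) (hw : wrapB K = true) :
    inU (bottom K) K.length (xw K) = true := by
  have hle : K.length ≤ levN K := by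
    unfold wrapB at hw
    rw [decide_eq_true_iff] at hw
    exact hw.le
  obtain ⟨z, _, h2, h3⟩ := exists_xw hK hle
  rw [inU_iff hK h2 hle]
  refine ⟨z, z + ((toRing K hK).lev - (toRing K hK).w), le_rfl, le_rfl, h3, ?_⟩
  rw [lev_toRing hK, toRing_w]
  omega


end Crest.Agent.R287
end

-- ▼ part R287/InUXw
section

/-! `inU_xw` is in `InUxw.lean` (helper694). -/
end

-- ▼ part R287/InvInputs
section

/-!
# Row 287: every input word is a factor of a word of a final ring
-/

set_option autoImplicit false

namespace Crest.Agent.R287.IFin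

/-- `s` is a factor of a word of the state -/
def Occ (st : St) (s : Word) : Prop := ∃ X, (X ∈ st.1 ∨ X ∈ st.2) ∧ ∃ p ∈ X, s <:+: p

theorem occursB_iff (st : St) (s : Word) : occursB st s = true ↔ Occ st s := by
  unfold occursB Occ
  simp only [List.any_eq_true, List.mem_append, List.mem_tails, List.isPrefixOf_iff_prefix]
  constructor
  · rintro ⟨X, hX, p, hp, q, hq, hs⟩
    exact ⟨X, hX, p, hp, hs.isInfix.trans hq.isInfix⟩
  · rintro ⟨X, hX, p, hp, ⟨a, b, hab⟩⟩
    refine ⟨X, hX, p, hp, s ++ b, ⟨a, by rw [← hab]; simp⟩, List.prefix_append _ _⟩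

theorem mem_of_blk {m : ℕ} {X Z : PL} (h : Blk m X Z) {p : Word} (hp : p ∈ X) : p ∈ Z := by
  obtain ⟨pre, post, rfl, _⟩ := h
  simp [hp]

theorem Occ.evo {m : ℕ} {st st' : St} (h : Evo m st st') {s : Word} (hs : Occ st s) :
    Occ st' s := by
  obtain ⟨X, hX, p, hp, hsp⟩ := hs
  rcases hX with hX | hX
  · rcases h.opens X hX with ⟨Z, hZ, hXZ⟩ | ⟨V, hV, hXV, _⟩
    · exact ⟨Z, Or.inl hZ, p, mem_of_blk hXZ hp, hsp⟩
    · exact ⟨V, Or.inr hV, p, mem_of_blk hXV hp, hsp⟩
  · exact ⟨X, Or.inr (h.rings X hX), p, hp, hsp⟩

theorem occ_addInput {m : ℕ} (st : St) {s : Word} (hs : s.length = m) :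
    Occ (addInput m st s) s := by
  unfold addInput
  by_cases h : occursB st s = true
  · rw [if_neg (by simp [h])]
    exact (occursB_iff _ _).mp h
  · rw [if_pos (by simp [hs, h])]
    exact ⟨[s], Or.inl (by simp), s, by simp, List.infix_refl _⟩

theorem length_le_maxLen {S : List Word} {s : Word} (hs : s ∈ S) : s.length ≤ maxLen S := by
  unfold maxLen
  induction S with
  | nil => simp at hs
  | cons a S ih =>
    rw [List.mem_cons] at hs
    simp only [List.map_cons, List.foldr_cons]
    rcases hs with rfl | hs
    · exact le_max_left _ _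
    · exact (ih hs).trans (le_max_right _ _)

/-- every nonempty input is a factor of a word of a final ring -/
theorem ringsOf_cover' (S : List Word) : ∀ s ∈ S, s ≠ [] →
    ∃ P ∈ ringsOf S, ∃ p ∈ P, s <:+: p := by
  intro s hs hne
  have hpos : 0 < s.length := List.length_pos_iff.mpr hne
  have hle := length_le_maxLen hs
  set m := s.length with hm
  set i := maxLen S - m with hi
  have hi' : maxLen S - i = m := by omega
  have hlastI : LastInv (m + 1) (stt S i) := by
    have := lastInv_stt S i (by omega)
    rwa [hi'] at this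
  obtain ⟨A, B, hAB⟩ := List.append_of_mem hs
  have h1 : Occ (stInp S m (stt S i)) s := by
    have e : stInp S m (stt S i) = B.foldl (addInput m) (addInput m
        (A.foldl (addInput m) (stIss m (stt S i))) s) := by
      have e2 : ∀ L : List Word, L = A ++ s :: B → L.foldl (addInput m) (stIss m (stt S i)) =
          B.foldl (addInput m) (addInput m (A.foldl (addInput m) (stIss m (stt S i))) s) := by
        rintro L rfl
        rw [List.foldl_append, List.foldl_cons]
      exact e2 S hAB
    rw [e]
    exact (occ_addInput _ rfl).evo (evo_foldl m _ (fun st s => evo_addInput m m st s) B _)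
  have h2 : Occ (level S m (stt S i)) s :=
    h1.evo (evo_close le_rfl S _ (lastInv_stInp hpos S hlastI))
  have h3 : level S m (stt S i) = stt S (i + 1) := by
    show _ = level S (maxLen S - i) (stt S i)
    rw [hi']
  rw [h3] at h2
  have h4 := h2.evo (evo_stt S m (i + 1) (by omega) (maxLen S) (by omega) le_rfl)
  obtain ⟨X, hX, p, hp, hsp⟩ := h4
  rw [opens_final_nil] at hX
  rcases hX with hX | hX
  · exact absurd hX (by simp)
  · exact ⟨X, hX, p, hp, hsp⟩

end Crest.Agent.R287.IFin

namespace Crest.Agent.R287

/-- every nonempty input is a factor of a word of a final ring -/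
theorem ringsOf_cover (S : List Word) : ∀ s ∈ S, s ≠ [] →
    ∃ P ∈ ringsOf S, ∃ p ∈ P, s <:+: p := IFin.ringsOf_cover' S

/-- no candidate is left -/
theorem ringsOf_noCand_of (S : List Word) (h : ∀ P ∈ ringsOf S, IsPRing P) :
    ∀ K ∈ ringsOf S, candB (ringsOf S) K = false := fun K hK =>
  IFin.no_cand_of S K hK (fun hw => inU_xw (h K hK) hw)

end Crest.Agent.R287
end

-- ▼ part R287/Final
section

/-!
Row 287: S0432 from the two process facts.
-/

set_option autoImplicit false

namespace Crest.Agent.R287

/-- everything except the two process facts -/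
theorem final_of
    (hR : ∀ S : List Word, ∀ P ∈ ringsOf S, IsPRing P)
    (hlb : ∀ (S : List Word) (T : Word), (∀ s ∈ S, s <:+: T) →
      ((ringsOf S).map List.length).sum ≤ T.length) :
    ∃ f : List Bool → List Bool, Crest.Complexity.PolyTime f ∧
      ∀ S : List (List ℕ), ∃ T : List ℕ,
        f (Crest.Enc.natCode S.length ++ (S.map Crest.Enc.listCode).flatten) = Crest.Enc.listCode T ∧
        (∀ s ∈ S, s <:+: T) ∧
        ∀ T' : List ℕ, (∀ s ∈ S, s <:+: T') → T.length ≤ 2 * T'.length := by
  obtain ⟨h1, h2⟩ := main_correct hR ringsOf_cover hlb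
    (fun S => geoHyp_wcsOf (ringsOf S) (hR S) (ringsOf_noCand_of S (hR S)))
  exact result_of_alg alg (ptf_alg sttBd) h1 h2

end Crest.Agent.R287
end

-- ▼ part R287/ProcFin

/-!
Row 287: the lower bound for the final rings and S0432.
-/

set_option autoImplicit false

namespace Crest.Agent.R287

theorem ringsOf_sum_le (S : List Word) (T : Word) (hT : ∀ s ∈ S, s <:+: T) :
    ((ringsOf S).map List.length).sum ≤ T.length := by
  have h := IC.sum_le_of_struct S hT (fun i hi => by
    have h := linv_stt S hi
    refine ⟨⟨fun X hX => ?_, fun P hP => ?_⟩, h.free⟩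
    · exact ⟨(h.opens X hX).ne, (h.opens X hX).chain, (h.opens X hX).len, (h.opens X hX).last⟩
    · exact ⟨(h.rings P hP).ring, (h.rings P hP).len⟩)
  have e : ((stt S (maxLen S)).1 ++ (stt S (maxLen S)).2).flatten.length
      = ((stt S (maxLen S)).1.map List.length).sum + ((ringsOf S).map List.length).sum := by
    rw [List.flatten_append, List.length_append, List.length_flatten, List.length_flatten]
    rfl
  omega

/-- the statement S0432 -/
theorem s0432 :
    ∃ f : List Bool → List Bool, Crest.Complexity.PolyTime f ∧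
      ∀ S : List (List ℕ), ∃ T : List ℕ,
        f (Crest.Enc.natCode S.length ++ (S.map Crest.Enc.listCode).flatten) = Crest.Enc.listCode T ∧
        (∀ s ∈ S, s <:+: T) ∧
        ∀ T' : List ℕ, (∀ s ∈ S, s <:+: T') → T.length ≤ 2 * T'.length :=
  final_of ringsOf_isPRing ringsOf_sum_le

end Crest.Agent.R287
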