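import Crest.Agent.R287.Ring

/-!
Row 287: the star lemma (cost side).  `A` is a ring, `K i` are wrapping rings which are far below `A`.
The first vertices of `A` (from a suitable start) that lie over the `K i` give entries that form a chain
along the text of `A`, and the window of the text of `A` spanned by them has length at most
`w_A + ∑ w_i`.
-/

set_option autoImplicit false

namespace Crest.Agent.R287

namespace Star

/-- weak Fine–Wilf: periodic bi-infinite words with periods `p`, `q` which agree on an interval of length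
`p + q` are equal. -/
theorem fineWilf {f g : ℤ → ℕ} {p q : ℕ} (hp : 0 < p) (hq : 0 < q)
    (hf : ∀ s, f (s + p) = f s) (hg : ∀ s, g (s + q) = g s) {a b : ℤ}
    (hab : a + p + q ≤ b) (h : ∀ x, a ≤ x → x < b → f x = g x) : ∀ x, f x = g x := by
  have hm : ∀ (f : ℤ → ℕ) (p : ℕ), (∀ s, f (s + p) = f s) → ∀ (n : ℤ) s, f (s + n * p) = f s := by
    intro f p hf n
    induction n using Int.induction_on with
    | zero => intro s; simp
    | succ i ih => intro s; rw [← ih s, ← hf (s + i * p)]; congr 1; ring
    | pred i ih => intro s; rw [← ih s, ← hf (s + (-i - 1) * p)]; congr 1; ring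
  have hfm := hm f p hf
  have hgm := hm g q hg
  have hpz : (0 : ℤ) < p := by exact_mod_cast hp
  have hqz : (0 : ℤ) < q := by exact_mod_cast hq
  have hfq : ∀ s, f (s + q) = f s := by
    intro s
    have e1 := Int.emod_add_mul_ediv (s - a) p
    have h1 := Int.emod_nonneg (s - a) (ne_of_gt hpz)
    have h2 := Int.emod_lt_of_pos (s - a) hpz
    set r := (s - a) % p with hr
    set k := (s - a) / p with hk
    have hs : s = (a + r) + k * p := by linarith [mul_comm (p : ℤ) k]
    have h3 : f (s + q) = f (a + r + q) := by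
      rw [show s + q = (a + r + q) + k * p by rw [hs]; ring, hfm]
    have h4 : f s = f (a + r) := by rw [hs, hfm]
    rw [h3, h4, h _ (by linarith) (by linarith), h _ (by linarith) (by linarith), hg]
  have hfqm := hm f q hfq
  intro x
  have e1 := Int.emod_add_mul_ediv (x - a) q
  have h1 := Int.emod_nonneg (x - a) (ne_of_gt hqz)
  have h2 := Int.emod_lt_of_pos (x - a) hqz
  set r := (x - a) % q with hr
  set k := (x - a) / q with hk
  have hx : x = (a + r) + k * q := by linarith [mul_comm (q : ℤ) k]
  rw [hx, hfqm, hgm]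
  exact h _ (by linarith) (by linarith)

theorem Vis.le_of_sum_le {A : Ring} {a b a' b' : ℤ} (h : A.Vis a b) (h' : A.Vis a' b')
    (hs : a + b ≤ a' + b') : a ≤ a' ∧ b ≤ b' := by
  have h1 : a ≤ a' := by
    by_contra hlt
    push Not at hlt
    have := A.mono (show a' ≤ a - 1 by omega)
    have := h.1; have := h'.2
    omega
  refine ⟨h1, ?_⟩
  by_contra hlt
  push Not at hlt
  rcases eq_or_lt_of_le h1 with rfl | h2
  · omega
  · have := A.mono (show a ≤ a' - 1 by omega)
    have := h.2; have := h'.1
    omega

theorem vis_shift {A : Ring} {a b : ℤ} : A.Vis (a + A.w) (b + A.w) ↔ A.Vis a b := by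
  simpa using A.Vis_per 1 a b

/-- the window `[a,b)` of the text of `A` is a vertex of `A` and lies over `K`, the text of `K` being aligned by
the shift `c`. -/
def Over (A K : Ring) (a b c : ℤ) : Prop :=
  A.Vis a b ∧ (∀ x, a ≤ x → x < b → A.κ x = K.κ (x + c)) ∧ K.F (a - 1 + c) - c ≤ b

theorem κper_sub (A : Ring) (s : ℤ) : A.κ (s - A.w) = A.κ s := by
  have := A.κper (s - A.w)
  simpa using this.symm

theorem Over.shift {A K : Ring} {a b c : ℤ} (h : Over A K a b c) :
    Over A K (a + A.w) (b + A.w) (c - A.w) := by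
  refine ⟨vis_shift.2 h.1, ?_, ?_⟩
  · intro x h1 h2
    have := h.2.1 (x - A.w) (by linarith) (by linarith)
    rw [κper_sub] at this
    rw [this]; congr 1; ring
  · rw [show a + A.w - 1 + (c - A.w) = a - 1 + c by ring]
    linarith [h.2.2]

theorem Over.unshift {A K : Ring} {a b c : ℤ} (h : Over A K (a + A.w) (b + A.w) (c - A.w)) :
    Over A K a b c := by
  refine ⟨vis_shift.1 h.1, ?_, ?_⟩
  · intro x h1 h2
    have := h.2.1 (x + A.w) (by linarith) (by linarith)
    rw [A.κper] at this
    rw [this]; congr 1; ring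
  · have := h.2.2
    rw [show a + A.w - 1 + (c - A.w) = a - 1 + c by ring] at this
    linarith

theorem Over.unshift' {A K : Ring} {a b c : ℤ} (h : Over A K a b c) :
    Over A K (a - A.w) (b - A.w) (c + A.w) := by
  apply Over.unshift
  simpa using h

/-- if all predecessors of vertices over `K` (in one phase) are again over `K` then the texts are equal -/
theorem all_agree {A K : Ring} {a₀ b₀ c : ℤ} (h₀ : Over A K a₀ b₀ c)
    (hpred : ∀ a b, Over A K a b c → ∃ a' b', a' + b' + 1 = a + b ∧ Over A K a' b' c) :
    ∀ x, A.κ x = K.κ (x + c) := by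
  -- every vertex of smaller index is over K
  have key : ∀ n : ℕ, ∀ a b, A.Vis a b → a + b + n = a₀ + b₀ → Over A K a b c := by
    intro n
    induction n with
    | zero =>
      intro a b hv hs
      have h1 := Vis.le_of_sum_le hv h₀.1 (by omega)
      have h2 := Vis.le_of_sum_le h₀.1 hv (by omega)
      have e1 : a = a₀ := by omega
      have e2 : b = b₀ := by omega
      rw [e1, e2]; exact h₀
    | succ n ih =>
      intro a b hv hs
      -- the successor of (a,b)
      by_cases hb : b < A.F a
      · have hv' : A.Vis a (b + 1) := ⟨by have := hv.1; omega, by omega⟩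
        obtain ⟨a', b', hs', ho⟩ := hpred _ _ (ih a (b + 1) hv' (by push_cast at hs; omega))
        have h1 := Vis.le_of_sum_le hv ho.1 (by omega)
        have h2 := Vis.le_of_sum_le ho.1 hv (by omega)
        have e1 : a = a' := by omega
        have e2 : b = b' := by omega
        rw [e1, e2]; exact ho
      · have hb' : b = A.F a := le_antisymm hv.2 (not_lt.1 hb)
        have hv' : A.Vis (a + 1) b := by
          refine ⟨?_, ?_⟩
          · simp [hb']
          · rw [hb']; exact A.mono (by omega)
        obtain ⟨a', b', hs', ho⟩ := hpred _ _ (ih (a + 1) b hv' (by push_cast at hs; omega))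
        have h1 := Vis.le_of_sum_le hv ho.1 (by omega)
        have h2 := Vis.le_of_sum_le ho.1 hv (by omega)
        have e1 : a = a' := by omega
        have e2 : b = b' := by omega
        rw [e1, e2]; exact ho
  have hlow : ∀ x, x < a₀ → A.κ x = K.κ (x + c) := by
    intro x hx
    have hv : A.Vis x (A.F x) := ⟨A.mono (by omega), le_refl _⟩
    have h1 : A.F x ≤ b₀ := by
      have := A.mono (show x ≤ a₀ - 1 by omega)
      have := h₀.1.1
      omega
    have := key (a₀ + b₀ - (x + A.F x)).toNat x (A.F x) hv (by omega)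
    exact this.2.1 x (le_refl _) (A.Fgt x)
  -- propagate by periodicity
  intro x
  have hwz : (0 : ℤ) < A.w := by exact_mod_cast A.wpos
  have hkz : (0 : ℤ) < K.w := by exact_mod_cast K.wpos
  obtain ⟨n, hn⟩ : ∃ n : ℕ, x - n * (A.w * K.w) < a₀ := by
    refine ⟨(x - a₀ + 1).toNat, ?_⟩
    have h1 : (1 : ℤ) ≤ A.w * K.w := by nlinarith
    have h2 : x - a₀ + 1 ≤ ((x - a₀ + 1).toNat : ℤ) := Int.self_le_toNat _
    have h3 : (0 : ℤ) ≤ ((x - a₀ + 1).toNat : ℤ) := by positivity
    nlinarith
  have h1 := hlow _ hn
  have h2 : A.κ (x - n * (A.w * K.w)) = A.κ x := by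
    have := A.κper' (-(n * K.w)) x
    rw [← this]; congr 1; ring
  have h3 : K.κ (x - n * (A.w * K.w) + c) = K.κ (x + c) := by
    have := K.κper' (-(n * A.w)) (x + c)
    rw [← this]; congr 1; ring
  rw [← h2, h1, h3]

/-- a good start exists: a vertex over `K` whose predecessor is not over `K` in the same phase -/
theorem exists_start {A K : Ring} {a₀ b₀ c : ℤ} (h₀ : Over A K a₀ b₀ c)
    (hne : ¬ ∀ x, A.κ x = K.κ (x + c)) :
    ∃ a b, Over A K a b c ∧ ∀ a' b', a' + b' + 1 = a + b → ¬ Over A K a' b' c := by
  by_contra hcon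
  push Not at hcon
  exact hne (all_agree h₀ hcon)

/-- first over vertex -/
theorem exists_first {A K : Ring} (h : ∃ a b c, Over A K a b c) (τ : ℤ) :
    ∃ a b c, Over A K a b c ∧ τ ≤ a + b ∧ ∀ x y z, Over A K x y z → τ ≤ x + y → a + b ≤ x + y := by
  classical
  have hwz : (0 : ℤ) < A.w := by exact_mod_cast A.wpos
  -- an over vertex beyond τ
  have hex : ∃ n : ℕ, ∃ a b c, Over A K a b c ∧ a + b = τ + n := by
    obtain ⟨a, b, c, hab⟩ := h
    have hsh : ∀ m : ℕ, Over A K (a + m * A.w) (b + m * A.w) (c - m * A.w) := by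
      intro m
      induction m with
      | zero => simpa using hab
      | succ m ih =>
        have := ih.shift
        have e1 : a + ((m + 1 : ℕ) : ℤ) * A.w = a + m * A.w + A.w := by push_cast; ring
        have e2 : b + ((m + 1 : ℕ) : ℤ) * A.w = b + m * A.w + A.w := by push_cast; ring
        have e3 : c - ((m + 1 : ℕ) : ℤ) * A.w = c - m * A.w - A.w := by push_cast; ring
        rw [e1, e2, e3]; exact this
    have h1 := hsh (τ - (a + b)).toNat
    have h2 : τ - (a + b) ≤ ((τ - (a + b)).toNat : ℤ) := Int.self_le_toNat _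
    have h3 : (0 : ℤ) ≤ ((τ - (a + b)).toNat : ℤ) := by positivity
    set m : ℤ := ((τ - (a + b)).toNat : ℤ)
    have h4 : τ ≤ a + m * A.w + (b + m * A.w) := by nlinarith
    refine ⟨(a + m * A.w + (b + m * A.w) - τ).toNat, _, _, _, h1, ?_⟩
    omega
  obtain ⟨a, b, c, hab, hs⟩ := Nat.find_spec hex
  refine ⟨a, b, c, hab, by omega, ?_⟩
  intro x y z ho hxy
  have := Nat.find_min' hex (m := (x + y - τ).toNat) ⟨x, y, z, ho, by omega⟩
  omega

variable {ι : Type*} [Fintype ι]


end Star

end Crest.Agent.R287
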